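import Crest.Agent.LpDim.Wn

/-!
Row 232, CHUNK ATOMS: expectations over `N` independent signed atoms.
-/

set_option autoImplicit false

namespace Crest.Agent.LpDim

open Finset

variable {W : Type} [Fintype W] {μ : W → ℝ} {N : ℕ}

/-- integrate the first atom out (`Fin.consEquiv`/`Fin.cons`) -/
theorem EN_succ (N : ℕ) (f : (Fin (N + 1) → W × Bool) → ℝ) :
    EN μ (N + 1) f =
      ∑ w, μ w / 2 * (EN μ N (fun ω => f (Fin.cons (w, true) ω)) +
        EN μ N (fun ω => f (Fin.cons (w, false) ω))) := by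
  unfold EN
  rw [← (Fin.consEquiv (fun _ : Fin (N + 1) => W × Bool)).sum_comp]
  rw [Fintype.sum_prod_type, Fintype.sum_prod_type]
  refine Finset.sum_congr rfl fun w _ => ?_
  rw [Fintype.sum_bool, mul_add, Finset.mul_sum, Finset.mul_sum]
  congr 1
  · refine Finset.sum_congr rfl fun ω _ => ?_
    have e : (Fin.consEquiv (fun _ : Fin (N + 1) => W × Bool)) ((w, true), ω) =
      Fin.cons (w, true) ω := rfl
    rw [e]
    simp only [Fin.prod_univ_succ, Fin.cons_zero, Fin.cons_succ]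
    ring
  · refine Finset.sum_congr rfl fun ω _ => ?_
    have e : (Fin.consEquiv (fun _ : Fin (N + 1) => W × Bool)) ((w, false), ω) =
      Fin.cons (w, false) ω := rfl
    rw [e]
    simp only [Fin.prod_univ_succ, Fin.cons_zero, Fin.cons_succ]
    ring

/-- total mass one -/
theorem EN_const (hμ1 : ∑ w, μ w = 1) (N : ℕ) (a : ℝ) : EN μ N (fun _ => a) = a := by
  induction N with
  | zero => simp [EN]
  | succ N ih =>
    rw [EN_succ, ih]
    have : ∑ w, μ w / 2 * (a + a) = (∑ w, μ w) * a := by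
      rw [Finset.sum_mul]
      exact Finset.sum_congr rfl fun w _ => by ring
    rw [this, hμ1, one_mul]

omit [Fintype W] in
theorem SS_cons (Y : W → ℝ) (a : W × Bool) (ω : Fin N → W × Bool) :
    SS Y (Fin.cons a ω : Fin (N + 1) → W × Bool) = sg a.2 * Y a.1 + SS Y ω := by
  unfold SS
  rw [Fin.sum_univ_succ]
  simp only [Fin.cons_zero, Fin.cons_succ]

theorem EN_mono (hμ : ∀ w, 0 ≤ μ w) {f g : (Fin N → W × Bool) → ℝ} (h : ∀ ω, f ω ≤ g ω) :
    EN μ N f ≤ EN μ N g := by
  unfold EN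
  refine Finset.sum_le_sum fun ω _ => ?_
  refine mul_le_mul_of_nonneg_left (h ω) ?_
  exact Finset.prod_nonneg fun m _ => div_nonneg (hμ _) (by norm_num)

theorem EN_add (f g : (Fin N → W × Bool) → ℝ) :
    EN μ N (fun ω => f ω + g ω) = EN μ N f + EN μ N g := by
  unfold EN
  rw [← Finset.sum_add_distrib]
  exact Finset.sum_congr rfl fun ω _ => by ring

theorem EN_mul (a : ℝ) (f : (Fin N → W × Bool) → ℝ) :
    EN μ N (fun ω => a * f ω) = a * EN μ N f := by
  unfold EN
  rw [Finset.mul_sum]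
  exact Finset.sum_congr rfl fun ω _ => by ring

/-- expectation of the function of one atom -/
theorem EN_single (hμ1 : ∑ w, μ w = 1) (m : Fin N) (g : W → ℝ) :
    EN μ N (fun ω => g (ω m).1) = ∑ w, μ w * g w := by
  induction N with
  | zero => exact m.elim0
  | succ N ih =>
    rw [EN_succ]
    refine Fin.cases ?_ (fun k => ?_) m
    · simp only [Fin.cons_zero]
      refine Finset.sum_congr rfl fun w _ => ?_
      rw [EN_const hμ1]
      ring
    · simp only [Fin.cons_succ]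
      rw [ih k]
      have : ∑ w, μ w / 2 * (∑ w, μ w * g w + ∑ w, μ w * g w) = (∑ w, μ w) * ∑ w, μ w * g w := by
        rw [Finset.sum_mul]
        exact Finset.sum_congr rfl fun w _ => by ring
      rw [this, hμ1, one_mul]

/-- `EN` of `|SS Y|^p` as a `wn`-norm on the finite space `Fin N → W × Bool`; Minkowski. -/
theorem EN_minkowski (hμ : ∀ w, 0 ≤ μ w) {p : ℝ} (hp : 1 ≤ p) (f g : (Fin N → W × Bool) → ℝ) :
    (EN μ N (fun ω => |f ω + g ω| ^ p)) ^ (1 / p) ≤
      (EN μ N (fun ω => |f ω| ^ p)) ^ (1 / p) + (EN μ N (fun ω => |g ω| ^ p)) ^ (1 / p) := by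
  have h := wn_add_le (μ := fun ω : Fin N → W × Bool => ∏ m, μ (ω m).1 / 2)
    (fun ω => Finset.prod_nonneg fun m _ => div_nonneg (hμ _) (by norm_num)) hp f g
  exact h

theorem cosh_le_one_add_sq {u : ℝ} (hu : |u| ≤ 1) : Real.cosh u ≤ 1 + u ^ 2 := by
  have h1 := Real.cosh_le_exp_half_sq u
  have h2 : u ^ 2 ≤ 1 := by
    rw [← sq_abs]
    exact pow_le_one₀ (abs_nonneg u) hu
  have h3 : |u ^ 2 / 2| ≤ 1 := by
    rw [abs_of_nonneg (by positivity)]
    linarith
  have h4 := Real.abs_exp_sub_one_le h3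
  rw [abs_of_nonneg (show (0 : ℝ) ≤ u ^ 2 / 2 by positivity)] at h4
  have h5 := le_abs_self (Real.exp (u ^ 2 / 2) - 1)
  linarith

/-- exponential moments: `E exp (s SS) = (∑ μ cosh (s Y))^N ≤ exp (N s² ∑ μ Y²)` if `|s Y| ≤ 1` (`cosh u ≤ 1 + u²`). -/
theorem EN_exp_le (hμ : ∀ w, 0 ≤ μ w) (hμ1 : ∑ w, μ w = 1) (Y : W → ℝ) (s : ℝ)
    (hs : ∀ w, |s * Y w| ≤ 1) (N : ℕ) :
    EN μ N (fun ω => Real.exp (s * SS Y ω)) ≤ Real.exp (N * s ^ 2 * ∑ w, μ w * Y w ^ 2) := by
  induction N with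
  | zero =>
    have : EN μ 0 (fun ω => Real.exp (s * SS Y ω)) = 1 := by
      simp [EN, SS]
    rw [this]
    simp
  | succ N ih =>
    set A := EN μ N (fun ω => Real.exp (s * SS Y ω)) with hA
    have hA0 : 0 ≤ A := by
      have := EN_mono (N := N) hμ (f := fun _ => 0) (g := fun ω => Real.exp (s * SS Y ω))
        (fun ω => (Real.exp_pos _).le)
      rwa [EN_const hμ1] at this
    have e1 : EN μ (N + 1) (fun ω => Real.exp (s * SS Y ω)) =
        (∑ w, μ w * Real.cosh (s * Y w)) * A := by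
      rw [EN_succ, Finset.sum_mul]
      refine Finset.sum_congr rfl fun w _ => ?_
      have e2 : EN μ N (fun ω => Real.exp (s * SS Y (Fin.cons (w, true) ω : Fin (N + 1) → W × Bool))) =
          Real.exp (s * Y w) * A := by
        rw [hA, ← EN_mul]
        congr 1
        funext ω
        rw [SS_cons, ← Real.exp_add]
        simp only [sg, if_true]
        congr 1
        ring
      have e3 : EN μ N (fun ω => Real.exp (s * SS Y (Fin.cons (w, false) ω : Fin (N + 1) → W × Bool))) =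
          Real.exp (-(s * Y w)) * A := by
        rw [hA, ← EN_mul]
        congr 1
        funext ω
        rw [SS_cons, ← Real.exp_add]
        simp only [sg]
        congr 1
        simp
        ring
      rw [e2, e3, Real.cosh_eq]
      ring
    have h2 : ∑ w, μ w * Real.cosh (s * Y w) ≤ Real.exp (s ^ 2 * ∑ w, μ w * Y w ^ 2) := by
      calc ∑ w, μ w * Real.cosh (s * Y w) ≤ ∑ w, μ w * (1 + (s * Y w) ^ 2) :=
            Finset.sum_le_sum fun w _ =>
              mul_le_mul_of_nonneg_left (cosh_le_one_add_sq (hs w)) (hμ w)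
        _ = s ^ 2 * ∑ w, μ w * Y w ^ 2 + ∑ w, μ w := by
            rw [Finset.mul_sum, ← Finset.sum_add_distrib]
            exact Finset.sum_congr rfl fun w _ => by ring
        _ = s ^ 2 * ∑ w, μ w * Y w ^ 2 + 1 := by rw [hμ1]
        _ ≤ _ := Real.add_one_le_exp _
    rw [e1]
    calc (∑ w, μ w * Real.cosh (s * Y w)) * A
        ≤ Real.exp (s ^ 2 * ∑ w, μ w * Y w ^ 2) * Real.exp (N * s ^ 2 * ∑ w, μ w * Y w ^ 2) :=
          mul_le_mul h2 ih hA0 (Real.exp_pos _).le
      _ = _ := by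
          rw [← Real.exp_add]
          congr 1
          push_cast
          ring

/-- hence `E exp (s |SS|) ≤ 2 exp (N s² ∑ μ Y²)` -/
theorem EN_exp_abs_le (hμ : ∀ w, 0 ≤ μ w) (hμ1 : ∑ w, μ w = 1) (Y : W → ℝ) (s : ℝ)
    (hs : ∀ w, |s * Y w| ≤ 1) (N : ℕ) :
    EN μ N (fun ω => Real.exp (|s| * |SS Y ω|)) ≤
      2 * Real.exp (N * s ^ 2 * ∑ w, μ w * Y w ^ 2) := by
  have h1 : EN μ N (fun ω => Real.exp (|s| * |SS Y ω|)) ≤
      EN μ N (fun ω => Real.exp (s * SS Y ω) + Real.exp (-s * SS Y ω)) := by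
    refine EN_mono hμ fun ω => ?_
    rw [← abs_mul]
    rcases abs_cases (s * SS Y ω) with ⟨h, -⟩ | ⟨h, -⟩
    · rw [h]
      linarith [Real.exp_pos (-s * SS Y ω)]
    · rw [h, neg_mul]
      linarith [Real.exp_pos (s * SS Y ω)]
  rw [EN_add] at h1
  have h2 := EN_exp_le hμ hμ1 Y s hs N
  have h3 := EN_exp_le hμ hμ1 Y (-s) (fun w => by
    rw [neg_mul, abs_neg]; exact hs w) N
  rw [neg_sq] at h3
  linarith

end Crest.Agent.LpDim
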