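import Crest.Agent.LpDim.CommGt1

/-!
Row 232, CHUNK R232-COMMGT2.
-/

set_option autoImplicit false

namespace Crest.Agent.LpDim

open Finset

/-- `p > 2`. PROOF. Hoelder: `E_P ‖G‖ = E_P ‖G‖ (1+R)^{-(p-2)/p} (1+R)^{(p-2)/p} ≤
(E ‖G‖^p (1+R)^{-(p-2)})^{1/p} (E (1+R)^{(p-2)/(p-1)})^{1-1/p}`, and `E (1+R)^{(p-2)/(p-1)} ≤ (E (1+R))^{(p-2)/(p-1)}
≤ (1+T)^{...} ≤ (2T)^{...}` by concavity. -/
theorem comm_gt (p : ℝ) (hp : 2 < p) : ∃ C : ℝ, 0 < C ∧
    ∀ (E W κ : Type) [Fintype E] [Fintype W] [Fintype κ] (P : E → ℝ) (S : E → E → ℝ)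
      (T : ℝ) (μ : W → ℝ) (v : E → W → ℝ) (θ : κ → ℝ → ℝ) (c : ℝ), CommData P S T μ v θ c p →
      ∑ e, P e * (∑ k, ∑ w, μ w * |gerr S v θ e k w| ^ p) ^ (1 / p) ≤ C * c * T ^ (1 - 2 / p) := by
  obtain ⟨C, hC, H⟩ := comm_gt_weighted p hp
  refine ⟨C ^ (1 / p) * 2 ^ (1 - 2 / p), by positivity, ?_⟩
  intro E W κ _ _ _ P S T μ v θ c h
  have hw := H E W κ P S T μ v θ c h
  have hp0 : 0 < p := by linarith
  have hp1 : 0 < p - 1 := by linarith
  have hp2 : 0 < p - 2 := by linarith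
  have hPn : ∀ e, 0 ≤ P e := h.ok.nonneg
  have hT1 : 1 ≤ T := h.T_ge
  have hc : 0 < c := h.c_pos
  obtain ⟨A, hAdef⟩ : ∃ A : E → ℝ, A = fun e => ∑ k, ∑ w, μ w * |gerr S v θ e k w| ^ p := ⟨_, rfl⟩
  obtain ⟨D, hDdef⟩ : ∃ D : E → ℝ, D = fun e => 1 + ∑ e', |S e e'| := ⟨_, rfl⟩
  have hA : ∀ e, 0 ≤ A e := by
    intro e
    rw [hAdef]
    exact Finset.sum_nonneg fun k _ => Finset.sum_nonneg fun w _ =>
      mul_nonneg (h.μ_nonneg w) (Real.rpow_nonneg (abs_nonneg _) _)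
  have hD : ∀ e, 1 ≤ D e := by
    intro e
    rw [hDdef]
    have : 0 ≤ ∑ e', |S e e'| := Finset.sum_nonneg fun _ _ => abs_nonneg _
    simp only
    linarith
  have hD0 : ∀ e, 0 < D e := fun e => lt_of_lt_of_le one_pos (hD e)
  have hw' : ∑ e, P e * (A e * D e ^ (-(p - 2))) ≤ C * c ^ p := by
    rw [hAdef, hDdef]; exact hw
  have hgoal : ∑ e, P e * (∑ k, ∑ w, μ w * |gerr S v θ e k w| ^ p) ^ (1 / p)
      = ∑ e, P e * A e ^ (1 / p) := by rw [hAdef]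
  rw [hgoal]
  -- mean of D
  have hmeanD : ∑ e, P e * D e ≤ 2 * T := by
    have h1 : ∑ e, P e * D e = ∑ e, P e + ∑ e, P e * ∑ e', |S e e'| := by
      rw [← Finset.sum_add_distrib]
      refine Finset.sum_congr rfl fun e _ => ?_
      rw [hDdef]; ring
    rw [h1, h.ok.sum_one]
    have := h.ok.row
    linarith
  set s : ℝ := (p - 2) / (p - 1) with hs
  have hs0 : 0 < s := div_pos hp2 hp1
  have hs1 : s < 1 := by rw [hs, div_lt_one hp1]; linarith
  have hmeanDs : ∑ e, P e * D e ^ s ≤ (2 * T) ^ s := by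
    have h1 : (∑ e, P e * D e ^ s) ^ (1 / s) ≤ ∑ e, P e * (D e ^ s) ^ (1 / s) :=
      Real.rpow_arith_mean_le_arith_mean_rpow Finset.univ P (fun e => D e ^ s)
        (fun e _ => hPn e) h.ok.sum_one (fun e _ => Real.rpow_nonneg (hD0 e).le _)
        (by rw [le_div_iff₀ hs0]; linarith)
    have h2 : ∑ e, P e * (D e ^ s) ^ (1 / s) = ∑ e, P e * D e := by
      refine Finset.sum_congr rfl fun e _ => ?_
      rw [← Real.rpow_mul (hD0 e).le, mul_one_div_cancel hs0.ne', Real.rpow_one]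
    rw [h2] at h1
    have h3 : 0 ≤ ∑ e, P e * D e ^ s :=
      Finset.sum_nonneg fun e _ => mul_nonneg (hPn e) (Real.rpow_nonneg (hD0 e).le _)
    have h4 : (∑ e, P e * D e ^ s) = ((∑ e, P e * D e ^ s) ^ (1 / s)) ^ s := by
      rw [← Real.rpow_mul h3, one_div_mul_cancel hs0.ne', Real.rpow_one]
    rw [h4]
    exact Real.rpow_le_rpow (Real.rpow_nonneg h3 _) (h1.trans hmeanD) hs0.le
  -- Hoelder
  set q : ℝ := p / (p - 1) with hq
  have hq0 : 0 < q := div_pos hp0 hp1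
  have hconj : p.HolderConjugate q := by
    rw [Real.holderConjugate_iff]
    refine ⟨by linarith, ?_⟩
    rw [hq, inv_div]
    field_simp
    ring
  have h1q : 1 / q = (p - 1) / p := by rw [hq, one_div_div]
  have hold := Real.inner_le_Lp_mul_Lq Finset.univ
    (fun e => (P e * (A e * D e ^ (-(p - 2)))) ^ (1 / p)) (fun e => (P e * D e ^ s) ^ (1 / q)) hconj
  have hterm : ∀ e, P e * A e ^ (1 / p) =
      (P e * (A e * D e ^ (-(p - 2)))) ^ (1 / p) * (P e * D e ^ s) ^ (1 / q) := by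
    intro e
    rw [Real.mul_rpow (hPn e) (mul_nonneg (hA e) (Real.rpow_nonneg (hD0 e).le _)),
      Real.mul_rpow (hA e) (Real.rpow_nonneg (hD0 e).le _),
      Real.mul_rpow (hPn e) (Real.rpow_nonneg (hD0 e).le _),
      ← Real.rpow_mul (hD0 e).le, ← Real.rpow_mul (hD0 e).le]
    have e1 : P e ^ (1 / p) * P e ^ (1 / q) = P e := by
      rw [← Real.rpow_add_of_nonneg (hPn e) (by positivity) (by positivity)]
      have : 1 / p + 1 / q = 1 := by
        rw [h1q]; field_simp; ring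
      rw [this, Real.rpow_one]
    have e2 : D e ^ (-(p - 2) * (1 / p)) * D e ^ (s * (1 / q)) = 1 := by
      rw [← Real.rpow_add (hD0 e)]
      have : -(p - 2) * (1 / p) + s * (1 / q) = 0 := by
        rw [h1q, hs]; field_simp; ring
      rw [this, Real.rpow_zero]
    calc P e * A e ^ (1 / p) = (P e ^ (1 / p) * P e ^ (1 / q)) * A e ^ (1 / p) *
          (D e ^ (-(p - 2) * (1 / p)) * D e ^ (s * (1 / q))) := by rw [e1, e2, mul_one]
      _ = _ := by ring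
  have hsum : ∑ e, P e * A e ^ (1 / p) =
      ∑ e, (P e * (A e * D e ^ (-(p - 2)))) ^ (1 / p) * (P e * D e ^ s) ^ (1 / q) :=
    Finset.sum_congr rfl fun e _ => hterm e
  rw [hsum]
  refine hold.trans ?_
  have t1 : ∑ e, |(P e * (A e * D e ^ (-(p - 2)))) ^ (1 / p)| ^ p =
      ∑ e, P e * (A e * D e ^ (-(p - 2))) := by
    refine Finset.sum_congr rfl fun e _ => ?_
    have hn : 0 ≤ P e * (A e * D e ^ (-(p - 2))) :=
      mul_nonneg (hPn e) (mul_nonneg (hA e) (Real.rpow_nonneg (hD0 e).le _))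
    rw [abs_of_nonneg (Real.rpow_nonneg hn _), ← Real.rpow_mul hn, one_div_mul_cancel hp0.ne',
      Real.rpow_one]
  have t2 : ∑ e, |(P e * D e ^ s) ^ (1 / q)| ^ q = ∑ e, P e * D e ^ s := by
    refine Finset.sum_congr rfl fun e _ => ?_
    have hn : 0 ≤ P e * D e ^ s := mul_nonneg (hPn e) (Real.rpow_nonneg (hD0 e).le _)
    rw [abs_of_nonneg (Real.rpow_nonneg hn _), ← Real.rpow_mul hn, one_div_mul_cancel hq0.ne',
      Real.rpow_one]
  rw [t1, t2]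
  have n1 : 0 ≤ ∑ e, P e * (A e * D e ^ (-(p - 2))) :=
    Finset.sum_nonneg fun e _ =>
      mul_nonneg (hPn e) (mul_nonneg (hA e) (Real.rpow_nonneg (hD0 e).le _))
  have n2 : 0 ≤ ∑ e, P e * D e ^ s :=
    Finset.sum_nonneg fun e _ => mul_nonneg (hPn e) (Real.rpow_nonneg (hD0 e).le _)
  have b1 : (∑ e, P e * (A e * D e ^ (-(p - 2)))) ^ (1 / p) ≤ C ^ (1 / p) * c := by
    refine (Real.rpow_le_rpow n1 hw' (by positivity)).trans (le_of_eq ?_)
    rw [Real.mul_rpow hC.le (Real.rpow_nonneg hc.le _), ← Real.rpow_mul hc.le,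
      mul_one_div_cancel hp0.ne', Real.rpow_one]
  have b2 : (∑ e, P e * D e ^ s) ^ (1 / q) ≤ 2 ^ (1 - 2 / p) * T ^ (1 - 2 / p) := by
    refine (Real.rpow_le_rpow n2 hmeanDs (by positivity)).trans (le_of_eq ?_)
    rw [← Real.rpow_mul (by positivity), ← Real.mul_rpow (by norm_num) (by linarith)]
    congr 1
    rw [h1q, hs]; field_simp
  calc (∑ e, P e * (A e * D e ^ (-(p - 2)))) ^ (1 / p) * (∑ e, P e * D e ^ s) ^ (1 / q)
      ≤ (C ^ (1 / p) * c) * (2 ^ (1 - 2 / p) * T ^ (1 - 2 / p)) :=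
        mul_le_mul b1 b2 (Real.rpow_nonneg n2 _) (by positivity)
    _ = C ^ (1 / p) * 2 ^ (1 - 2 / p) * c * T ^ (1 - 2 / p) := by ring

end Crest.Agent.LpDim
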