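import Crest.Agent.LpDim.CommDefs

/-!
Row 232, CHUNK COMM-LT: the commutator estimate for `1 < p < 2`.
-/

set_option autoImplicit false

namespace Crest.Agent.LpDim

open Finset

/-- geometric sum over the integers below the height `V` -/
theorem commlt_geo_low {a V : ℝ} (ha : 0 < a) (hV : 0 < V) (J : Finset ℤ) :
    ∑ j ∈ J, (if (2:ℝ) ^ j ≤ V then ((2:ℝ)^j / V) ^ a else 0) ≤ (1 - (2:ℝ) ^ (-a))⁻¹ := by
  classical
  set q : ℝ := (2:ℝ) ^ (-a) with hq
  have hq0 : 0 < q := Real.rpow_pos_of_pos (by norm_num) _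
  have hq1 : q < 1 := Real.rpow_lt_one_of_one_lt_of_neg (by norm_num) (by linarith)
  set m := Int.log 2 V with hm
  have hm1 : (2:ℝ) ^ m ≤ V := by
    have := Int.zpow_log_le_self (b := 2) (r := V) (by norm_num) hV
    simpa using this
  have hm2 : V < (2:ℝ) ^ (m + 1) := by
    have := Int.lt_zpow_succ_log_self (b := 2) (by norm_num) V
    simpa using this
  have h1 : ∀ j : ℤ, (if (2:ℝ) ^ j ≤ V then ((2:ℝ)^j / V) ^ a else 0) ≤
      if j ≤ m then q ^ (m - j).toNat else 0 := by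
    intro j
    split_ifs with h2 h3 h3
    · have h4 : ((2:ℝ)^j / V) ^ a ≤ ((2:ℝ)^j/(2:ℝ)^m)^a := by
        have : (0:ℝ) < (2:ℝ)^m := by positivity
        gcongr
      refine h4.trans (le_of_eq ?_)
      have hn : (2:ℝ)^j/(2:ℝ)^m = (2:ℝ) ^ (-(((m-j).toNat : ℕ) : ℝ)) := by
        rw [← zpow_sub₀ (by norm_num : (2:ℝ) ≠ 0), ← Real.rpow_intCast]
        congr 1
        have : (j - m : ℤ) = -((m-j).toNat : ℤ) := by omega
        rw [this]; push_cast; rfl
      rw [hn, hq, ← Real.rpow_natCast, ← Real.rpow_mul (by norm_num), ← Real.rpow_mul (by norm_num)]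
      congr 1; ring
    · exfalso
      have h5 : m + 1 ≤ j := by omega
      have h6 := zpow_le_zpow_right₀ (by norm_num : (1:ℝ) ≤ 2) h5
      linarith
    · positivity
    · exact le_refl _
  calc ∑ j ∈ J, (if (2:ℝ) ^ j ≤ V then ((2:ℝ)^j / V) ^ a else 0)
      ≤ ∑ j ∈ J, (if j ≤ m then q ^ (m - j).toNat else 0) := Finset.sum_le_sum fun j _ => h1 j
    _ = ∑ j ∈ J.filter (· ≤ m), q ^ (m - j).toNat := by rw [Finset.sum_filter]
    _ = ∑ n ∈ (J.filter (· ≤ m)).image (fun j => (m - j).toNat), q ^ n := by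
        rw [Finset.sum_image]
        intro x hx y hy hxy
        simp only [Finset.coe_filter, Set.mem_ofPred_eq] at hx hy
        have hxy' : (m - x).toNat = (m - y).toNat := hxy
        omega
    _ ≤ ∑' n : ℕ, q ^ n :=
        (summable_geometric_of_lt_one hq0.le hq1).sum_le_tsum _ (fun n _ => by positivity)
    _ = (1 - q)⁻¹ := tsum_geometric_of_lt_one hq0.le hq1

/-- geometric sum over the integers above the height `V` -/
theorem commlt_geo_high {a V : ℝ} (ha : 0 < a) (hV : 0 < V) (J : Finset ℤ) :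
    ∑ j ∈ J, (if V ≤ (2:ℝ) ^ j then (V / (2:ℝ)^j) ^ a else 0) ≤ (1 - (2:ℝ) ^ (-a))⁻¹ := by
  classical
  have h := commlt_geo_low (a := a) (V := V⁻¹) ha (by positivity) (J.image (fun j => -j))
  refine le_trans (le_of_eq ?_) h
  rw [Finset.sum_image (fun x _ y _ hxy => by simpa using hxy)]
  refine Finset.sum_congr rfl fun j _ => ?_
  have h2 : (0:ℝ) < (2:ℝ)^j := by positivity
  have e1 : ((2:ℝ) ^ (-j) ≤ V⁻¹) ↔ V ≤ (2:ℝ)^j := by
    rw [zpow_neg]
    exact inv_le_inv₀ h2 hV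
  have e2 : (2:ℝ)^(-j) / V⁻¹ = V / (2:ℝ)^j := by
    rw [zpow_neg]; field_simp
  rw [e2]
  by_cases h3 : V ≤ (2:ℝ)^j
  · rw [if_pos h3, if_pos (e1.2 h3)]
  · rw [if_neg h3, if_neg (fun h4 => h3 (e1.1 h4))]

/-- the high part at one height -/
theorem commlt_hi_term {p lam v : ℝ} (hp1 : 1 < p) (hl : 0 < lam) :
    lam ^ (p - 1) * (if lam < |v| then |v| * Real.log (|v| / lam) else 0) ≤
      |v| ^ p * ((2 / (p - 1)) * (if lam ≤ |v| then (lam / |v|) ^ ((p - 1) / 2) else 0)) := by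
  split_ifs with h1 h2 h2
  · have hv : 0 < |v| := hl.trans h1
    have hu : 0 < |v| / lam := by positivity
    have hlog : Real.log (|v| / lam) ≤ (|v| / lam) ^ ((p - 1) / 2) / ((p - 1) / 2) :=
      Real.log_le_rpow_div hu.le (by linarith)
    have e : lam ^ (p - 1) * (|v| * (|v| / lam) ^ ((p - 1) / 2)) = |v| ^ p * (lam / |v|) ^ ((p - 1) / 2) := by
      rw [Real.div_rpow hv.le hl.le, Real.div_rpow hl.le hv.le]
      have h3 : lam ^ (p - 1) = lam ^ ((p-1)/2) * lam ^ ((p-1)/2) := by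
        rw [← Real.rpow_add hl]; congr 1; ring
      have h4 : |v| ^ p = |v| * (|v| ^ ((p-1)/2) * |v| ^ ((p-1)/2)) := by
        rw [← Real.rpow_add hv]
        nth_rw 2 [← Real.rpow_one |v|]
        rw [← Real.rpow_add hv]
        congr 1; ring
      have h5 : 0 < lam ^ ((p-1)/2) := Real.rpow_pos_of_pos hl _
      have h6 : 0 < |v| ^ ((p-1)/2) := Real.rpow_pos_of_pos hv _
      rw [h3, h4]
      field_simp
    calc lam ^ (p - 1) * (|v| * Real.log (|v| / lam))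
        ≤ lam ^ (p - 1) * (|v| * ((|v| / lam) ^ ((p - 1) / 2) / ((p - 1) / 2))) := by
          have : 0 ≤ lam ^ (p-1) := Real.rpow_nonneg hl.le _
          gcongr
      _ = (2 / (p-1)) * (lam ^ (p - 1) * (|v| * (|v| / lam) ^ ((p - 1) / 2))) := by
          have : p - 1 ≠ 0 := by linarith
          field_simp
      _ = |v| ^ p * ((2 / (p - 1)) * (lam / |v|) ^ ((p - 1) / 2)) := by rw [e]; ring
  · exact absurd h1.le h2
  · rw [mul_zero]
    have : 0 < p - 1 := by linarith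
    positivity
  · simp

/-- the low part at one height -/
theorem commlt_lo_term {p lam v : ℝ} (hp1 : 1 < p) (hp : p < 2) (hl : 0 < lam) :
    lam ^ (p - 2) * (if lam < |v| then 0 else |v| ^ 2 * Real.log (lam / |v|) ^ 2) ≤
      |v| ^ p * ((4 / (2 - p)) ^ 2 * (if |v| ≤ lam then (|v| / lam) ^ ((2 - p) / 2) else 0)) := by
  by_cases hv0 : |v| = 0
  · have h1 : ¬ lam < |v| := by rw [hv0]; exact not_lt.2 hl.le
    rw [if_neg h1, hv0, Real.zero_rpow (by linarith : p ≠ 0)]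
    simp
  have hv : 0 < |v| := lt_of_le_of_ne (abs_nonneg v) (Ne.symm hv0)
  split_ifs with h1 h2 h2
  · exact absurd h1 (not_lt.2 h2)
  · simp
  · have hu : 0 < lam / |v| := by positivity
    have hu1 : 1 ≤ lam / |v| := by rw [le_div_iff₀ hv]; linarith
    have h0 : 0 ≤ Real.log (lam / |v|) := Real.log_nonneg hu1
    have hlog : Real.log (lam / |v|) ≤ (lam / |v|) ^ ((2 - p) / 4) / ((2 - p) / 4) :=
      Real.log_le_rpow_div hu.le (by linarith)
    have hlog2 : Real.log (lam / |v|) ^ 2 ≤ (lam / |v|) ^ ((2 - p) / 2) * (4 / (2 - p)) ^ 2 := by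
      calc Real.log (lam / |v|) ^ 2 ≤ ((lam / |v|) ^ ((2 - p) / 4) / ((2 - p) / 4)) ^ 2 :=
            pow_le_pow_left₀ h0 hlog 2
        _ = ((lam / |v|) ^ ((2 - p) / 4)) ^ 2 * (4 / (2 - p)) ^ 2 := by
            have : 2 - p ≠ 0 := by linarith
            field_simp
        _ = _ := by
            congr 1
            rw [← Real.rpow_natCast, ← Real.rpow_mul hu.le]
            congr 1; push_cast; ring
    have e : lam ^ (p - 2) * (|v| ^ 2 * (lam / |v|) ^ ((2 - p) / 2)) =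
        |v| ^ p * (|v| / lam) ^ ((2 - p) / 2) := by
      rw [Real.div_rpow hv.le hl.le, Real.div_rpow hl.le hv.le]
      have h3 : lam ^ (p - 2) = (lam ^ ((2-p)/2) * lam ^ ((2-p)/2))⁻¹ := by
        rw [← Real.rpow_add hl, ← Real.rpow_neg hl.le]; congr 1; ring
      have h4 : |v| ^ 2 = |v| ^ p * (|v| ^ ((2-p)/2) * |v| ^ ((2-p)/2)) := by
        rw [← Real.rpow_add hv, ← Real.rpow_add hv, ← Real.rpow_natCast]
        congr 1; push_cast; ring
      have h5 : 0 < lam ^ ((2-p)/2) := Real.rpow_pos_of_pos hl _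
      have h6 : 0 < |v| ^ ((2-p)/2) := Real.rpow_pos_of_pos hv _
      rw [h3, h4]
      field_simp
    calc lam ^ (p - 2) * (|v| ^ 2 * Real.log (lam / |v|) ^ 2)
        ≤ lam ^ (p - 2) * (|v| ^ 2 * ((lam / |v|) ^ ((2 - p) / 2) * (4 / (2 - p)) ^ 2)) := by
          have : 0 ≤ lam ^ (p-2) := Real.rpow_nonneg hl.le _
          gcongr
      _ = (4 / (2 - p)) ^ 2 * (lam ^ (p - 2) * (|v| ^ 2 * (lam / |v|) ^ ((2 - p) / 2))) := by ring
      _ = _ := by rw [e]; ring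
  · exact absurd (not_lt.1 h1) h2

theorem commlt_hi_sum {p : ℝ} (hp1 : 1 < p) (v : ℝ) (J : Finset ℤ) :
    ∑ j ∈ J, ((2:ℝ) ^ j) ^ (p - 1) * (if (2:ℝ) ^ j < |v| then |v| * Real.log (|v| / (2:ℝ)^j) else 0) ≤
      |v| ^ p * ((2 / (p - 1)) * (1 - (2:ℝ) ^ (-((p - 1) / 2)))⁻¹) := by
  have ha : 0 < (p-1)/2 := by linarith
  have hK : 0 ≤ (1 - (2:ℝ) ^ (-((p - 1) / 2)))⁻¹ := by
    have : (2:ℝ) ^ (-((p - 1) / 2)) < 1 :=
      Real.rpow_lt_one_of_one_lt_of_neg (by norm_num) (by linarith)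
    have : 0 < 1 - (2:ℝ) ^ (-((p - 1) / 2)) := by linarith
    positivity
  have hp0 : 0 < p - 1 := by linarith
  by_cases hv0 : |v| = 0
  · refine le_trans (le_of_eq (Finset.sum_eq_zero fun j _ => ?_)) (by positivity)
    have h2 : (0:ℝ) < (2:ℝ)^j := by positivity
    rw [if_neg (by rw [hv0]; exact not_lt.2 h2.le), mul_zero]
  have hv : 0 < |v| := lt_of_le_of_ne (abs_nonneg v) (Ne.symm hv0)
  calc _ ≤ ∑ j ∈ J, |v| ^ p * ((2 / (p - 1)) *
        (if (2:ℝ)^j ≤ |v| then ((2:ℝ)^j / |v|) ^ ((p - 1) / 2) else 0)) :=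
        Finset.sum_le_sum fun j _ => commlt_hi_term hp1 (by positivity)
    _ = |v| ^ p * ((2 / (p - 1)) *
        ∑ j ∈ J, (if (2:ℝ)^j ≤ |v| then ((2:ℝ)^j / |v|) ^ ((p - 1) / 2) else 0)) := by
        rw [← Finset.mul_sum, ← Finset.mul_sum]
    _ ≤ _ := by
        have := commlt_geo_low ha hv J
        have h3 : 0 ≤ |v| ^ p := Real.rpow_nonneg hv.le _
        gcongr

theorem commlt_lo_sum {p : ℝ} (hp1 : 1 < p) (hp : p < 2) (v : ℝ) (J : Finset ℤ) :
    ∑ j ∈ J, ((2:ℝ) ^ j) ^ (p - 2) *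
      (if (2:ℝ) ^ j < |v| then 0 else |v| ^ 2 * Real.log ((2:ℝ)^j / |v|) ^ 2) ≤
      |v| ^ p * ((4 / (2 - p)) ^ 2 * (1 - (2:ℝ) ^ (-((2 - p) / 2)))⁻¹) := by
  have ha : 0 < (2 - p)/2 := by linarith
  have hK : 0 ≤ (1 - (2:ℝ) ^ (-((2 - p) / 2)))⁻¹ := by
    have : (2:ℝ) ^ (-((2 - p) / 2)) < 1 :=
      Real.rpow_lt_one_of_one_lt_of_neg (by norm_num) (by linarith)
    have : 0 < 1 - (2:ℝ) ^ (-((2 - p) / 2)) := by linarith
    positivity
  by_cases hv0 : |v| = 0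
  · refine le_trans (le_of_eq (Finset.sum_eq_zero fun j _ => ?_)) (by positivity)
    have h2 : (0:ℝ) < (2:ℝ)^j := by positivity
    rw [if_neg (by rw [hv0]; exact not_lt.2 h2.le), hv0]
    simp
  have hv : 0 < |v| := lt_of_le_of_ne (abs_nonneg v) (Ne.symm hv0)
  calc _ ≤ ∑ j ∈ J, |v| ^ p * ((4 / (2 - p)) ^ 2 *
        (if |v| ≤ (2:ℝ)^j then (|v| / (2:ℝ)^j) ^ ((2 - p) / 2) else 0)) :=
        Finset.sum_le_sum fun j _ => commlt_lo_term hp1 hp (by positivity)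
    _ = |v| ^ p * ((4 / (2 - p)) ^ 2 *
        ∑ j ∈ J, (if |v| ≤ (2:ℝ)^j then (|v| / (2:ℝ)^j) ^ ((2 - p) / 2) else 0)) := by
        rw [← Finset.mul_sum, ← Finset.mul_sum]
    _ ≤ _ := by
        have := commlt_geo_high ha hv J
        have h3 : 0 ≤ |v| ^ p := Real.rpow_nonneg hv.le _
        gcongr

/-- pointwise: one height suffices -/
theorem commlt_point {p G a b h : ℝ} (hp1 : 1 < p) (hp : p < 2) (hG : G = a + b) (hh : 0 < h)
    (h1 : h ≤ |G|) (h2 : |G| < 2 * h) :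
    |G| ^ p ≤ 2 ^ p * (h ^ (p - 1) * |a|) + 4 * (h ^ (p - 2) * b ^ 2) := by
  have hG0 : 0 < |G| := hh.trans_le h1
  have hab : |G| ≤ |a| + |b| := by rw [hG]; exact abs_add_le a b
  have hhp : 0 ≤ h ^ (p - 1) := Real.rpow_nonneg hh.le _
  have hhp2 : 0 ≤ h ^ (p - 2) := Real.rpow_nonneg hh.le _
  rcases le_total |b| |a| with hc | hc
  · have h3 : |G| ≤ 2 * |a| := by linarith
    have e1 : |G| ^ p = |G| ^ (p - 1) * |G| := by
      nth_rw 3 [← Real.rpow_one |G|]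
      rw [← Real.rpow_add hG0]; congr 1; ring
    have h4 : |G| ^ (p - 1) ≤ (2 * h) ^ (p - 1) :=
      Real.rpow_le_rpow hG0.le h2.le (by linarith)
    have e2 : (2 * h) ^ (p - 1) * (2 * |a|) = 2 ^ p * (h ^ (p - 1) * |a|) := by
      rw [Real.mul_rpow (by norm_num) hh.le]
      have : (2:ℝ) ^ p = 2 ^ (p - 1) * 2 := by
        nth_rw 3 [← Real.rpow_one (2:ℝ)]
        rw [← Real.rpow_add (by norm_num)]; congr 1; ring
      rw [this]; ring
    have h5 : |G| ^ p ≤ 2 ^ p * (h ^ (p - 1) * |a|) := by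
      rw [e1, ← e2]
      have : 0 ≤ |G| ^ (p-1) := Real.rpow_nonneg hG0.le _
      gcongr
    have h6 : 0 ≤ 4 * (h ^ (p - 2) * b ^ 2) := by positivity
    linarith
  · have h3 : |G| ≤ 2 * |b| := by linarith
    have e1 : |G| ^ p = |G| ^ (p - 2) * |G| ^ 2 := by
      rw [← Real.rpow_natCast, ← Real.rpow_add hG0]; congr 1; push_cast; ring
    have h4 : |G| ^ (p - 2) ≤ h ^ (p - 2) :=
      Real.rpow_le_rpow_of_nonpos hh h1 (by linarith)
    have h5 : |G| ^ 2 ≤ 4 * b ^ 2 := by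
      calc |G| ^ 2 ≤ (2 * |b|) ^ 2 := pow_le_pow_left₀ hG0.le h3 2
        _ = 4 * b ^ 2 := by rw [mul_pow, sq_abs]; ring
    have h6 : |G| ^ p ≤ 4 * (h ^ (p - 2) * b ^ 2) := by
      rw [e1]
      calc |G| ^ (p - 2) * |G| ^ 2 ≤ h ^ (p - 2) * (4 * b ^ 2) := by gcongr
        _ = _ := by ring
    have h7 : 0 ≤ 2 ^ p * (h ^ (p - 1) * |a|) := by positivity
    linarith

theorem commlt_swap {E W κ : Type} [Fintype E] [Fintype W] [Fintype κ] (P : E → ℝ) (μ : W → ℝ)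
    (J : Finset ℤ) (f : ℤ → E → κ → W → ℝ) :
    ∑ e, P e * ∑ k, ∑ w, μ w * ∑ j ∈ J, f j e k w = ∑ j ∈ J, ∑ e, P e * ∑ k, ∑ w, μ w * f j e k w := by
  simp only [Finset.mul_sum]
  have h1 : ∀ e k, ∑ w, ∑ j ∈ J, P e * (μ w * f j e k w) = ∑ j ∈ J, ∑ w, P e * (μ w * f j e k w) :=
    fun e k => Finset.sum_comm
  have h2 : ∀ e, ∑ k, ∑ j ∈ J, ∑ w, P e * (μ w * f j e k w) =
      ∑ j ∈ J, ∑ k, ∑ w, P e * (μ w * f j e k w) := fun e => Finset.sum_comm
  simp only [h1, h2]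
  exact Finset.sum_comm

/-- The `p`-th power estimate. PROOF. For `G ≥ 0`: `G^p ≤ (p-1) ∫_0^∞ h^{p-2} min(G, G²/h) dh`
(already the part `h ≤ G`), and `min(|a+b|, |a+b|²/h) ≤ 2|a| + 4|b|²/h`. With `h = (c/T) lam`, `a = (1-S)hi^lam`,
`b = (1-S)lo^lam` (`gerr_split`), sum with weights `P e μ w` over `e,k,w`; use `hi_l1`, `lo_l2`, `∑ P (1+R) ≤ 1+T`
and the integrals `∫_0^{|v|} lam^{p-2} log(|v|/lam) = |v|^{p-1}/(p-1)²`,
`∫_{|v|}^∞ lam^{p-3} log²(lam/|v|) = 2|v|^{p-2}/(2-p)³` (bounds up to constants suffice; or dyadic sums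
`G^p ≤ 2^{p-1} ∑_j h_j^{p-1} min(G, G²/h_j)`, `h_j = 2^j h_0`). -/
theorem comm_lt_pow (p : ℝ) (hp1 : 1 < p) (hp : p < 2) : ∃ C : ℝ, 0 < C ∧
    ∀ (E W κ : Type) [Fintype E] [Fintype W] [Fintype κ] (P : E → ℝ) (S : E → E → ℝ)
      (T : ℝ) (μ : W → ℝ) (v : E → W → ℝ) (θ : κ → ℝ → ℝ) (c : ℝ), CommData P S T μ v θ c p →
      ∑ e, P e * (∑ k, ∑ w, μ w * |gerr S v θ e k w| ^ p) ≤ C * c ^ p * T ^ (2 - p) := by
  classical
  set C1 : ℝ := (2 / (p - 1)) * (1 - (2:ℝ) ^ (-((p - 1) / 2)))⁻¹ with hC1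
  set C2 : ℝ := (4 / (2 - p)) ^ 2 * (1 - (2:ℝ) ^ (-((2 - p) / 2)))⁻¹ with hC2
  have hC1pos : 0 < C1 := by
    have : (2:ℝ) ^ (-((p - 1) / 2)) < 1 :=
      Real.rpow_lt_one_of_one_lt_of_neg (by norm_num) (by linarith)
    have : 0 < 1 - (2:ℝ) ^ (-((p - 1) / 2)) := by linarith
    have : 0 < p - 1 := by linarith
    positivity
  have hC2pos : 0 < C2 := by
    have : (2:ℝ) ^ (-((2 - p) / 2)) < 1 :=
      Real.rpow_lt_one_of_one_lt_of_neg (by norm_num) (by linarith)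
    have : 0 < 1 - (2:ℝ) ^ (-((2 - p) / 2)) := by linarith
    have : 0 < 2 - p := by linarith
    positivity
  refine ⟨2 ^ p * C1 * 2 + 4 * C2, by positivity, ?_⟩
  intro E W κ _ _ _ P S T μ v θ c h
  have hT : 1 ≤ T := h.T_ge
  have hT0 : 0 < T := by linarith
  have hc : 0 < c := h.c_pos
  have hcT : 0 < c / T := by positivity
  -- the dyadic heights
  set J : Finset ℤ := Finset.univ.image
    (fun x : E × κ × W => Int.log 2 (|gerr S v θ x.1 x.2.1 x.2.2| / (c / T))) with hJ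
  -- pointwise bound
  have hpt : ∀ e k w, |gerr S v θ e k w| ^ p ≤
      ∑ j ∈ J, (2 ^ p * ((c / T * (2:ℝ)^j) ^ (p - 1) *
          |hi v θ ((2:ℝ)^j) e k w - ∑ e', S e e' * hi v θ ((2:ℝ)^j) e' k w|) +
        4 * ((c / T * (2:ℝ)^j) ^ (p - 2) *
          (lo v θ ((2:ℝ)^j) e k w - ∑ e', S e e' * lo v θ ((2:ℝ)^j) e' k w) ^ 2)) := by
    intro e k w
    have hnn : ∀ j ∈ J, 0 ≤ (2 ^ p * ((c / T * (2:ℝ)^j) ^ (p - 1) *
          |hi v θ ((2:ℝ)^j) e k w - ∑ e', S e e' * hi v θ ((2:ℝ)^j) e' k w|) +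
        4 * ((c / T * (2:ℝ)^j) ^ (p - 2) *
          (lo v θ ((2:ℝ)^j) e k w - ∑ e', S e e' * lo v θ ((2:ℝ)^j) e' k w) ^ 2)) := by
      intro j _
      positivity
    rcases eq_or_ne (gerr S v θ e k w) 0 with h0 | h0
    · rw [h0, abs_zero, Real.zero_rpow (by linarith)]
      exact Finset.sum_nonneg hnn
    have hG : 0 < |gerr S v θ e k w| := abs_pos.2 h0
    set j := Int.log 2 (|gerr S v θ e k w| / (c / T)) with hj
    have hjJ : j ∈ J := by
      rw [hJ, Finset.mem_image]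
      exact ⟨(e, k, w), Finset.mem_univ _, rfl⟩
    have hq : 0 < |gerr S v θ e k w| / (c / T) := by positivity
    have hm1 : (2:ℝ) ^ j ≤ |gerr S v θ e k w| / (c / T) := by
      have := Int.zpow_log_le_self (b := 2) (r := |gerr S v θ e k w| / (c / T)) (by norm_num) hq
      simpa using this
    have hm2 : |gerr S v θ e k w| / (c / T) < (2:ℝ) ^ (j + 1) := by
      have := Int.lt_zpow_succ_log_self (b := 2) (by norm_num) (|gerr S v θ e k w| / (c / T))
      simpa using this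
    have hpj : (0:ℝ) < (2:ℝ)^j := by positivity
    have hx1 : c / T * (2:ℝ)^j ≤ |gerr S v θ e k w| := by
      rw [le_div_iff₀ hcT] at hm1
      linarith
    have hx2 : |gerr S v θ e k w| < 2 * (c / T * (2:ℝ)^j) := by
      rw [div_lt_iff₀ hcT, zpow_add_one₀ (by norm_num)] at hm2
      linarith
    have := commlt_point hp1 hp (gerr_split h ((2:ℝ)^j) e k w) (by positivity) hx1 hx2
    exact this.trans (Finset.single_le_sum (f := fun j => (2 ^ p * ((c / T * (2:ℝ)^j) ^ (p - 1) *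
          |hi v θ ((2:ℝ)^j) e k w - ∑ e', S e e' * hi v θ ((2:ℝ)^j) e' k w|) +
        4 * ((c / T * (2:ℝ)^j) ^ (p - 2) *
          (lo v θ ((2:ℝ)^j) e k w - ∑ e', S e e' * lo v θ ((2:ℝ)^j) e' k w) ^ 2))) hnn hjJ)
  -- sum up
  set A : ℤ → ℝ := fun j => ∑ e, P e * ∑ k, ∑ w, μ w *
    |hi v θ ((2:ℝ)^j) e k w - ∑ e', S e e' * hi v θ ((2:ℝ)^j) e' k w| with hA
  set B : ℤ → ℝ := fun j => ∑ e, P e * ∑ k, ∑ w, μ w *
    (lo v θ ((2:ℝ)^j) e k w - ∑ e', S e e' * lo v θ ((2:ℝ)^j) e' k w) ^ 2 with hB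
  have hsum : ∑ e, P e * (∑ k, ∑ w, μ w * |gerr S v θ e k w| ^ p) ≤
      ∑ j ∈ J, (2 ^ p * ((c / T * (2:ℝ)^j) ^ (p - 1) * A j) +
        4 * ((c / T * (2:ℝ)^j) ^ (p - 2) * B j)) := by
    calc ∑ e, P e * (∑ k, ∑ w, μ w * |gerr S v θ e k w| ^ p)
        ≤ ∑ e, P e * (∑ k, ∑ w, μ w * ∑ j ∈ J, (2 ^ p * ((c / T * (2:ℝ)^j) ^ (p - 1) *
          |hi v θ ((2:ℝ)^j) e k w - ∑ e', S e e' * hi v θ ((2:ℝ)^j) e' k w|) +
        4 * ((c / T * (2:ℝ)^j) ^ (p - 2) *
          (lo v θ ((2:ℝ)^j) e k w - ∑ e', S e e' * lo v θ ((2:ℝ)^j) e' k w) ^ 2))) := by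
          refine Finset.sum_le_sum fun e _ => mul_le_mul_of_nonneg_left ?_ (h.ok.nonneg e)
          refine Finset.sum_le_sum fun k _ => Finset.sum_le_sum fun w _ => ?_
          exact mul_le_mul_of_nonneg_left (hpt e k w) (h.μ_nonneg w)
      _ = ∑ j ∈ J, ∑ e, P e * (∑ k, ∑ w, μ w * (2 ^ p * ((c / T * (2:ℝ)^j) ^ (p - 1) *
          |hi v θ ((2:ℝ)^j) e k w - ∑ e', S e e' * hi v θ ((2:ℝ)^j) e' k w|) +
        4 * ((c / T * (2:ℝ)^j) ^ (p - 2) *
          (lo v θ ((2:ℝ)^j) e k w - ∑ e', S e e' * lo v θ ((2:ℝ)^j) e' k w) ^ 2))) :=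
          commlt_swap P μ J (fun j e k w => (2 ^ p * ((c / T * (2:ℝ)^j) ^ (p - 1) *
          |hi v θ ((2:ℝ)^j) e k w - ∑ e', S e e' * hi v θ ((2:ℝ)^j) e' k w|) +
        4 * ((c / T * (2:ℝ)^j) ^ (p - 2) *
          (lo v θ ((2:ℝ)^j) e k w - ∑ e', S e e' * lo v θ ((2:ℝ)^j) e' k w) ^ 2)))
      _ = _ := by
          refine Finset.sum_congr rfl fun j _ => ?_
          simp only [hA, hB, Finset.mul_sum]
          rw [← Finset.sum_add_distrib]
          refine Finset.sum_congr rfl fun e _ => ?_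
          rw [← Finset.sum_add_distrib]
          refine Finset.sum_congr rfl fun k _ => ?_
          rw [← Finset.sum_add_distrib]
          refine Finset.sum_congr rfl fun w _ => ?_
          ring
  -- bounds of A and B
  have hAj : ∀ j, A j ≤ ∑ e, P e * (1 + ∑ e', |S e e'|) * ∑ w, μ w *
        (if (2:ℝ)^j < |v e w| then c * (|v e w| * Real.log (|v e w| / (2:ℝ)^j)) else 0) := fun j =>
    hi_l1 h (by positivity)
  have hBj : ∀ j, B j ≤ ∑ e, P e * ∑ w, μ w *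
        (if (2:ℝ)^j < |v e w| then 0 else c ^ 2 * (|v e w| ^ 2 * Real.log ((2:ℝ)^j / |v e w|) ^ 2)) := fun j =>
    lo_l2 h (by positivity)
  have hR : ∑ e, P e * (1 + ∑ e', |S e e'|) ≤ 1 + T := by
    simp only [mul_add, mul_one, Finset.sum_add_distrib, h.ok.sum_one]
    linarith [h.ok.row]
  have hA2 : ∑ j ∈ J, (c / T * (2:ℝ)^j) ^ (p - 1) * A j ≤ (c / T) ^ (p - 1) * (c * (C1 * (1 + T))) := by
    calc ∑ j ∈ J, (c / T * (2:ℝ)^j) ^ (p - 1) * A j
        ≤ ∑ j ∈ J, (c / T * (2:ℝ)^j) ^ (p - 1) * ∑ e, P e * (1 + ∑ e', |S e e'|) * ∑ w, μ w *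
        (if (2:ℝ)^j < |v e w| then c * (|v e w| * Real.log (|v e w| / (2:ℝ)^j)) else 0) := by
          refine Finset.sum_le_sum fun j _ => mul_le_mul_of_nonneg_left (hAj j) (by positivity)
      _ = (c / T) ^ (p - 1) * (c * ∑ e, P e * (1 + ∑ e', |S e e'|) * ∑ w, μ w *
          ∑ j ∈ J, ((2:ℝ) ^ j) ^ (p - 1) *
            (if (2:ℝ) ^ j < |v e w| then |v e w| * Real.log (|v e w| / (2:ℝ)^j) else 0)) := by
          simp only [Finset.mul_sum]
          rw [Finset.sum_comm]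
          refine Finset.sum_congr rfl fun e _ => ?_
          rw [Finset.sum_comm]
          refine Finset.sum_congr rfl fun w _ => ?_
          refine Finset.sum_congr rfl fun j _ => ?_
          rw [Real.mul_rpow hcT.le (by positivity)]
          split_ifs <;> ring
      _ ≤ (c / T) ^ (p - 1) * (c * ∑ e, P e * (1 + ∑ e', |S e e'|) * ∑ w, μ w *
          (|v e w| ^ p * C1)) := by
          have h1 : 0 ≤ (c / T) ^ (p - 1) := by positivity
          refine mul_le_mul_of_nonneg_left (mul_le_mul_of_nonneg_left ?_ hc.le) h1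
          refine Finset.sum_le_sum fun e _ => mul_le_mul_of_nonneg_left ?_ ?_
          · refine Finset.sum_le_sum fun w _ => mul_le_mul_of_nonneg_left ?_ (h.μ_nonneg w)
            exact commlt_hi_sum hp1 (v e w) J
          · exact mul_nonneg (h.ok.nonneg e) (by positivity)
      _ = (c / T) ^ (p - 1) * (c * ∑ e, P e * (1 + ∑ e', |S e e'|) * (C1 * ∑ w, μ w *
          |v e w| ^ p)) := by
          congr 2
          refine Finset.sum_congr rfl fun e _ => ?_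
          congr 1
          rw [Finset.mul_sum]
          refine Finset.sum_congr rfl fun w _ => ?_
          ring
      _ ≤ (c / T) ^ (p - 1) * (c * ∑ e, P e * (1 + ∑ e', |S e e'|) * (C1 * 1)) := by
          have h1 : 0 ≤ (c / T) ^ (p - 1) := by positivity
          refine mul_le_mul_of_nonneg_left (mul_le_mul_of_nonneg_left ?_ hc.le) h1
          refine Finset.sum_le_sum fun e _ => mul_le_mul_of_nonneg_left ?_ ?_
          · exact mul_le_mul_of_nonneg_left (h.norm_le e) hC1pos.le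
          · exact mul_nonneg (h.ok.nonneg e) (by positivity)
      _ = (c / T) ^ (p - 1) * (c * (C1 * ∑ e, P e * (1 + ∑ e', |S e e'|))) := by
          congr 2
          rw [mul_one, ← Finset.sum_mul, mul_comm]
      _ ≤ _ := by
          have h1 : 0 ≤ (c / T) ^ (p - 1) := by positivity
          gcongr
  have hB2 : ∑ j ∈ J, (c / T * (2:ℝ)^j) ^ (p - 2) * B j ≤ (c / T) ^ (p - 2) * (c ^ 2 * C2) := by
    calc ∑ j ∈ J, (c / T * (2:ℝ)^j) ^ (p - 2) * B j
        ≤ ∑ j ∈ J, (c / T * (2:ℝ)^j) ^ (p - 2) * ∑ e, P e * ∑ w, μ w *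
        (if (2:ℝ)^j < |v e w| then 0 else c ^ 2 * (|v e w| ^ 2 * Real.log ((2:ℝ)^j / |v e w|) ^ 2)) := by
          refine Finset.sum_le_sum fun j _ => mul_le_mul_of_nonneg_left (hBj j) (by positivity)
      _ = (c / T) ^ (p - 2) * (c ^ 2 * ∑ e, P e * ∑ w, μ w *
          ∑ j ∈ J, ((2:ℝ) ^ j) ^ (p - 2) *
            (if (2:ℝ) ^ j < |v e w| then 0 else |v e w| ^ 2 * Real.log ((2:ℝ)^j / |v e w|) ^ 2)) := by
          simp only [Finset.mul_sum]
          rw [Finset.sum_comm]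
          refine Finset.sum_congr rfl fun e _ => ?_
          rw [Finset.sum_comm]
          refine Finset.sum_congr rfl fun w _ => ?_
          refine Finset.sum_congr rfl fun j _ => ?_
          rw [Real.mul_rpow hcT.le (by positivity)]
          split_ifs <;> ring
      _ ≤ (c / T) ^ (p - 2) * (c ^ 2 * ∑ e, P e * ∑ w, μ w * (|v e w| ^ p * C2)) := by
          have h1 : 0 ≤ (c / T) ^ (p - 2) := by positivity
          refine mul_le_mul_of_nonneg_left (mul_le_mul_of_nonneg_left ?_ (by positivity)) h1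
          refine Finset.sum_le_sum fun e _ => mul_le_mul_of_nonneg_left ?_ (h.ok.nonneg e)
          refine Finset.sum_le_sum fun w _ => mul_le_mul_of_nonneg_left ?_ (h.μ_nonneg w)
          exact commlt_lo_sum hp1 hp (v e w) J
      _ = (c / T) ^ (p - 2) * (c ^ 2 * ∑ e, P e * (C2 * ∑ w, μ w * |v e w| ^ p)) := by
          congr 2
          refine Finset.sum_congr rfl fun e _ => ?_
          congr 1
          rw [Finset.mul_sum]
          refine Finset.sum_congr rfl fun w _ => ?_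
          ring
      _ ≤ (c / T) ^ (p - 2) * (c ^ 2 * ∑ e, P e * (C2 * 1)) := by
          have h1 : 0 ≤ (c / T) ^ (p - 2) := by positivity
          refine mul_le_mul_of_nonneg_left (mul_le_mul_of_nonneg_left ?_ (by positivity)) h1
          refine Finset.sum_le_sum fun e _ => mul_le_mul_of_nonneg_left ?_ (h.ok.nonneg e)
          exact mul_le_mul_of_nonneg_left (h.norm_le e) hC2pos.le
      _ = _ := by
          rw [← Finset.sum_mul, h.ok.sum_one]; ring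
  have hfin : ∑ e, P e * (∑ k, ∑ w, μ w * |gerr S v θ e k w| ^ p) ≤
      2 ^ p * ((c / T) ^ (p - 1) * (c * (C1 * (1 + T)))) + 4 * ((c / T) ^ (p - 2) * (c ^ 2 * C2)) := by
    refine hsum.trans ?_
    rw [Finset.sum_add_distrib, ← Finset.mul_sum, ← Finset.mul_sum]
    gcongr
  refine hfin.trans ?_
  -- powers of c and T
  have e1 : (c / T) ^ (p - 1) * c = c ^ p * (T ^ (2 - p) / T) := by
    rw [Real.div_rpow hc.le hT0.le]
    have h1 : c ^ p = c ^ (p - 1) * c := by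
      nth_rw 3 [← Real.rpow_one c]
      rw [← Real.rpow_add hc]; congr 1; ring
    have h2 : T ^ (2 - p) = T * (T ^ (p - 1))⁻¹ := by
      rw [← Real.rpow_neg hT0.le]
      nth_rw 2 [← Real.rpow_one T]
      rw [← Real.rpow_add hT0]; congr 1; ring
    have h3 : 0 < T ^ (p - 1) := Real.rpow_pos_of_pos hT0 _
    rw [h1, h2]
    field_simp
  have e2 : (c / T) ^ (p - 2) * c ^ 2 = c ^ p * T ^ (2 - p) := by
    rw [Real.div_rpow hc.le hT0.le]
    have h1 : c ^ p = c ^ (p - 2) * c ^ 2 := by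
      rw [← Real.rpow_natCast, ← Real.rpow_add hc]; congr 1; push_cast; ring
    have h2 : T ^ (2 - p) = (T ^ (p - 2))⁻¹ := by
      rw [← Real.rpow_neg hT0.le]; congr 1; ring
    have h3 : 0 < T ^ (p - 2) := Real.rpow_pos_of_pos hT0 _
    rw [h1, h2]
    field_simp
  have h7 : 0 ≤ c ^ p * T ^ (2 - p) := by positivity
  calc 2 ^ p * ((c / T) ^ (p - 1) * (c * (C1 * (1 + T)))) + 4 * ((c / T) ^ (p - 2) * (c ^ 2 * C2))
      = 2 ^ p * (((c / T) ^ (p - 1) * c) * (C1 * (1 + T))) + 4 * (((c / T) ^ (p - 2) * c ^ 2) * C2) := by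
        ring
    _ = 2 ^ p * (c ^ p * T ^ (2 - p) * C1) * ((1 + T) / T) + 4 * C2 * (c ^ p * T ^ (2 - p)) := by
        rw [e1, e2]; field_simp
    _ ≤ 2 ^ p * (c ^ p * T ^ (2 - p) * C1) * 2 + 4 * C2 * (c ^ p * T ^ (2 - p)) := by
        have : (1 + T) / T ≤ 2 := by
          rw [div_le_iff₀ hT0]; linarith
        gcongr
    _ = _ := by ring

/-- `p < 2`: Jensen. -/
theorem comm_lt (p : ℝ) (hp1 : 1 < p) (hp : p < 2) : ∃ C : ℝ, 0 < C ∧
    ∀ (E W κ : Type) [Fintype E] [Fintype W] [Fintype κ] (P : E → ℝ) (S : E → E → ℝ)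
      (T : ℝ) (μ : W → ℝ) (v : E → W → ℝ) (θ : κ → ℝ → ℝ) (c : ℝ), CommData P S T μ v θ c p →
      ∑ e, P e * (∑ k, ∑ w, μ w * |gerr S v θ e k w| ^ p) ^ (1 / p) ≤ C * c * T ^ (2 / p - 1) := by
  obtain ⟨C, hC, hmain⟩ := comm_lt_pow p hp1 hp
  refine ⟨C ^ (1 / p), by positivity, ?_⟩
  intro E W κ _ _ _ P S T μ v θ c h
  have hm := hmain E W κ P S T μ v θ c h
  have hT : 1 ≤ T := h.T_ge
  have hT0 : 0 < T := by linarith
  have hc : 0 < c := h.c_pos
  have hp0 : 0 < p := by linarith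
  have hX : ∀ e, 0 ≤ ∑ k, ∑ w, μ w * |gerr S v θ e k w| ^ p := fun e =>
    Finset.sum_nonneg fun k _ => Finset.sum_nonneg fun w _ =>
      mul_nonneg (h.μ_nonneg w) (by positivity)
  have hj := Real.rpow_arith_mean_le_arith_mean_rpow Finset.univ P
    (fun e => (∑ k, ∑ w, μ w * |gerr S v θ e k w| ^ p) ^ (1 / p)) (fun e _ => h.ok.nonneg e)
    h.ok.sum_one (fun e _ => Real.rpow_nonneg (hX e) _) hp1.le
  have e1 : ∀ e, ((∑ k, ∑ w, μ w * |gerr S v θ e k w| ^ p) ^ (1 / p)) ^ p =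
      ∑ k, ∑ w, μ w * |gerr S v θ e k w| ^ p := by
    intro e
    rw [← Real.rpow_mul (hX e), one_div_mul_cancel hp0.ne', Real.rpow_one]
  simp only [e1] at hj
  have hY : 0 ≤ ∑ e, P e * (∑ k, ∑ w, μ w * |gerr S v θ e k w| ^ p) ^ (1 / p) :=
    Finset.sum_nonneg fun e _ => mul_nonneg (h.ok.nonneg e) (Real.rpow_nonneg (hX e) _)
  have h1 := Real.rpow_le_rpow (Real.rpow_nonneg hY p) (hj.trans hm) (z := 1 / p) (by positivity)
  rw [← Real.rpow_mul hY, mul_one_div_cancel hp0.ne', Real.rpow_one] at h1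
  refine h1.trans (le_of_eq ?_)
  rw [Real.mul_rpow (by positivity) (by positivity), Real.mul_rpow hC.le (by positivity),
    ← Real.rpow_mul hc.le, ← Real.rpow_mul hT0.le, mul_one_div_cancel hp0.ne', Real.rpow_one]
  congr 2
  field_simp

end Crest.Agent.LpDim
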