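import Crest.Agent.LpDim.NetDefs

/-!
Row 232, CHUNK R232-NET2.
-/

set_option autoImplicit false

namespace Crest.Agent.LpDim

open Finset

variable {V : Type} [Fintype V] [DecidableEq V]

/-- CHUNK AT. `A_t(z)² ≤ (8/τ) (Ent h_t - Ent h_{t+1})`.
PROOF. `|h x - h y| = |√h x - √h y| (√h x + √h y)`, Cauchy-Schwarz with the splitting `P/ρ = √(P/ρ²) √P`:
`A ≤ (∑∑ P/ρ² (√h x - √h y)²)^{1/2} (∑∑ P (√h x + √h y)²)^{1/2}`; the second sum is
`≤ 2 ∑∑ P (h x + h y) = 4 ∑ ν h = 4` (`hk_sum`, symmetry of `P`), the first is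
`(1/τ) ∑∑ ν K (√h x - √h y)² ≤ (2/τ) (Ent h_t - Ent h_{t+1})` (`ent_decr`, `hk_succ`; the diagonal terms vanish). -/
theorem At_sq_le {P ρ : V → V → ℝ} {ν : V → ℝ} {K : V → V → ℝ} {τ : ℝ} (h : NetK P ρ ν K τ)
    (t : ℕ) (z : V) :
    At P ρ ν K t z ^ 2 ≤
      8 / τ * (Ent ν (fun x => hk ν K t x z) - Ent ν (fun x => hk ν K (t + 1) x z)) := by
  set H : V → ℝ := fun x => hk ν K t x z with hH
  have hH0 : ∀ x, 0 ≤ H x := fun x => hk_nonneg h.lrk t x z
  have hent := ent_decr h.lrk H hH0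
  have hsucc : (fun x => hk ν K (t + 1) x z) = app K H := hk_succ t z
  rw [hsucc]
  have hHs : ∑ x, ν x * H x = 1 := hk_sum h.lrk t z
  -- the product form
  set f : V × V → ℝ := fun q => √(P q.1 q.2) / ρ q.1 q.2 * |√(H q.1) - √(H q.2)| with hf
  set g : V × V → ℝ := fun q => √(P q.1 q.2) * (√(H q.1) + √(H q.2)) with hg
  have hA : At P ρ ν K t z = ∑ q : V × V, f q * g q := by
    unfold At
    rw [Fintype.sum_prod_type]
    refine Finset.sum_congr rfl fun x _ => Finset.sum_congr rfl fun y _ => ?_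
    simp only [hf, hg, gr]
    have e1 : H x - H y = (√(H x) - √(H y)) * (√(H x) + √(H y)) := by
      have a1 := Real.mul_self_sqrt (hH0 x)
      have a2 := Real.mul_self_sqrt (hH0 y)
      nlinarith
    have e2 : |(hk ν K t x z - hk ν K t y z) / ρ x y| =
        |√(H x) - √(H y)| * (√(H x) + √(H y)) / ρ x y := by
      have : hk ν K t x z - hk ν K t y z = (√(H x) - √(H y)) * (√(H x) + √(H y)) := e1
      rw [this, abs_div, abs_mul, abs_of_pos (h.ρ_pos x y),
        abs_of_nonneg (add_nonneg (Real.sqrt_nonneg (H x)) (Real.sqrt_nonneg (H y)))]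
    rw [e2]
    have e3 := Real.mul_self_sqrt (h.P_pos x y).le
    calc P x y * (|√(H x) - √(H y)| * (√(H x) + √(H y)) / ρ x y)
        = (√(P x y) * √(P x y)) * (|√(H x) - √(H y)| * (√(H x) + √(H y)) / ρ x y) := by rw [e3]
      _ = _ := by ring
  have hfsq : ∑ q : V × V, f q ^ 2 ≤
      2 / τ * (Ent ν H - Ent ν (app K H)) := by
    have e1 : ∑ q : V × V, f q ^ 2 =
        1 / τ * ∑ x, ∑ y, ν x * K x y * (√(H x) - √(H y)) ^ 2 := by
      rw [Fintype.sum_prod_type, Finset.mul_sum]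
      refine Finset.sum_congr rfl fun x _ => ?_
      rw [Finset.mul_sum]
      refine Finset.sum_congr rfl fun y _ => ?_
      simp only [hf]
      by_cases hxy : x = y
      · subst hxy
        simp
      · rw [h.K_eq x y hxy]
        have e3 := Real.sq_sqrt (h.P_pos x y).le
        rw [mul_pow, div_pow, e3, sq_abs]
        have := h.τ_pos.ne'
        field_simp
    rw [e1]
    have hτ := h.τ_pos
    have e2 : ∑ x, ∑ y, ν x * K x y * (√(H x) - √(H y)) ^ 2 ≤ 2 * (Ent ν H - Ent ν (app K H)) := by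
      linarith
    calc 1 / τ * ∑ x, ∑ y, ν x * K x y * (√(H x) - √(H y)) ^ 2
        ≤ 1 / τ * (2 * (Ent ν H - Ent ν (app K H))) :=
          mul_le_mul_of_nonneg_left e2 (by positivity)
      _ = _ := by ring
  have hgsq : ∑ q : V × V, g q ^ 2 ≤ 4 := by
    have e1 : ∀ q : V × V, g q ^ 2 ≤ 2 * (P q.1 q.2 * H q.1 + P q.1 q.2 * H q.2) := by
      intro q
      simp only [hg]
      rw [mul_pow, Real.sq_sqrt (h.P_pos q.1 q.2).le]
      have a1 := Real.sq_sqrt (hH0 q.1)
      have a2 := Real.sq_sqrt (hH0 q.2)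
      have a3 : (√(H q.1) + √(H q.2)) ^ 2 ≤ 2 * (H q.1 + H q.2) := by
        nlinarith [sq_nonneg (√(H q.1) - √(H q.2))]
      calc P q.1 q.2 * (√(H q.1) + √(H q.2)) ^ 2 ≤ P q.1 q.2 * (2 * (H q.1 + H q.2)) :=
            mul_le_mul_of_nonneg_left a3 (h.P_pos q.1 q.2).le
        _ = _ := by ring
    have e2 : ∑ q : V × V, P q.1 q.2 * H q.1 = 1 := by
      rw [Fintype.sum_prod_type]
      rw [← hHs]
      refine Finset.sum_congr rfl fun x _ => ?_
      simp only []
      rw [← Finset.sum_mul, ← h.ν_eq x]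
    have e3 : ∑ q : V × V, P q.1 q.2 * H q.2 = 1 := by
      rw [Fintype.sum_prod_type, Finset.sum_comm]
      rw [← hHs]
      refine Finset.sum_congr rfl fun x _ => ?_
      simp only []
      rw [← Finset.sum_mul, h.ν_eq x]
      congr 1
      exact Finset.sum_congr rfl fun y _ => h.P_symm y x
    calc ∑ q : V × V, g q ^ 2 ≤ ∑ q : V × V, 2 * (P q.1 q.2 * H q.1 + P q.1 q.2 * H q.2) :=
          Finset.sum_le_sum fun q _ => e1 q
      _ = 4 := by
        rw [← Finset.mul_sum, Finset.sum_add_distrib, e2, e3]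
        norm_num
  have hCS := Finset.sum_mul_sq_le_sq_mul_sq Finset.univ f g
  rw [hA]
  have hf0 : 0 ≤ ∑ q : V × V, f q ^ 2 := Finset.sum_nonneg fun q _ => sq_nonneg _
  calc (∑ q : V × V, f q * g q) ^ 2 ≤ (∑ q : V × V, f q ^ 2) * ∑ q : V × V, g q ^ 2 := hCS
    _ ≤ (∑ q : V × V, f q ^ 2) * 4 := mul_le_mul_of_nonneg_left hgsq hf0
    _ ≤ (2 / τ * (Ent ν H - Ent ν (app K H))) * 4 :=
        mul_le_mul_of_nonneg_right hfsq (by norm_num)
    _ = _ := by ring

theorem At_nonneg {P ρ : V → V → ℝ} {ν : V → ℝ} {K : V → V → ℝ} {τ : ℝ} (h : NetK P ρ ν K τ)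
    (t : ℕ) (z : V) : 0 ≤ At P ρ ν K t z :=
  Finset.sum_nonneg fun x _ => Finset.sum_nonneg fun y _ =>
    mul_nonneg (h.P_pos x y).le (abs_nonneg _)

/-- second difference of the heat kernel -/
noncomputable def net2DD (ρ : V → V → ℝ) (ν : V → ℝ) (K : V → V → ℝ) (t : ℕ) (x y a b : V) : ℝ :=
  ((hk ν K t x a - hk ν K t x b) - (hk ν K t y a - hk ν K t y b)) / (ρ x y * ρ a b)

theorem net2DD_add {P ρ : V → V → ℝ} {ν : V → ℝ} {K : V → V → ℝ} {τ : ℝ} (h : NetK P ρ ν K τ)
    (s s' : ℕ) (x y a b : V) :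
    net2DD ρ ν K (s + s') x y a b =
      ∑ z, ν z * (gr ρ (fun u => hk ν K s u z) x y * gr ρ (fun u => hk ν K s' u z) a b) := by
  unfold net2DD gr
  rw [hk_add h.lrk, hk_add h.lrk, hk_add h.lrk, hk_add h.lrk,
    ← Finset.sum_sub_distrib, ← Finset.sum_sub_distrib, ← Finset.sum_sub_distrib,
    Finset.sum_div]
  refine Finset.sum_congr rfl fun z _ => ?_
  rw [hk_symm h.lrk s' z a, hk_symm h.lrk s' z b]
  have h1 := (h.ρ_pos x y).ne'
  have h2 := (h.ρ_pos a b).ne'
  field_simp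

theorem net2DD_sum_le {P ρ : V → V → ℝ} {ν : V → ℝ} {K : V → V → ℝ} {τ : ℝ}
    (h : NetK P ρ ν K τ) (s s' : ℕ) :
    ∑ x, ∑ y, P x y * ∑ a, ∑ b, P a b * |net2DD ρ ν K (s + s') x y a b| ≤
      ∑ z, ν z * (At P ρ ν K s z * At P ρ ν K s' z) := by
  have hν : ∀ z, 0 ≤ ν z := fun z => (h.lrk.nu_pos z).le
  have e1 : ∀ x y a b, |net2DD ρ ν K (s + s') x y a b| ≤
      ∑ z, ν z * (|gr ρ (fun u => hk ν K s u z) x y| * |gr ρ (fun u => hk ν K s' u z) a b|) := by
    intro x y a b
    rw [net2DD_add h]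
    refine (Finset.abs_sum_le_sum_abs _ _).trans_eq (Finset.sum_congr rfl fun z _ => ?_)
    rw [abs_mul, abs_mul, abs_of_nonneg (hν z)]
  calc ∑ x, ∑ y, P x y * ∑ a, ∑ b, P a b * |net2DD ρ ν K (s + s') x y a b|
      ≤ ∑ x, ∑ y, P x y * ∑ a, ∑ b, P a b *
          ∑ z, ν z * (|gr ρ (fun u => hk ν K s u z) x y| *
            |gr ρ (fun u => hk ν K s' u z) a b|) := by
        refine Finset.sum_le_sum fun x _ => Finset.sum_le_sum fun y _ =>
          mul_le_mul_of_nonneg_left ?_ (h.P_pos x y).le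
        exact Finset.sum_le_sum fun a _ => Finset.sum_le_sum fun b _ =>
          mul_le_mul_of_nonneg_left (e1 x y a b) (h.P_pos a b).le
    _ = ∑ z, ν z * (At P ρ ν K s z * At P ρ ν K s' z) := by
        have e2 : ∀ x y, ∑ a, ∑ b, P a b *
            ∑ z, ν z * (|gr ρ (fun u => hk ν K s u z) x y| *
              |gr ρ (fun u => hk ν K s' u z) a b|) =
            ∑ z, ν z * (|gr ρ (fun u => hk ν K s u z) x y| * At P ρ ν K s' z) := by
          intro x y
          unfold At
          simp only [Finset.mul_sum]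
          rw [Finset.sum_comm' (s := Finset.univ) (t := fun _ => Finset.univ)
            (t' := Finset.univ) (s' := fun _ => Finset.univ) (by simp)]
          have : ∀ b : V, ∑ a, ∑ z, P a b * (ν z * (|gr ρ (fun u => hk ν K s u z) x y| *
              |gr ρ (fun u => hk ν K s' u z) a b|)) =
              ∑ z, ∑ a, P a b * (ν z * (|gr ρ (fun u => hk ν K s u z) x y| *
              |gr ρ (fun u => hk ν K s' u z) a b|)) := fun b => Finset.sum_comm
          simp only [this]
          rw [Finset.sum_comm]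
          refine Finset.sum_congr rfl fun z _ => ?_
          rw [Finset.sum_comm]
          refine Finset.sum_congr rfl fun a _ => Finset.sum_congr rfl fun b _ => ?_
          ring
        simp only [e2]
        simp only [Finset.mul_sum]
        have : ∀ x : V, ∑ y, ∑ z, P x y * (ν z * (|gr ρ (fun u => hk ν K s u z) x y| *
            At P ρ ν K s' z)) = ∑ z, ∑ y, P x y * (ν z * (|gr ρ (fun u => hk ν K s u z) x y| *
            At P ρ ν K s' z)) := fun x => Finset.sum_comm
        simp only [this]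
        rw [Finset.sum_comm]
        refine Finset.sum_congr rfl fun z _ => ?_
        conv_rhs => rw [At]
        rw [Finset.sum_mul, Finset.mul_sum]
        refine Finset.sum_congr rfl fun x _ => ?_
        rw [Finset.sum_mul, Finset.mul_sum]
        refine Finset.sum_congr rfl fun y _ => ?_
        ring

/-- CHUNK ROWSUM. `∑∑ P ∑∑ |S_N| ≤ 8 log |V|`.
PROOF. `Sk ρ (GN ..) x y a b = (τ/2) P a b ∑_{t<2N} ∇_{xy} ∇_{ab} h_t`; for `t = s + s'` (`s' = s` or `s + 1`) by
`hk_add` (and `hk_symm`) `∇_{xy}∇_{ab} h_{s+s'} = ∑_z ν z ∇_{xy} h_s(.,z) ∇_{ab} h_{s'}(.,z)`, so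
`∑∑ P ∑∑ P |∇∇ h_{s+s'}| ≤ ∑_z ν z A_s(z) A_{s'}(z)`. Summing over `t < 2N` (pairs `t = 2s, 2s+1`), with
`A_s A_{s+1} ≤ (A_s² + A_{s+1}²)/2`: `≤ (τ/2) ∑_z ν z 2 ∑_{s ≤ N} A_s(z)² ≤ 8 ∑_z ν z (Ent h_0 - Ent h_{N+1})
≤ 8 ∑_z ν z log (1/ν z) ≤ 8 log |V|` (`At_sq_le`, telescoping, `ent_zero`, `ent_nonneg`, `entropy_le`). -/
theorem rowsum_le {P ρ : V → V → ℝ} {ν : V → ℝ} {K : V → V → ℝ} {τ : ℝ} (h : NetK P ρ ν K τ)
    (N : ℕ) :
    ∑ x, ∑ y, P x y * ∑ a, ∑ b, |Sk ρ (GN P ρ ν K τ N) x y a b| ≤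
      8 * Real.log (Fintype.card V) := by
  have hτ := h.τ_pos
  have hν : ∀ z, 0 ≤ ν z := fun z => (h.lrk.nu_pos z).le
  set B : ℕ → ℝ := fun t => ∑ x, ∑ y, P x y * ∑ a, ∑ b, P a b * |net2DD ρ ν K t x y a b| with hB
  -- step 1
  have h1 : ∀ x y a b, |Sk ρ (GN P ρ ν K τ N) x y a b| ≤
      τ / 2 * ∑ t ∈ range (2 * N), P a b * |net2DD ρ ν K t x y a b| := by
    intro x y a b
    have e1 : Sk ρ (GN P ρ ν K τ N) x y a b =
        τ / 2 * ∑ t ∈ range (2 * N), P a b * net2DD ρ ν K t x y a b := by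
      unfold Sk GN net2DD
      rw [← mul_sub, ← Finset.sum_sub_distrib, mul_div_assoc, Finset.sum_div, ← Finset.mul_sum]
      have e2 : ∀ t, ((hk ν K t x a - hk ν K t x b) - (hk ν K t y a - hk ν K t y b)) /
          (ρ x y * ρ a b) =
          ((hk ν K t x a - hk ν K t x b) - (hk ν K t y a - hk ν K t y b)) / ρ x y * (1 / ρ a b) := by
        intro t
        have h1 := (h.ρ_pos x y).ne'
        have h2 := (h.ρ_pos a b).ne'
        field_simp
      simp only [e2]
      rw [← Finset.sum_mul]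
      ring
    rw [e1, abs_mul, abs_of_pos (by positivity : 0 < τ / 2)]
    refine mul_le_mul_of_nonneg_left ?_ (by positivity)
    refine (Finset.abs_sum_le_sum_abs _ _).trans_eq (Finset.sum_congr rfl fun t _ => ?_)
    rw [abs_mul, abs_of_pos (h.P_pos a b)]
  have h2 : ∑ x, ∑ y, P x y * ∑ a, ∑ b, |Sk ρ (GN P ρ ν K τ N) x y a b| ≤
      τ / 2 * ∑ t ∈ range (2 * N), B t := by
    calc ∑ x, ∑ y, P x y * ∑ a, ∑ b, |Sk ρ (GN P ρ ν K τ N) x y a b|
        ≤ ∑ x, ∑ y, P x y * ∑ a, ∑ b, τ / 2 * ∑ t ∈ range (2 * N),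
            P a b * |net2DD ρ ν K t x y a b| := by
          refine Finset.sum_le_sum fun x _ => Finset.sum_le_sum fun y _ =>
            mul_le_mul_of_nonneg_left ?_ (h.P_pos x y).le
          exact Finset.sum_le_sum fun a _ => Finset.sum_le_sum fun b _ => h1 x y a b
      _ = τ / 2 * ∑ t ∈ range (2 * N), B t := by
          simp only [hB]
          have e1 : ∀ x y, ∑ a, ∑ b, τ / 2 * ∑ t ∈ range (2 * N),
              P a b * |net2DD ρ ν K t x y a b| =
              τ / 2 * ∑ t ∈ range (2 * N), ∑ a, ∑ b, P a b * |net2DD ρ ν K t x y a b| := by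
            intro x y
            have e0 : ∀ a : V, ∑ b, τ / 2 * ∑ t ∈ range (2 * N),
                P a b * |net2DD ρ ν K t x y a b| = τ / 2 * ∑ b, ∑ t ∈ range (2 * N),
                P a b * |net2DD ρ ν K t x y a b| := fun a => by rw [Finset.mul_sum]
            simp only [e0]
            rw [← Finset.mul_sum]
            congr 1
            have : ∀ a : V, ∑ b, ∑ t ∈ range (2 * N), P a b * |net2DD ρ ν K t x y a b| =
                ∑ t ∈ range (2 * N), ∑ b, P a b * |net2DD ρ ν K t x y a b| :=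
              fun a => Finset.sum_comm
            simp only [this]
            rw [Finset.sum_comm]
          simp only [e1]
          have e2 : ∀ x y, P x y * (τ / 2 * ∑ t ∈ range (2 * N), ∑ a, ∑ b,
              P a b * |net2DD ρ ν K t x y a b|) =
              τ / 2 * ∑ t ∈ range (2 * N), P x y * ∑ a, ∑ b,
              P a b * |net2DD ρ ν K t x y a b| := by
            intro x y
            rw [← Finset.mul_sum (range (2 * N)) (fun t => ∑ a, ∑ b,
              P a b * |net2DD ρ ν K t x y a b|) (P x y)]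
            ring
          simp only [e2]
          have e5 : ∀ x : V, ∑ y, τ / 2 * ∑ t ∈ range (2 * N), P x y * ∑ a, ∑ b,
              P a b * |net2DD ρ ν K t x y a b| = τ / 2 * ∑ y, ∑ t ∈ range (2 * N), P x y *
              ∑ a, ∑ b, P a b * |net2DD ρ ν K t x y a b| := fun x => by rw [Finset.mul_sum]
          simp only [e5]
          rw [← Finset.mul_sum]
          congr 1
          have e3 : ∀ x : V, ∑ y, ∑ t ∈ range (2 * N), P x y * ∑ a, ∑ b,
              P a b * |net2DD ρ ν K t x y a b| = ∑ t ∈ range (2 * N), ∑ y, P x y * ∑ a, ∑ b,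
              P a b * |net2DD ρ ν K t x y a b| := fun x => Finset.sum_comm
          simp only [e3]
          rw [Finset.sum_comm]
  -- step 2
  have h3 : ∀ M : ℕ, ∑ t ∈ range (2 * M), B t ≤
      ∑ z, ν z * (2 * ∑ s ∈ range M, At P ρ ν K s z ^ 2 + 1 / 2 * At P ρ ν K M z ^ 2) := by
    intro M
    induction M with
    | zero =>
      simp only [Finset.range_zero, Finset.sum_empty, mul_zero, zero_add]
      exact Finset.sum_nonneg fun z _ => mul_nonneg (hν z) (by positivity)
    | succ M ih =>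
      rw [show 2 * (M + 1) = 2 * M + 1 + 1 by ring, Finset.sum_range_succ, Finset.sum_range_succ]
      have b1 : B (2 * M) ≤ ∑ z, ν z * (At P ρ ν K M z * At P ρ ν K M z) := by
        have := net2DD_sum_le h M M
        rwa [show M + M = 2 * M by ring] at this
      have b2 : B (2 * M + 1) ≤ ∑ z, ν z * (At P ρ ν K M z * At P ρ ν K (M + 1) z) := by
        have := net2DD_sum_le h M (M + 1)
        rwa [show M + (M + 1) = 2 * M + 1 by ring] at this
      calc ∑ t ∈ range (2 * M), B t + B (2 * M) + B (2 * M + 1)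
          ≤ ∑ z, ν z * (2 * ∑ s ∈ range M, At P ρ ν K s z ^ 2 + 1 / 2 * At P ρ ν K M z ^ 2) +
            ∑ z, ν z * (At P ρ ν K M z * At P ρ ν K M z) +
            ∑ z, ν z * (At P ρ ν K M z * At P ρ ν K (M + 1) z) := by linarith
        _ ≤ ∑ z, ν z * (2 * ∑ s ∈ range (M + 1), At P ρ ν K s z ^ 2 +
              1 / 2 * At P ρ ν K (M + 1) z ^ 2) := by
            rw [← Finset.sum_add_distrib, ← Finset.sum_add_distrib]
            refine Finset.sum_le_sum fun z _ => ?_
            rw [← mul_add, ← mul_add]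
            refine mul_le_mul_of_nonneg_left ?_ (hν z)
            rw [Finset.sum_range_succ]
            nlinarith [sq_nonneg (At P ρ ν K M z - At P ρ ν K (M + 1) z)]
  -- step 3: telescoping
  have h4 : ∀ z, ∑ s ∈ range (N + 1), At P ρ ν K s z ^ 2 ≤ 8 / τ * Real.log (ν z)⁻¹ := by
    intro z
    have e1 : ∀ M : ℕ, ∑ s ∈ range M, At P ρ ν K s z ^ 2 ≤
        8 / τ * (Ent ν (fun x => hk ν K 0 x z) - Ent ν (fun x => hk ν K M x z)) := by
      intro M
      induction M with
      | zero => simp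
      | succ M ih =>
        rw [Finset.sum_range_succ]
        have := At_sq_le h M z
        have e2 : 8 / τ * (Ent ν (fun x => hk ν K 0 x z) - Ent ν (fun x => hk ν K (M + 1) x z)) =
            8 / τ * (Ent ν (fun x => hk ν K 0 x z) - Ent ν (fun x => hk ν K M x z)) +
            8 / τ * (Ent ν (fun x => hk ν K M x z) - Ent ν (fun x => hk ν K (M + 1) x z)) := by
          ring
        rw [e2]
        exact add_le_add ih this
    refine (e1 (N + 1)).trans (mul_le_mul_of_nonneg_left ?_ (by positivity))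
    rw [ent_zero h.lrk]
    have hν1 : ∑ x, ν x = 1 := by
      have := h.P_sum
      simp only [← h.ν_eq] at this
      exact this
    have := ent_nonneg hν hν1 (fun x => hk ν K (N + 1) x z)
      (fun x => hk_nonneg h.lrk (N + 1) x z) (hk_sum h.lrk (N + 1) z)
    linarith
  have hν1 : ∑ x, ν x = 1 := by
    have := h.P_sum
    simp only [← h.ν_eq] at this
    exact this
  have h5 : ∑ t ∈ range (2 * N), B t ≤ ∑ z, ν z * (2 * (8 / τ * Real.log (ν z)⁻¹)) := by
    refine (h3 N).trans (Finset.sum_le_sum fun z _ => mul_le_mul_of_nonneg_left ?_ (hν z))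
    have := h4 z
    rw [Finset.sum_range_succ] at this
    nlinarith [sq_nonneg (At P ρ ν K N z)]
  calc ∑ x, ∑ y, P x y * ∑ a, ∑ b, |Sk ρ (GN P ρ ν K τ N) x y a b|
      ≤ τ / 2 * ∑ t ∈ range (2 * N), B t := h2
    _ ≤ τ / 2 * ∑ z, ν z * (2 * (8 / τ * Real.log (ν z)⁻¹)) :=
        mul_le_mul_of_nonneg_left h5 (by positivity)
    _ = 8 * ∑ z, ν z * Real.log (ν z)⁻¹ := by
        rw [Finset.mul_sum, Finset.mul_sum]
        refine Finset.sum_congr rfl fun z _ => ?_
        field_simp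
    _ ≤ 8 * Real.log (Fintype.card V) :=
        mul_le_mul_of_nonneg_left (entropy_le ν h.lrk.nu_pos hν1) (by norm_num)

end Crest.Agent.LpDim
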