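import Crest.Agent.LpDim.Defs

/-!
Row 232, CHUNK R232-ORTH.
-/

set_option autoImplicit false

namespace Crest.Agent.LpDim

open Finset

variable {V : Type} [Fintype V] [DecidableEq V]

omit [Fintype V] [DecidableEq V] in
/-- the weighted gradient map -/
noncomputable def orthL (P ρ : V → V → ℝ) : (V → ℝ) →ₗ[ℝ] EuclideanSpace ℝ (V × V) where
  toFun f := WithLp.toLp 2 (fun e => √(P e.1 e.2) * gr ρ f e.1 e.2)
  map_add' f g := by
    ext e
    simp only [gr, Pi.add_apply, PiLp.add_apply]
    ring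
  map_smul' c f := by
    ext e
    simp only [gr, Pi.smul_apply, smul_eq_mul, PiLp.smul_apply, RingHom.id_apply]
    ring

omit [Fintype V] [DecidableEq V] in
/-- the weighted field -/
noncomputable def orthW (P F : V → V → ℝ) : EuclideanSpace ℝ (V × V) :=
  WithLp.toLp 2 (fun e => √(P e.1 e.2) * F e.1 e.2)

omit [Fintype V] [DecidableEq V] in
lemma orthL_eq (P ρ : V → V → ℝ) (f : V → ℝ) : orthL P ρ f = orthW P (gr ρ f) := rfl

omit [DecidableEq V] in
lemma orthW_norm_sq (P F : V → V → ℝ) (hP : ∀ x y, 0 < P x y) :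
    ‖orthW P F‖ ^ 2 = ∑ x, ∑ y, P x y * F x y ^ 2 := by
  rw [EuclideanSpace.norm_sq_eq, ← Finset.sum_product', Finset.univ_product_univ]
  refine Finset.sum_congr rfl fun e _ => ?_
  simp only [orthW, Real.norm_eq_abs, sq_abs, mul_pow]
  rw [Real.sq_sqrt (hP _ _).le]

omit [DecidableEq V] in
lemma orthW_inner (P F H : V → V → ℝ) (hP : ∀ x y, 0 < P x y) :
    inner ℝ (orthW P F) (orthW P H) = ∑ x, ∑ y, P x y * (F x y * H x y) := by
  rw [PiLp.inner_apply, ← Finset.sum_product', Finset.univ_product_univ]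
  refine Finset.sum_congr rfl fun e _ => ?_
  have h := Real.mul_self_sqrt (hP e.1 e.2).le
  simp only [orthW, RCLike.inner_apply, conj_trivial]
  calc √(P e.1 e.2) * H e.1 e.2 * (√(P e.1 e.2) * F e.1 e.2)
      = (√(P e.1 e.2) * √(P e.1 e.2)) * (F e.1 e.2 * H e.1 e.2) := by ring
    _ = _ := by rw [h]

omit [Fintype V] [DecidableEq V] in
lemma orthW_inj (P F H : V → V → ℝ) (hP : ∀ x y, 0 < P x y) (h : orthW P F = orthW P H) (x y : V) :
    F x y = H x y := by
  have h1 := congrArg (fun v : EuclideanSpace ℝ (V × V) => v (x, y)) h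
  simp only [orthW] at h1
  exact mul_left_cancel₀ (Real.sqrt_pos.2 (hP x y)).ne' h1

/-- CHUNK ORTH. The orthogonal projection of `L_2(P)` onto gradient fields, in coordinates.
PROOF. In `EuclideanSpace ℝ (V × V)` take the submodule `U` of the vectors `(√P x y * gr ρ f x y)`, let `π` be the
orthogonal projection onto `U`, and let `G a b` be a potential `f` with
`√P a b • π (e_{ab}) = (√P x y * gr ρ f x y)_{xy}`; then `Sk ρ G x y a b = √P a b (π e_{ab})_{xy} / √P x y`,
`Sop ρ G F x y = (π (√P F))_{xy} / √P x y` by linearity. Self-adjointness of `π` gives the symmetry, `π = id` on `U`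
gives `IsProj`, `‖π‖, ‖1 - π‖ ≤ 1` give the norm bounds, and `F - SF ⟂ U`. -/
theorem exists_orth [Nonempty V] (P ρ : V → V → ℝ) (hP : ∀ x y, 0 < P x y) (hρ : ∀ x y, 0 < ρ x y) :
    ∃ G : V → V → V → ℝ, IsProj ρ G ∧
      (∀ F : V → V → ℝ, ∃ g : V → ℝ, ∀ x y, Sop ρ G F x y = gr ρ g x y) ∧
      (∀ F : V → V → ℝ, ∑ x, ∑ y, P x y * (F x y - Sop ρ G F x y) ^ 2 ≤ ∑ x, ∑ y, P x y * F x y ^ 2) ∧
      (∀ F : V → V → ℝ, ∑ x, ∑ y, P x y * (Sop ρ G F x y) ^ 2 ≤ ∑ x, ∑ y, P x y * F x y ^ 2) ∧
      (∀ x y a b, P x y * Sk ρ G x y a b = P a b * Sk ρ G a b x y) ∧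
      (∀ (F : V → V → ℝ) (f : V → ℝ),
        ∑ x, ∑ y, P x y * (gr ρ f x y * F x y) = ∑ x, ∑ y, P x y * (gr ρ f x y * Sop ρ G F x y)) := by
  classical
  set U : Submodule ℝ (EuclideanSpace ℝ (V × V)) := LinearMap.range (orthL P ρ) with hU
  set π := U.starProjection with hπ
  have hex : ∀ a b : V, ∃ f : V → ℝ,
      orthL P ρ f = √(P a b) • π (EuclideanSpace.single (a, b) (1 : ℝ)) := by
    intro a b
    have : √(P a b) • π (EuclideanSpace.single (a, b) (1 : ℝ)) ∈ U :=
      U.smul_mem _ (U.starProjection_apply_mem _)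
    exact this
  choose G hG using hex
  -- the key identity for the kernel
  have hSk : ∀ x y a b : V, √(P x y) * Sk ρ G x y a b
      = √(P a b) * (π (EuclideanSpace.single (a, b) (1 : ℝ))) (x, y) := by
    intro x y a b
    have h1 := congrArg (fun v : EuclideanSpace ℝ (V × V) => v (x, y)) (hG a b)
    simp only [PiLp.smul_apply, smul_eq_mul] at h1
    rw [← h1]
    rfl
  -- the key identity for the operator
  have hW : ∀ F : V → V → ℝ, orthW P F
      = ∑ e : V × V, (√(P e.1 e.2) * F e.1 e.2) • (EuclideanSpace.single e (1 : ℝ)) := by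
    intro F
    ext e
    simp only [orthW, PiLp.smul_apply, smul_eq_mul, WithLp.ofLp_sum, Finset.sum_apply,
      PiLp.single_apply]
    simp
  have hSop : ∀ F : V → V → ℝ, orthW P (Sop ρ G F) = π (orthW P F) := by
    intro F
    ext e
    rw [hW F, map_sum]
    simp only [orthW, Sop, WithLp.ofLp_sum, Finset.sum_apply, map_smul, PiLp.smul_apply, smul_eq_mul]
    rw [Finset.mul_sum, ← Finset.univ_product_univ, Finset.sum_product]
    refine Finset.sum_congr rfl fun a _ => ?_
    rw [Finset.mul_sum]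
    refine Finset.sum_congr rfl fun b _ => ?_
    have := hSk e.1 e.2 a b
    calc √(P e.1 e.2) * (Sk ρ G e.1 e.2 a b * F a b)
        = (√(P e.1 e.2) * Sk ρ G e.1 e.2 a b) * F a b := by ring
      _ = _ := by rw [this]; ring
  have hsub : ∀ F H : V → V → ℝ, orthW P F - orthW P H = orthW P (fun x y => F x y - H x y) := by
    intro F H
    ext e
    simp only [orthW, PiLp.sub_apply]
    ring
  refine ⟨G, ?_, ?_, ?_, ?_, ?_, ?_⟩
  · intro f x y
    apply orthW_inj P _ _ hP
    rw [hSop, ← orthL_eq]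
    exact Submodule.starProjection_eq_self_iff.2 ⟨f, rfl⟩
  · intro F
    obtain ⟨g, hg⟩ : π (orthW P F) ∈ U := U.starProjection_apply_mem _
    refine ⟨g, fun x y => ?_⟩
    apply orthW_inj P _ _ hP
    rw [hSop, ← orthL_eq, hg]
  · intro F
    have h1 := orthW_norm_sq P (fun x y => F x y - Sop ρ G F x y) hP
    rw [← h1, ← orthW_norm_sq P F hP, ← hsub, hSop]
    have h2 : orthW P F - π (orthW P F) = Uᗮ.starProjection (orthW P F) :=
      (Submodule.starProjection_orthogonal_val _).symm
    rw [h2]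
    have h3 := Uᗮ.norm_starProjection_apply_le (orthW P F)
    gcongr
  · intro F
    rw [← orthW_norm_sq P (Sop ρ G F) hP, ← orthW_norm_sq P F hP, hSop]
    have h3 := U.norm_starProjection_apply_le (orthW P F)
    gcongr
  · intro x y a b
    have h1 := hSk x y a b
    have h2 := hSk a b x y
    have h3 : (π (EuclideanSpace.single (a, b) (1 : ℝ))) (x, y)
        = (π (EuclideanSpace.single (x, y) (1 : ℝ))) (a, b) := by
      have h4 := U.inner_starProjection_left_eq_right (EuclideanSpace.single (x, y) (1 : ℝ))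
        (EuclideanSpace.single (a, b) (1 : ℝ))
      rw [EuclideanSpace.inner_single_left] at h4
      rw [EuclideanSpace.inner_single_right] at h4
      simp only [conj_trivial, one_mul] at h4
      exact h4.symm
    calc P x y * Sk ρ G x y a b
        = √(P x y) * (√(P x y) * Sk ρ G x y a b) := by
          rw [← mul_assoc, Real.mul_self_sqrt (hP x y).le]
      _ = √(P a b) * (√(P a b) * Sk ρ G a b x y) := by rw [h1, h2, h3]; ring
      _ = P a b * Sk ρ G a b x y := by rw [← mul_assoc, Real.mul_self_sqrt (hP a b).le]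
  · intro F f
    rw [← orthW_inner P _ _ hP, ← orthW_inner P _ _ hP, hSop, ← orthL_eq]
    rw [← U.inner_starProjection_left_eq_right]
    have h5 : U.starProjection (orthL P ρ f) = orthL P ρ f :=
      Submodule.starProjection_eq_self_iff.2 (LinearMap.mem_range_self _ f)
    rw [h5]

end Crest.Agent.LpDim
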