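import Crest.Agent.LpDim.Net1
import Crest.Agent.LpDim.Net2
import Crest.Agent.LpDim.Orth

/-!
Row 232, CHUNK R232-LIMIT: the projection lemma (Lemma A).
-/

set_option autoImplicit false

namespace Crest.Agent.LpDim

open Finset

variable {V : Type} [Fintype V] [DecidableEq V]

private theorem Sop_single (ρ : V → V → ℝ) (G : V → V → V → ℝ) (a b x y : V) :
    Sop ρ G (fun a' b' => if a' = a ∧ b' = b then 1 else 0) x y = Sk ρ G x y a b := by
  unfold Sop
  rw [Finset.sum_eq_single a, Finset.sum_eq_single b]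
  · simp
  · intro b' _ hb'
    simp [hb']
  · intro h
    exact absurd (Finset.mem_univ b) h
  · intro a' _ ha'
    refine Finset.sum_eq_zero fun b' _ => ?_
    simp [ha']
  · intro h
    exact absurd (Finset.mem_univ a) h

private theorem gr_iter_tendsto {P ρ : V → V → ℝ} {ν : V → ℝ} {K : V → V → ℝ} {τ : ℝ}
    (h : NetK P ρ ν K τ) (g : V → ℝ) (x y : V) :
    Filter.Tendsto (fun N : ℕ => gr ρ (((app K)^[2 * N]) g) x y) Filter.atTop (nhds 0) := by
  by_cases hxy : x = y
  · subst hxy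
    have : (fun N : ℕ => gr ρ (((app K)^[2 * N]) g) x x) = fun _ => 0 := by
      funext N; simp [gr]
    rw [this]
    exact tendsto_const_nhds
  have hc : 0 < ν x * K x y := by
    rw [h.K_eq x y hxy]
    have h1 := h.τ_pos
    have h2 := h.P_pos x y
    have h3 := h.ρ_pos x y
    positivity
  have hE := energy_tendsto h.lrk g
  have h1 : Filter.Tendsto (fun t => (((app K)^[t]) g x - ((app K)^[t]) g y) ^ 2)
      Filter.atTop (nhds 0) := by
    have h2 := hE.const_mul (ν x * K x y)⁻¹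
    rw [mul_zero] at h2
    refine squeeze_zero (fun t => sq_nonneg _) (fun t => ?_) h2
    rw [inv_mul_eq_div, le_div_iff₀ hc, mul_comm]
    have hnn : ∀ u v, 0 ≤ ν u * K u v * (((app K)^[t]) g u - ((app K)^[t]) g v) ^ 2 := fun u v =>
      mul_nonneg (mul_nonneg (h.lrk.nu_pos u).le (h.lrk.nonneg u v)) (sq_nonneg _)
    exact (Finset.single_le_sum (f := fun v => ν x * K x v *
        (((app K)^[t]) g x - ((app K)^[t]) g v) ^ 2) (fun v _ => hnn x v) (Finset.mem_univ y)).trans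
      (Finset.single_le_sum (f := fun u => ∑ v, ν u * K u v *
        (((app K)^[t]) g u - ((app K)^[t]) g v) ^ 2)
        (fun u _ => Finset.sum_nonneg fun v _ => hnn u v) (Finset.mem_univ x))
  have h2 : Filter.Tendsto (fun t => ((app K)^[t]) g x - ((app K)^[t]) g y)
      Filter.atTop (nhds 0) := by
    have h3 := h1.sqrt
    rw [Real.sqrt_zero] at h3
    simp only [Real.sqrt_sq_eq_abs] at h3
    exact (tendsto_zero_iff_abs_tendsto_zero _).2 h3
  have h3 : Filter.Tendsto (fun N : ℕ => 2 * N) Filter.atTop Filter.atTop :=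
    Filter.tendsto_id.const_mul_atTop' (by norm_num)
  have h4 := (h2.comp h3).div_const (ρ x y)
  rw [zero_div] at h4
  exact h4

/-- CHUNK LIMIT. The row sums of the projection. PROOF. Let `G` be from `exists_orth`, `ν K τ` from `exists_netK`. For every
`F`, with `SF = ∇g`: `S_N F = S_N (SF) = SF - ∇K^{2N} g` (`GN_congr`, `telescope`) and `∇K^{2N}g → 0` entrywise by
`energy_tendsto` (for `x ≠ y`: `ν x K x y = τ P x y/ρ x y² > 0`). Taking `F = 1_{(a,b)}`: `Sk (GN N) → Sk G`
entrywise, so `rowsum_le` passes to the limit. -/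
theorem exists_proj [Nonempty V] (P ρ : V → V → ℝ) (hP : ∀ x y, 0 < P x y)
    (hPs : ∀ x y, P x y = P y x) (hP1 : ∑ x, ∑ y, P x y = 1) (hρ : ∀ x y, 0 < ρ x y)
    (hρs : ∀ x y, ρ x y = ρ y x) :
    ∃ G : V → V → V → ℝ, IsProj ρ G ∧
      (∀ F : V → V → ℝ, ∑ x, ∑ y, P x y * (F x y - Sop ρ G F x y) ^ 2 ≤ ∑ x, ∑ y, P x y * F x y ^ 2) ∧
      (∀ F : V → V → ℝ, ∑ x, ∑ y, P x y * (Sop ρ G F x y) ^ 2 ≤ ∑ x, ∑ y, P x y * F x y ^ 2) ∧
      (∀ x y a b, P x y * Sk ρ G x y a b = P a b * Sk ρ G a b x y) ∧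
      ∑ x, ∑ y, P x y * ∑ a, ∑ b, |Sk ρ G x y a b| ≤ 8 * Real.log (Fintype.card V) := by
  obtain ⟨G, hproj, hgr, hn1, hn2, hsym, horth⟩ := exists_orth P ρ hP hρ
  obtain ⟨ν, K, τ, hN⟩ := exists_netK P ρ hP hPs hP1 hρ hρs
  refine ⟨G, hproj, hn1, hn2, hsym, ?_⟩
  have hlim : ∀ (F : V → V → ℝ) (x y : V), Filter.Tendsto
      (fun N => Sop ρ (GN P ρ ν K τ N) F x y) Filter.atTop (nhds (Sop ρ G F x y)) := by
    intro F x y
    obtain ⟨g, hg⟩ := hgr F
    have h1 : ∀ N, Sop ρ (GN P ρ ν K τ N) F x y =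
        gr ρ g x y - gr ρ (((app K)^[2 * N]) g) x y := by
      intro N
      rw [← telescope hN N g x y]
      refine GN_congr hN N F (gr ρ g) (fun f => ?_) x y
      rw [horth F f]
      exact Finset.sum_congr rfl fun u _ => Finset.sum_congr rfl fun v _ => by rw [hg u v]
    simp only [h1, hg x y]
    have h2 := (tendsto_const_nhds (x := gr ρ g x y)).sub (gr_iter_tendsto hN g x y)
    rw [sub_zero] at h2
    exact h2
  have hlimS : ∀ x y a b : V, Filter.Tendsto
      (fun N => Sk ρ (GN P ρ ν K τ N) x y a b) Filter.atTop (nhds (Sk ρ G x y a b)) := by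
    intro x y a b
    have := hlim (fun a' b' => if a' = a ∧ b' = b then 1 else 0) x y
    simpa only [Sop_single] using this
  have hlimR : Filter.Tendsto
      (fun N => ∑ x, ∑ y, P x y * ∑ a, ∑ b, |Sk ρ (GN P ρ ν K τ N) x y a b|) Filter.atTop
      (nhds (∑ x, ∑ y, P x y * ∑ a, ∑ b, |Sk ρ G x y a b|)) := by
    refine tendsto_finsetSum _ fun x _ => tendsto_finsetSum _ fun y _ => ?_
    refine Filter.Tendsto.const_mul _ ?_
    exact tendsto_finsetSum _ fun a _ => tendsto_finsetSum _ fun b _ => (hlimS x y a b).abs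
  exact le_of_tendsto' hlimR fun N => rowsum_le hN N

end Crest.Agent.LpDim
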