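import Crest.Agent.LpDim.ObjDefs
import Crest.Agent.LpDim.Proj
import Crest.Agent.LpDim.CommGt
import Crest.Agent.LpDim.CommLt

/-!
Row 232, CHUNK R232-AVG.
-/

set_option autoImplicit false

namespace Crest.Agent.LpDim

open Finset

/-- CHUNK COMM-COMB. Both cases of the commutator lemma. -/
theorem comm_all (p : ℝ) (hp1 : 1 < p) (hp2 : p ≠ 2) : ∃ C : ℝ, 1 ≤ C ∧
    ∀ (E W κ : Type) [Fintype E] [Fintype W] [Fintype κ] (P : E → ℝ) (S : E → E → ℝ)
      (T : ℝ) (μ : W → ℝ) (v : E → W → ℝ) (θ : κ → ℝ → ℝ) (c : ℝ), CommData P S T μ v θ c p →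
      ∑ e, P e * (∑ k, ∑ w, μ w * |gerr S v θ e k w| ^ p) ^ (1 / p) ≤ C * c * T ^ |1 - 2 / p| := by
  have hp0 : 0 < p := by linarith
  rcases lt_or_gt_of_ne hp2 with hlt | hgt
  · obtain ⟨C, hC, H⟩ := comm_lt p hp1 hlt
    refine ⟨C + 1, by linarith, ?_⟩
    intro E W κ _ _ _ P S T μ v θ c h
    have habs : |1 - 2 / p| = 2 / p - 1 := by
      rw [abs_of_nonpos, neg_sub]
      have : 1 ≤ 2 / p := by rw [le_div_iff₀ hp0]; linarith
      linarith
    rw [habs]
    refine (H E W κ P S T μ v θ c h).trans ?_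
    have hc := h.c_pos
    have hT : 0 < T := lt_of_lt_of_le one_pos h.T_ge
    gcongr
    linarith
  · obtain ⟨C, hC, H⟩ := comm_gt p hgt
    refine ⟨C + 1, by linarith, ?_⟩
    intro E W κ _ _ _ P S T μ v θ c h
    have habs : |1 - 2 / p| = 1 - 2 / p := by
      rw [abs_of_nonneg]
      have : 2 / p ≤ 1 := by rw [div_le_iff₀ hp0]; linarith
      linarith
    rw [habs]
    refine (H E W κ P S T μ v θ c h).trans ?_
    have hc := h.c_pos
    have hT : 0 < T := lt_of_lt_of_le one_pos h.T_ge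
    gcongr
    linarith

/-- CHUNK AVG. For every symmetric positive probability `P` on pairs there is a projection with all three averages bounded.
PROOF. `exists_proj` with `V = Fin n`; `E = Fin n × Fin n`, `S e e' = Sk ρ G e.1 e.2 e'.1 e'.2`, `T = 8 (1 + log n)`;
`CommData` holds (`fix` from `IsProj`: `vv ρ X · · w = gr ρ (X · w)`); `ph3`: the `L_2(P)` bound for each `k, w`, then `om_le`,
`norm`. (`gerr = bb - Sop bb`.) -/
theorem exists_avg (p : ℝ) (hp1 : 1 < p) (hp2 : p ≠ 2) : ∃ C : ℝ, 1 ≤ C ∧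
    ∀ (n : ℕ) (W κ : Type) [Fintype W] [Fintype κ] (μ : W → ℝ)
      (ρ : Fin n → Fin n → ℝ) (X : Fin n → W → ℝ) (θ : κ → ℝ → ℝ) (c : ℝ) (om : κ → ℝ),
      EmbData p μ ρ X θ c om → ∀ P : Fin n → Fin n → ℝ, (∀ x y, 0 < P x y) → (∀ x y, P x y = P y x) →
      ∑ x, ∑ y, P x y = 1 → ∃ G : Fin n → Fin n → Fin n → ℝ, IsProj ρ G ∧
        ∑ x, ∑ y, P x y * ph1 ρ G x y ≤ C * (1 + Real.log n) ∧
        ∑ x, ∑ y, P x y * ph2 p μ ρ X θ G x y ≤ C * c * (1 + Real.log n) ^ |1 - 2 / p| ∧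
        ∑ x, ∑ y, P x y * ph3 μ ρ X θ om G x y ≤ C := by
  obtain ⟨C0, hC0, H⟩ := comm_all p hp1 hp2
  have hp0 : 0 < p := by linarith
  have h8 : (0 : ℝ) ≤ C0 * 8 ^ |1 - 2 / p| := by positivity
  refine ⟨8 + C0 * 8 ^ |1 - 2 / p|, by linarith, ?_⟩
  intro n W κ _ _ μ ρ X θ c om hE P hP hPs hP1
  have hn := hE.n_ge
  have : Nonempty (Fin n) := ⟨⟨0, by omega⟩⟩
  obtain ⟨G, hG, hl2, hS2, hsym, hrow⟩ := exists_proj P ρ hP hPs hP1 hE.ρ_pos hE.ρ_symm
  rw [Fintype.card_fin] at hrow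
  have hlog : 0 ≤ Real.log n := Real.log_natCast_nonneg n
  have hc := hE.c_pos
  refine ⟨G, hG, ?_, ?_, ?_⟩
  · -- ph1
    calc ∑ x, ∑ y, P x y * ph1 ρ G x y ≤ 8 * Real.log n := hrow
      _ ≤ 8 * (1 + Real.log n) := by linarith
      _ ≤ (8 + C0 * 8 ^ |1 - 2 / p|) * (1 + Real.log n) := by
          gcongr
          linarith
  · -- ph2
    have hnorm : ∀ x y, ∑ w, μ w * |vv ρ X x y w| ^ p ≤ 1 := by
      intro x y
      by_cases hxy : x = y
      · subst hxy
        have : ∑ w, μ w * |vv ρ X x x w| ^ p = 0 := by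
          refine Finset.sum_eq_zero fun w _ => ?_
          simp [vv, Real.zero_rpow hp0.ne']
        rw [this]; exact zero_le_one
      · exact (hE.norm x y hxy).le
    have hdata : CommData (E := Fin n × Fin n) (fun e => P e.1 e.2)
        (fun e e' => Sk ρ G e.1 e.2 e'.1 e'.2) (8 * (1 + Real.log n)) μ
        (fun e w => vv ρ X e.1 e.2 w) θ c p := by
      refine ⟨⟨fun e => (hP _ _).le, ?_, ?_, ?_, ?_⟩, by linarith, hE.μ_nonneg, ?_, ?_, hc, hE.lip,
        hE.bd⟩
      · rw [Fintype.sum_prod_type]; exact hP1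
      · intro F
        have := hl2 (fun a b => F (a, b))
        simp only [Fintype.sum_prod_type]
        exact this
      · intro e e'
        have h1 := congrArg abs (hsym e.1 e.2 e'.1 e'.2)
        rw [abs_mul, abs_mul, abs_of_pos (hP _ _), abs_of_pos (hP _ _)] at h1
        exact h1
      · simp only [Fintype.sum_prod_type]
        linarith
      · intro e w
        have := hG (fun x => X x w) e.1 e.2
        simp only [Fintype.sum_prod_type]
        exact this
      · intro e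
        exact hnorm e.1 e.2
    have h1 := H (Fin n × Fin n) W κ _ _ _ μ _ θ c hdata
    have h2 : ∑ x, ∑ y, P x y * ph2 p μ ρ X θ G x y =
        ∑ e : Fin n × Fin n, P e.1 e.2 * (∑ k, ∑ w, μ w *
          |gerr (fun e e' : Fin n × Fin n => Sk ρ G e.1 e.2 e'.1 e'.2)
            (fun e w => vv ρ X e.1 e.2 w) θ e k w| ^ p) ^ (1 / p) := by
      rw [Fintype.sum_prod_type]
      refine Finset.sum_congr rfl fun x _ => Finset.sum_congr rfl fun y _ => ?_
      unfold ph2 gerr Sop bb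
      simp only [Fintype.sum_prod_type]
    rw [h2]
    refine h1.trans ?_
    rw [Real.mul_rpow (by norm_num) (by linarith)]
    have hX : 0 ≤ c * (1 + Real.log n) ^ |1 - 2 / p| :=
      mul_nonneg hc.le (Real.rpow_nonneg (by linarith) _)
    calc C0 * c * (8 ^ |1 - 2 / p| * (1 + Real.log n) ^ |1 - 2 / p|)
        = (C0 * 8 ^ |1 - 2 / p|) * (c * (1 + Real.log n) ^ |1 - 2 / p|) := by ring
      _ ≤ (8 + C0 * 8 ^ |1 - 2 / p|) * (c * (1 + Real.log n) ^ |1 - 2 / p|) := by
          gcongr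
          linarith
      _ = (8 + C0 * 8 ^ |1 - 2 / p|) * c * (1 + Real.log n) ^ |1 - 2 / p| := by ring
  · -- ph3
    have hswap1 : ∀ A : κ → W → Fin n → Fin n → ℝ,
        ∑ x, ∑ y, P x y * ∑ k, om k * ∑ w, μ w * A k w x y =
        ∑ k, om k * ∑ w, μ w * ∑ x, ∑ y, P x y * A k w x y := by
      intro A
      simp only [Finset.mul_sum]
      rw [← Finset.sum_product', Finset.sum_comm]
      refine Finset.sum_congr rfl fun k _ => ?_
      rw [Finset.sum_comm]
      refine Finset.sum_congr rfl fun w _ => ?_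
      rw [Finset.sum_product]
      refine Finset.sum_congr rfl fun x _ => Finset.sum_congr rfl fun y _ => ?_
      ring
    have h1 : ∑ x, ∑ y, P x y * ph3 μ ρ X θ om G x y =
        ∑ k, om k * ∑ w, μ w * ∑ x, ∑ y, P x y *
          Sop ρ G (fun a b => bb ρ X (θ k) a b w) x y ^ 2 := by
      unfold ph3
      exact hswap1 (fun k w x y => Sop ρ G (fun a b => bb ρ X (θ k) a b w) x y ^ 2)
    rw [h1]
    have h2 : ∑ k, om k * ∑ w, μ w * ∑ x, ∑ y, P x y *
          Sop ρ G (fun a b => bb ρ X (θ k) a b w) x y ^ 2 ≤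
        ∑ k, om k * ∑ w, μ w * ∑ x, ∑ y, P x y * bb ρ X (θ k) x y w ^ 2 := by
      refine Finset.sum_le_sum fun k _ => mul_le_mul_of_nonneg_left ?_ (hE.om_nonneg k)
      refine Finset.sum_le_sum fun w _ => mul_le_mul_of_nonneg_left ?_ (hE.μ_nonneg w)
      exact hS2 (fun a b => bb ρ X (θ k) a b w)
    refine h2.trans ?_
    rw [← hswap1 (fun k w x y => bb ρ X (θ k) x y w ^ 2)]
    have hnorm : ∀ x y, ∑ w, μ w * |vv ρ X x y w| ^ p ≤ 1 := by
      intro x y
      by_cases hxy : x = y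
      · subst hxy
        have : ∑ w, μ w * |vv ρ X x x w| ^ p = 0 := by
          refine Finset.sum_eq_zero fun w _ => ?_
          simp [vv, Real.zero_rpow hp0.ne']
        rw [this]; exact zero_le_one
      · exact (hE.norm x y hxy).le
    have h3 : ∀ x y, ∑ k, om k * ∑ w, μ w * bb ρ X (θ k) x y w ^ 2 ≤ 2 := by
      intro x y
      calc ∑ k, om k * ∑ w, μ w * bb ρ X (θ k) x y w ^ 2
          = ∑ w, μ w * ∑ k, om k * bb ρ X (θ k) x y w ^ 2 := by
            simp only [Finset.mul_sum]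
            rw [Finset.sum_comm]
            refine Finset.sum_congr rfl fun w _ => Finset.sum_congr rfl fun k _ => ?_
            ring
        _ ≤ ∑ w, μ w * (2 * |vv ρ X x y w| ^ p) :=
            Finset.sum_le_sum fun w _ => mul_le_mul_of_nonneg_left (hE.om_le x y w) (hE.μ_nonneg w)
        _ = 2 * ∑ w, μ w * |vv ρ X x y w| ^ p := by
            rw [Finset.mul_sum]
            refine Finset.sum_congr rfl fun w _ => ?_
            ring
        _ ≤ 2 * 1 := by gcongr; exact hnorm x y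
        _ = 2 := by norm_num
    calc ∑ x, ∑ y, P x y * ∑ k, om k * ∑ w, μ w * bb ρ X (θ k) x y w ^ 2
        ≤ ∑ x, ∑ y, P x y * 2 :=
          Finset.sum_le_sum fun x _ => Finset.sum_le_sum fun y _ =>
            mul_le_mul_of_nonneg_left (h3 x y) (hP x y).le
      _ = (∑ x, ∑ y, P x y) * 2 := by simp only [Finset.sum_mul]
      _ = 2 := by rw [hP1, one_mul]
      _ ≤ 8 + C0 * 8 ^ |1 - 2 / p| := by linarith

end Crest.Agent.LpDim
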