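import Crest.Agent.LpDim.Wn

/-!
Row 232, CHUNK BANDS: the band functions.
-/

set_option autoImplicit false

namespace Crest.Agent.LpDim

open Finset

/-- the tent at `k` -/
noncomputable def tent (k : ℕ) (u : ℝ) : ℝ := max 0 (1 - |u - k|)

theorem tent_nonneg (k : ℕ) (u : ℝ) : 0 ≤ tent k u := le_max_left _ _

theorem tent_le_one (k : ℕ) (u : ℝ) : tent k u ≤ 1 :=
  max_le (by norm_num) (by have := abs_nonneg (u - k); linarith)

theorem tent_lip (k : ℕ) (u u' : ℝ) : |tent k u - tent k u'| ≤ |u - u'| := by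
  unfold tent
  have h1 : |max 0 (1 - |u - k|) - max 0 (1 - |u' - k|)| ≤ |(1 - |u - k|) - (1 - |u' - k|)| :=
    abs_max_sub_max_le_max 0 _ 0 _ |>.trans (by simp)
  refine h1.trans ?_
  have h2 : (1 - |u - k|) - (1 - |u' - k|) = |u' - k| - |u - k| := by ring
  rw [h2]
  refine (abs_abs_sub_abs_le _ _).trans ?_
  rw [show u' - (k : ℝ) - (u - k) = -(u - u') by ring, abs_neg]

theorem tent_ne_zero {k : ℕ} {u : ℝ} (h : tent k u ≠ 0) : |u - k| < 1 := by
  by_contra hc
  rw [not_lt] at hc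
  exact h (max_eq_left (by linarith))

theorem tent_supp {k : ℕ} {u : ℝ} (hu : 0 ≤ u) (h : tent k u ≠ 0) : k = ⌊u⌋₊ ∨ k = ⌊u⌋₊ + 1 := by
  have h1 := abs_lt.mp (tent_ne_zero h)
  have h2 := Nat.floor_le hu
  have h3 := Nat.lt_floor_add_one u
  have h4 : (k : ℝ) < ((⌊u⌋₊ + 2 : ℕ) : ℝ) := by push_cast; linarith [h1.1]
  have h5 : ((⌊u⌋₊ : ℕ) : ℝ) < ((k + 1 : ℕ) : ℝ) := by push_cast; linarith [h1.2]
  have h6 := Nat.cast_lt.mp h4
  have h7 := Nat.cast_lt.mp h5
  omega

theorem tent_sum (K : ℕ) (u : ℝ) (hu : 0 ≤ u) (huK : u ≤ K) :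
    ∑ k ∈ range (K + 1), tent k u = 1 := by
  have h2 := Nat.floor_le hu
  have h3 := Nat.lt_floor_add_one u
  set n := ⌊u⌋₊ with hn
  have hnK : n ≤ K := by
    have : (n : ℝ) ≤ (K : ℝ) := h2.trans huK
    exact_mod_cast this
  rcases hnK.eq_or_lt with h | h
  · -- u = K
    have huK' : u = K := le_antisymm huK (by rw [← h]; exact h2)
    rw [sum_eq_single K]
    · unfold tent; rw [huK']; simp
    · intro k hk hkK
      by_contra hc
      rcases tent_supp hu hc with h4 | h4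
      · exact hkK (h4.trans h)
      · rw [mem_range] at hk
        rw [← hn, h] at h4
        omega
    · intro hk; simp at hk
  · rw [← sum_subset (s₁ := {n, n + 1})]
    · rw [sum_pair (by omega)]
      unfold tent
      have e1 : |u - (n : ℝ)| = u - n := abs_of_nonneg (by linarith)
      have e2 : |u - ((n + 1 : ℕ) : ℝ)| = n + 1 - u := by
        push_cast
        rw [abs_of_nonpos (by linarith)]; ring
      rw [e1, e2, max_eq_right (by linarith), max_eq_right (by linarith)]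
      ring
    · intro k hk
      simp only [mem_insert, mem_singleton] at hk
      rw [mem_range]; omega
    · intro k _ hk
      by_contra hc
      rcases tent_supp hu hc with h4 | h4
      · exact hk (by simp [h4, ← hn])
      · exact hk (by simp [h4, ← hn])

theorem tent_card (K : ℕ) (u : ℝ) (hu : 0 ≤ u) :
    ((range (K + 1)).filter (fun k => tent k u ≠ 0)).card ≤ 2 := by
  have : (range (K + 1)).filter (fun k => tent k u ≠ 0) ⊆ {⌊u⌋₊, ⌊u⌋₊ + 1} := by
    intro k hk
    rw [mem_filter] at hk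
    simpa using tent_supp hu hk.2
  exact (card_le_card this).trans card_le_two

theorem tent_big (K : ℕ) (u : ℝ) (hu : 0 ≤ u) (huK : u ≤ K) :
    ∃ k ∈ range (K + 1), 1 / 2 ≤ tent k u := by
  have h2 := Nat.floor_le hu
  have h3 := Nat.lt_floor_add_one u
  set n := ⌊u⌋₊ with hn
  have hnK : n ≤ K := by
    have : (n : ℝ) ≤ (K : ℝ) := h2.trans huK
    exact_mod_cast this
  by_cases h : u - n ≤ 1 / 2
  · refine ⟨n, mem_range.mpr (by omega), ?_⟩
    unfold tent
    rw [abs_of_nonneg (by linarith)]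
    exact le_max_of_le_right (by linarith)
  · rw [not_le] at h
    have hnK' : n < K := by
      have : (n : ℝ) < (K : ℝ) := by linarith
      exact_mod_cast this
    refine ⟨n + 1, mem_range.mpr (by omega), ?_⟩
    unfold tent
    push_cast
    rw [abs_of_nonpos (by linarith)]
    exact le_max_of_le_right (by linarith)

theorem tent_lip_sum (K : ℕ) (u u' : ℝ) (hu : 0 ≤ u) (hu' : 0 ≤ u') :
    ∑ k ∈ range (K + 1), |tent k u - tent k u'| ≤ 4 * |u - u'| := by
  classical
  set A := (range (K + 1)).filter (fun k => tent k u ≠ 0) ∪ (range (K + 1)).filter (fun k => tent k u' ≠ 0)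
    with hA
  have hAs : A ⊆ range (K + 1) := union_subset (filter_subset _ _) (filter_subset _ _)
  rw [← sum_subset hAs]
  · calc ∑ k ∈ A, |tent k u - tent k u'| ≤ ∑ k ∈ A, |u - u'| := sum_le_sum fun k _ => tent_lip k u u'
      _ = A.card * |u - u'| := by rw [sum_const, nsmul_eq_mul]
      _ ≤ 4 * |u - u'| := by
        apply mul_le_mul_of_nonneg_right _ (abs_nonneg _)
        have h1 := tent_card K u hu
        have h2 := tent_card K u' hu'
        have h3 : A.card ≤ 4 := (card_union_le _ _).trans (by omega)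
        exact_mod_cast h3
  · intro k hk hkA
    rw [hA, mem_union, mem_filter, mem_filter, not_or] at hkA
    have h1 : tent k u = 0 := by
      by_contra hc; exact hkA.1 ⟨hk, hc⟩
    have h2 : tent k u' = 0 := by
      by_contra hc; exact hkA.2 ⟨hk, hc⟩
    rw [h1, h2]; simp

/-- the normaliser -/
noncomputable def tN (p : ℝ) (K : ℕ) (u : ℝ) : ℝ := (∑ k ∈ range (K + 1), tent k u ^ p) ^ (1 / p)

theorem tN_le_one (p : ℝ) (hp : 1 ≤ p) (K : ℕ) (u : ℝ) (hu : 0 ≤ u) (huK : u ≤ K) : tN p K u ≤ 1 := by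
  unfold tN
  have h1 : ∑ k ∈ range (K + 1), tent k u ^ p ≤ 1 := by
    rw [← tent_sum K u hu huK]
    apply sum_le_sum
    intro k _
    calc tent k u ^ p ≤ tent k u ^ (1:ℝ) := by
          rcases (tent_nonneg k u).eq_or_lt with h | h
          · rw [← h, Real.zero_rpow (by linarith), Real.zero_rpow (by norm_num)]
          · exact Real.rpow_le_rpow_of_exponent_ge h (tent_le_one k u) hp
      _ = tent k u := Real.rpow_one _
  exact Real.rpow_le_one (sum_nonneg fun k _ => Real.rpow_nonneg (tent_nonneg k u) _) h1 (by positivity)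

theorem tent_le_tN (p : ℝ) (hp : 1 ≤ p) (K : ℕ) (u : ℝ) (k : ℕ) (hk : k ∈ range (K + 1)) :
    tent k u ≤ tN p K u := by
  unfold tN
  have hp0 : 0 < p := by linarith
  have h1 : tent k u ^ p ≤ ∑ k ∈ range (K + 1), tent k u ^ p :=
    single_le_sum (f := fun k => tent k u ^ p) (fun k _ => Real.rpow_nonneg (tent_nonneg k u) _) hk
  calc tent k u = (tent k u ^ p) ^ (1 / p) := by
        rw [← Real.rpow_mul (tent_nonneg k u), mul_one_div_cancel hp0.ne', Real.rpow_one]
    _ ≤ _ := Real.rpow_le_rpow (Real.rpow_nonneg (tent_nonneg k u) _) h1 (by positivity)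

theorem half_le_tN (p : ℝ) (hp : 1 ≤ p) (K : ℕ) (u : ℝ) (hu : 0 ≤ u) (huK : u ≤ K) :
    1 / 2 ≤ tN p K u := by
  obtain ⟨k, hk, h⟩ := tent_big K u hu huK
  exact h.trans (tent_le_tN p hp K u k hk)

theorem tN_sub_le (p : ℝ) (hp : 1 ≤ p) (K : ℕ) (u u' : ℝ) :
    tN p K u - tN p K u' ≤ ∑ k ∈ range (K + 1), |tent k u - tent k u'| := by
  have hp0 : 0 < p := by linarith
  have h1 := Real.Lp_add_le (range (K + 1)) (fun k => tent k u') (fun k => tent k u - tent k u') hp
  have e1 : (∑ i ∈ range (K + 1), |tent i u' + (tent i u - tent i u')| ^ p) ^ (1 / p) = tN p K u := by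
    unfold tN
    congr 1
    refine sum_congr rfl fun k _ => ?_
    rw [add_sub_cancel, abs_of_nonneg (tent_nonneg k u)]
  have e2 : (∑ i ∈ range (K + 1), |tent i u'| ^ p) ^ (1 / p) = tN p K u' := by
    unfold tN
    congr 1
    refine sum_congr rfl fun k _ => ?_
    rw [abs_of_nonneg (tent_nonneg k u')]
  rw [e1, e2] at h1
  have h2 : (∑ i ∈ range (K + 1), |tent i u - tent i u'| ^ p) ^ (1 / p) ≤
      ∑ k ∈ range (K + 1), |tent k u - tent k u'| := by
    set D := ∑ k ∈ range (K + 1), |tent k u - tent k u'| with hD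
    have hD0 : 0 ≤ D := sum_nonneg fun _ _ => abs_nonneg _
    have h3 : ∑ i ∈ range (K + 1), |tent i u - tent i u'| ^ p ≤ D ^ p := by
      calc ∑ i ∈ range (K + 1), |tent i u - tent i u'| ^ p
          ≤ ∑ i ∈ range (K + 1), |tent i u - tent i u'| * D ^ (p - 1) := by
            apply sum_le_sum
            intro k hk
            have hkD : |tent k u - tent k u'| ≤ D :=
              single_le_sum (f := fun k => |tent k u - tent k u'|) (fun _ _ => abs_nonneg _) hk
            rcases (abs_nonneg (tent k u - tent k u')).eq_or_lt with h | h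
            · rw [← h, Real.zero_rpow hp0.ne', zero_mul]
            · calc |tent k u - tent k u'| ^ p
                  = |tent k u - tent k u'| * |tent k u - tent k u'| ^ (p - 1) := by
                    nth_rewrite 2 [← Real.rpow_one |tent k u - tent k u'|]
                    rw [← Real.rpow_add h]; congr 1; ring
                _ ≤ _ := by
                    apply mul_le_mul_of_nonneg_left _ h.le
                    exact Real.rpow_le_rpow h.le hkD (by linarith)
        _ = D * D ^ (p - 1) := by rw [← sum_mul]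
        _ ≤ D ^ p := by
            rcases hD0.eq_or_lt with h | h
            · rw [← h, zero_mul, Real.zero_rpow hp0.ne']
            · nth_rewrite 1 [← Real.rpow_one D]
              rw [← Real.rpow_add h]
              apply le_of_eq; congr 1; ring
    calc _ ≤ (D ^ p) ^ (1 / p) :=
          Real.rpow_le_rpow (sum_nonneg fun _ _ => Real.rpow_nonneg (abs_nonneg _) _) h3 (by positivity)
      _ = D := by rw [← Real.rpow_mul hD0, mul_one_div_cancel hp0.ne', Real.rpow_one]
  linarith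

theorem tN_abs_sub_le (p : ℝ) (hp : 1 ≤ p) (K : ℕ) (u u' : ℝ) :
    |tN p K u - tN p K u'| ≤ ∑ k ∈ range (K + 1), |tent k u - tent k u'| := by
  rw [abs_le]
  refine ⟨?_, tN_sub_le p hp K u u'⟩
  have := tN_sub_le p hp K u' u
  have e : ∑ k ∈ range (K + 1), |tent k u' - tent k u| = ∑ k ∈ range (K + 1), |tent k u - tent k u'| :=
    sum_congr rfl fun k _ => abs_sub_comm _ _
  rw [e] at this
  linarith

theorem band_lip (p : ℝ) (hp : 1 ≤ p) (K : ℕ) (u u' : ℝ) (hu : 0 ≤ u) (huK : u ≤ K) (hu' : 0 ≤ u')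
    (huK' : u' ≤ K) :
    ∑ k ∈ range (K + 1), |tent k u / tN p K u - tent k u' / tN p K u'| ≤ 24 * |u - u'| := by
  have hN := half_le_tN p hp K u hu huK
  have hN' := half_le_tN p hp K u' hu' huK'
  have hNN := tN_abs_sub_le p hp K u' u
  have hD := tent_lip_sum K u u' hu hu'
  have hs := tent_sum K u' hu' huK'
  have e : ∑ k ∈ range (K + 1), |tent k u' - tent k u| = ∑ k ∈ range (K + 1), |tent k u - tent k u'| :=
    sum_congr rfl fun k _ => abs_sub_comm _ _
  rw [e] at hNN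
  set N := tN p K u
  set N' := tN p K u'
  set D := ∑ k ∈ range (K + 1), |tent k u - tent k u'| with hDdef
  have hNpos : 0 < N := by linarith
  have hNpos' : 0 < N' := by linarith
  have hD0 : 0 ≤ D := sum_nonneg fun _ _ => abs_nonneg _
  calc ∑ k ∈ range (K + 1), |tent k u / N - tent k u' / N'|
      ≤ ∑ k ∈ range (K + 1), (|tent k u - tent k u'| * 2 + tent k u' * (4 * D)) := by
        apply sum_le_sum
        intro k _
        have h1 : tent k u / N - tent k u' / N' =
            (tent k u - tent k u') * N⁻¹ + tent k u' * ((N' - N) * (N⁻¹ * N'⁻¹)) := by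
          field_simp; ring
        rw [h1]
        refine (abs_add_le _ _).trans ?_
        have i1 : N⁻¹ ≤ 2 := by
          rw [inv_le_comm₀ hNpos (by norm_num)]; linarith
        have i2 : N'⁻¹ ≤ 2 := by
          rw [inv_le_comm₀ hNpos' (by norm_num)]; linarith
        have i3 : 0 < N⁻¹ := inv_pos.mpr hNpos
        have i4 : 0 < N'⁻¹ := inv_pos.mpr hNpos'
        rw [abs_mul, abs_mul, abs_mul, abs_mul, abs_of_pos i3, abs_of_pos i4,
          abs_of_nonneg (tent_nonneg k u')]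
        apply add_le_add
        · exact mul_le_mul_of_nonneg_left i1 (abs_nonneg _)
        · apply mul_le_mul_of_nonneg_left _ (tent_nonneg k u')
          have i5 : N⁻¹ * N'⁻¹ ≤ 2 * 2 := mul_le_mul i1 i2 i4.le (by norm_num)
          calc |N' - N| * (N⁻¹ * N'⁻¹) ≤ D * (2 * 2) :=
                mul_le_mul hNN i5 (by positivity) hD0
            _ = 4 * D := by ring
    _ = D * 2 + 1 * (4 * D) := by
        rw [sum_add_distrib, ← sum_mul, ← sum_mul, hs]
    _ ≤ 24 * |u - u'| := by linarith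

/-- the clamped height -/
noncomputable def clampU (ℓ : ℝ) (K : ℕ) (t : ℝ) : ℝ := max 0 (min (K : ℝ) (t / ℓ))

theorem clampU_nonneg (ℓ : ℝ) (K : ℕ) (t : ℝ) : 0 ≤ clampU ℓ K t := le_max_left _ _

theorem clampU_le (ℓ : ℝ) (K : ℕ) (t : ℝ) : clampU ℓ K t ≤ K :=
  max_le (Nat.cast_nonneg _) (min_le_left _ _)

theorem clampU_lip (ℓ : ℝ) (hℓ : 0 < ℓ) (K : ℕ) (a b : ℝ) :
    |clampU ℓ K a - clampU ℓ K b| ≤ |a - b| / ℓ := by
  unfold clampU
  have h1 : |max 0 (min (K : ℝ) (a / ℓ)) - max 0 (min (K : ℝ) (b / ℓ))| ≤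
      |min (K : ℝ) (a / ℓ) - min (K : ℝ) (b / ℓ)| :=
    abs_max_sub_max_le_max 0 _ 0 _ |>.trans (by simp)
  have h2 : |min (K : ℝ) (a / ℓ) - min (K : ℝ) (b / ℓ)| ≤ |a / ℓ - b / ℓ| :=
    abs_min_sub_min_le_max _ _ _ _ |>.trans (by simp)
  refine (h1.trans h2).trans (le_of_eq ?_)
  rw [← sub_div, abs_div, abs_of_pos hℓ]

/-- PROOF. `u = max 0 (min K (t/ℓ))`, tents `τ_k = max 0 (1 - |u - k|)` (`∑ τ_k = 1` on `[0,K]`, at most two are nonzero),
`N = (∑ τ_k^p)^{1/p} ∈ [1/2, 1]` (`max τ_k ≥ 1/2`, `∑ τ_k^p ≤ ∑ τ_k`), `θ_k = τ_k / N`. Each `τ_k` is 1-Lipschitz in `u` and for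
given `u, u'` at most 4 of the `τ_k(u) - τ_k(u')` are nonzero, so `∑ |τ_k(u) - τ_k(u')| ≤ 4 |u-u'|`,
`|N(u) - N(u')| ≤ ∑ |τ_k(u)-τ_k(u')|` (`wn` triangle inequality, `ℓ_p ≤ ℓ_1`), and
`|τ/N - τ'/N'| ≤ |τ-τ'|/N + τ' |N-N'|/(N N')`; so `∑ |θ_k - θ_k'| ≤ 2·4 + 4·4 ... ≤ 40`. -/
theorem exists_bands (p : ℝ) (hp : 1 ≤ p) (ℓ : ℝ) (hℓ : 0 < ℓ) (K : ℕ) (hK : 1 ≤ K) :
    ∃ θ : Fin (K + 1) → ℝ → ℝ, (∀ k t, 0 ≤ θ k t ∧ θ k t ≤ 1) ∧ (∀ t, ∑ k, θ k t ^ p = 1) ∧
      (∀ a b, ∑ k, |θ k a - θ k b| ≤ 40 / ℓ * |a - b|) ∧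
      (∀ (k : Fin (K + 1)) t, 1 ≤ (k : ℕ) → θ k t ≠ 0 → ((k : ℕ) - 1 : ℝ) * ℓ ≤ t) ∧
      (∀ (k : Fin (K + 1)) t, (k : ℕ) < K → θ k t ≠ 0 → t ≤ ((k : ℕ) + 1 : ℝ) * ℓ) ∧
      (∀ t, ∑ k, θ k t ^ 2 ≤ 2) := by
  have hp0 : 0 < p := by linarith
  have hu := clampU_nonneg ℓ K
  have huK := clampU_le ℓ K
  have hNh : ∀ t, 1 / 2 ≤ tN p K (clampU ℓ K t) := fun t => half_le_tN p hp K _ (hu t) (huK t)
  have hNpos : ∀ t, 0 < tN p K (clampU ℓ K t) := fun t => by linarith [hNh t]
  have h01 : ∀ k ∈ range (K + 1), ∀ t, 0 ≤ tent k (clampU ℓ K t) / tN p K (clampU ℓ K t) ∧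
      tent k (clampU ℓ K t) / tN p K (clampU ℓ K t) ≤ 1 := fun k hk t =>
    ⟨div_nonneg (tent_nonneg _ _) (hNpos t).le,
      (div_le_one (hNpos t)).mpr (tent_le_tN p hp K _ k hk)⟩
  refine ⟨fun k t => tent k (clampU ℓ K t) / tN p K (clampU ℓ K t), ?_, ?_, ?_, ?_, ?_, ?_⟩
  · exact fun k t => h01 k (mem_range.mpr k.2) t
  · intro t
    rw [← Finset.sum_range (fun k : ℕ => (tent k (clampU ℓ K t) / tN p K (clampU ℓ K t)) ^ p)]
    have e : ∀ k ∈ range (K + 1), (tent k (clampU ℓ K t) / tN p K (clampU ℓ K t)) ^ p =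
        tent k (clampU ℓ K t) ^ p / (tN p K (clampU ℓ K t)) ^ p := fun k _ =>
      Real.div_rpow (tent_nonneg _ _) (hNpos t).le _
    rw [sum_congr rfl e, ← sum_div]
    have hs0 : 0 ≤ ∑ k ∈ range (K + 1), tent k (clampU ℓ K t) ^ p :=
      sum_nonneg fun k _ => Real.rpow_nonneg (tent_nonneg _ _) _
    have e2 : (tN p K (clampU ℓ K t)) ^ p = ∑ k ∈ range (K + 1), tent k (clampU ℓ K t) ^ p := by
      unfold tN
      rw [← Real.rpow_mul hs0, one_div_mul_cancel hp0.ne', Real.rpow_one]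
    rw [← e2]
    exact div_self (Real.rpow_pos_of_pos (hNpos t) _).ne'
  · intro a b
    rw [← Finset.sum_range (fun k : ℕ => |tent k (clampU ℓ K a) / tN p K (clampU ℓ K a) -
      tent k (clampU ℓ K b) / tN p K (clampU ℓ K b)|)]
    have h1 := band_lip p hp K (clampU ℓ K a) (clampU ℓ K b) (hu a) (huK a) (hu b) (huK b)
    have h2 := clampU_lip ℓ hℓ K a b
    calc _ ≤ 24 * |clampU ℓ K a - clampU ℓ K b| := h1
      _ ≤ 40 * (|a - b| / ℓ) := by
          have := abs_nonneg (clampU ℓ K a - clampU ℓ K b)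
          linarith
      _ = 40 / ℓ * |a - b| := by ring
  · intro k t hk hne
    have hne' : tent k (clampU ℓ K t) ≠ 0 := fun h => hne (by simp [h])
    have h1 := abs_lt.mp (tent_ne_zero hne')
    have hk' : (1 : ℝ) ≤ ((k : ℕ) : ℝ) := by exact_mod_cast hk
    have h2 : ((k : ℕ) : ℝ) - 1 < clampU ℓ K t := by linarith [h1.1]
    unfold clampU at h2
    rcases lt_max_iff.mp h2 with h3 | h3
    · linarith
    · have h4 := (lt_min_iff.mp h3).2
      rw [lt_div_iff₀ hℓ] at h4
      exact h4.le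
  · intro k t hk hne
    have hne' : tent k (clampU ℓ K t) ≠ 0 := fun h => hne (by simp [h])
    have h1 := abs_lt.mp (tent_ne_zero hne')
    have h2 : clampU ℓ K t < ((k : ℕ) : ℝ) + 1 := by linarith [h1.2]
    have hkK : ((k : ℕ) : ℝ) + 1 ≤ K := by exact_mod_cast hk
    unfold clampU at h2
    have h3 := (max_lt_iff.mp h2).2
    rcases min_lt_iff.mp h3 with h4 | h4
    · linarith
    · rw [div_lt_iff₀ hℓ] at h4
      exact h4.le
  · intro t
    rw [← Finset.sum_range (fun k : ℕ => (tent k (clampU ℓ K t) / tN p K (clampU ℓ K t)) ^ 2)]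
    have hsub : (range (K + 1)).filter (fun k => tent k (clampU ℓ K t) ≠ 0) ⊆ range (K + 1) :=
      filter_subset _ _
    rw [← sum_subset hsub]
    · calc ∑ k ∈ (range (K + 1)).filter (fun k => tent k (clampU ℓ K t) ≠ 0),
            (tent k (clampU ℓ K t) / tN p K (clampU ℓ K t)) ^ 2
          ≤ ∑ k ∈ (range (K + 1)).filter (fun k => tent k (clampU ℓ K t) ≠ 0), (1 : ℝ) := by
            apply sum_le_sum
            intro k hk
            have := h01 k (hsub hk) t
            exact pow_le_one₀ this.1 this.2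
        _ = ((range (K + 1)).filter (fun k => tent k (clampU ℓ K t) ≠ 0)).card := by simp
        _ ≤ 2 := by exact_mod_cast tent_card K _ (hu t)
    · intro k hk hk2
      have : tent k (clampU ℓ K t) = 0 := by
        by_contra hc
        exact hk2 (mem_filter.mpr ⟨hk, hc⟩)
      rw [this]; simp

end Crest.Agent.LpDim
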