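import Crest.Agent.LpDim.Defs

/-!
Row 232: setting of the commutator lemma (Lemma B).
-/

set_option autoImplicit false

namespace Crest.Agent.LpDim

open Finset

/-- the data of the commutator lemma -/
structure CommData {E W κ : Type} [Fintype E] [Fintype W] [Fintype κ] (P : E → ℝ) (S : E → E → ℝ)
    (T : ℝ) (μ : W → ℝ) (v : E → W → ℝ) (θ : κ → ℝ → ℝ) (c p : ℝ) : Prop where
  ok : OpOK P S T
  T_ge : 1 ≤ T
  μ_nonneg : ∀ w, 0 ≤ μ w
  fix : ∀ e w, ∑ e', S e e' * v e' w = v e w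
  norm_le : ∀ e, ∑ w, μ w * |v e w| ^ p ≤ 1
  c_pos : 0 < c
  lip : ∀ a b, ∑ k, |θ k a - θ k b| ≤ c * |a - b|
  bd : ∀ k a, |θ k a| ≤ 1

/-- the error `b_k - S b_k` -/
noncomputable def gerr {E W κ : Type} [Fintype E] (S : E → E → ℝ) (v : E → W → ℝ) (θ : κ → ℝ → ℝ)
    (e : E) (k : κ) (w : W) : ℝ :=
  v e w * θ k (Real.log |v e w|) - ∑ e', S e e' * (v e' w * θ k (Real.log |v e' w|))

/-- the part above height `lam`, recentred -/
noncomputable def hi {E W κ : Type} (v : E → W → ℝ) (θ : κ → ℝ → ℝ) (lam : ℝ) (e : E) (k : κ) (w : W) : ℝ :=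
  if lam < |v e w| then v e w * (θ k (Real.log |v e w|) - θ k (Real.log lam)) else 0

/-- the part below height `lam`, recentred -/
noncomputable def lo {E W κ : Type} (v : E → W → ℝ) (θ : κ → ℝ → ℝ) (lam : ℝ) (e : E) (k : κ) (w : W) : ℝ :=
  if lam < |v e w| then 0 else v e w * (θ k (Real.log |v e w|) - θ k (Real.log lam))

section basic

variable {E W κ : Type} [Fintype E] [Fintype W] [Fintype κ] {P : E → ℝ} {S : E → E → ℝ}
  {T : ℝ} {μ : W → ℝ} {v : E → W → ℝ} {θ : κ → ℝ → ℝ} {c p : ℝ}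

omit [Fintype E] [Fintype W] [Fintype κ] in
private theorem hi_add_lo (v : E → W → ℝ) (θ : κ → ℝ → ℝ) (lam : ℝ) (e : E) (k : κ) (w : W) :
    hi v θ lam e k w + lo v θ lam e k w =
      v e w * (θ k (Real.log |v e w|) - θ k (Real.log lam)) := by
  unfold hi lo
  split_ifs <;> ring

private theorem sum_sq_le (f : κ → ℝ) : ∑ k, f k ^ 2 ≤ (∑ k, |f k|) ^ 2 := by
  have h0 : ∀ k, |f k| ≤ ∑ k, |f k| := fun k =>
    Finset.single_le_sum (f := fun k => |f k|) (fun _ _ => abs_nonneg _) (Finset.mem_univ k)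
  calc ∑ k, f k ^ 2 ≤ ∑ k, |f k| * ∑ k, |f k| := by
        refine Finset.sum_le_sum fun k _ => ?_
        rw [← sq_abs, sq]
        exact mul_le_mul_of_nonneg_left (h0 k) (abs_nonneg _)
    _ = (∑ k, |f k|) ^ 2 := by rw [← Finset.sum_mul, sq]

private theorem gen_l2 (h : CommData P S T μ v θ c p) (F : E → κ → W → ℝ) (B : E → W → ℝ)
    (hB : ∀ e w, ∑ k, F e k w ^ 2 ≤ B e w) :
    ∑ e, P e * ∑ k, ∑ w, μ w * (F e k w - ∑ e', S e e' * F e' k w) ^ 2 ≤
      ∑ e, P e * ∑ w, μ w * B e w := by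
  have h1 : ∀ G : E → κ → W → ℝ, ∑ e, P e * ∑ k, ∑ w, μ w * G e k w =
      ∑ k, ∑ w, μ w * ∑ e, P e * G e k w := by
    intro G
    simp only [Finset.mul_sum]
    rw [Finset.sum_comm]
    refine Finset.sum_congr rfl fun k _ => ?_
    rw [Finset.sum_comm]
    exact Finset.sum_congr rfl fun w _ => Finset.sum_congr rfl fun e _ => by ring
  calc ∑ e, P e * ∑ k, ∑ w, μ w * (F e k w - ∑ e', S e e' * F e' k w) ^ 2
      = ∑ k, ∑ w, μ w * ∑ e, P e * (F e k w - ∑ e', S e e' * F e' k w) ^ 2 :=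
        h1 (fun e k w => (F e k w - ∑ e', S e e' * F e' k w) ^ 2)
    _ ≤ ∑ k, ∑ w, μ w * ∑ e, P e * F e k w ^ 2 := by
        refine Finset.sum_le_sum fun k _ => Finset.sum_le_sum fun w _ => ?_
        exact mul_le_mul_of_nonneg_left (h.ok.l2 fun e => F e k w) (h.μ_nonneg w)
    _ = ∑ e, P e * ∑ k, ∑ w, μ w * F e k w ^ 2 := (h1 (fun e k w => F e k w ^ 2)).symm
    _ ≤ ∑ e, P e * ∑ w, μ w * B e w := by
        refine Finset.sum_le_sum fun e _ => mul_le_mul_of_nonneg_left ?_ (h.ok.nonneg e)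
        rw [Finset.sum_comm]
        refine Finset.sum_le_sum fun w _ => ?_
        rw [← Finset.mul_sum]
        exact mul_le_mul_of_nonneg_left (hB e w) (h.μ_nonneg w)

/-- CHUNK COMM-BASIC. `b = hi + lo + θ(log lam) v` and `(1-S) v = 0`. -/
theorem gerr_split (h : CommData P S T μ v θ c p) (lam : ℝ) (e : E) (k : κ) (w : W) :
    gerr S v θ e k w = (hi v θ lam e k w - ∑ e', S e e' * hi v θ lam e' k w) +
      (lo v θ lam e k w - ∑ e', S e e' * lo v θ lam e' k w) := by
  have h1 : ∀ e, v e w * θ k (Real.log |v e w|) =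
      hi v θ lam e k w + lo v θ lam e k w + θ k (Real.log lam) * v e w := by
    intro e
    rw [hi_add_lo]
    ring
  unfold gerr
  simp only [h1]
  have h2 : ∑ e', S e e' * (hi v θ lam e' k w + lo v θ lam e' k w + θ k (Real.log lam) * v e' w) =
      ∑ e', S e e' * hi v θ lam e' k w + ∑ e', S e e' * lo v θ lam e' k w +
        θ k (Real.log lam) * ∑ e', S e e' * v e' w := by
    rw [Finset.mul_sum, ← Finset.sum_add_distrib, ← Finset.sum_add_distrib]
    exact Finset.sum_congr rfl fun e' _ => by ring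
  rw [h2, h.fix]
  ring

private theorem lip_single (h : CommData P S T μ v θ c p) (k : κ) (a b : ℝ) :
    |θ k a - θ k b| ≤ c * |a - b| :=
  (Finset.single_le_sum (f := fun k => |θ k a - θ k b|) (fun _ _ => abs_nonneg _)
    (Finset.mem_univ k)).trans (h.lip a b)

/-- `|lo| ≤ c lam` (`t log (lam/t) ≤ lam`) -/
theorem lo_le (h : CommData P S T μ v θ c p) {lam : ℝ} (hl : 0 < lam) (e : E) (k : κ) (w : W) :
    |lo v θ lam e k w| ≤ c * lam := by
  have hc := h.c_pos
  unfold lo
  split_ifs with h1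
  · rw [abs_zero]; positivity
  · rw [abs_mul]
    rcases eq_or_lt_of_le (abs_nonneg (v e w)) with h0 | h0
    · rw [← h0, zero_mul]; positivity
    · have h2 := lip_single h k (Real.log |v e w|) (Real.log lam)
      have h3 : |Real.log |v e w| - Real.log lam| = Real.log (lam / |v e w|) := by
        rw [Real.log_div hl.ne' h0.ne', abs_sub_comm, abs_of_nonneg]
        have := Real.log_le_log h0 (not_lt.1 h1)
        linarith
      have h4 : Real.log (lam / |v e w|) ≤ lam / |v e w| := by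
        have := Real.log_le_sub_one_of_pos (div_pos hl h0)
        linarith
      calc |v e w| * |θ k (Real.log |v e w|) - θ k (Real.log lam)|
          ≤ |v e w| * (c * Real.log (lam / |v e w|)) := by
            rw [← h3]; exact mul_le_mul_of_nonneg_left h2 h0.le
        _ ≤ |v e w| * (c * (lam / |v e w|)) := by gcongr
        _ = c * lam := by field_simp

/-- hence `|(1-S) lo| ≤ (1 + R e) c lam` -/
theorem lo_err_le (h : CommData P S T μ v θ c p) {lam : ℝ} (hl : 0 < lam) (e : E) (k : κ) (w : W) :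
    |lo v θ lam e k w - ∑ e', S e e' * lo v θ lam e' k w| ≤ (1 + ∑ e', |S e e'|) * (c * lam) := by
  calc |lo v θ lam e k w - ∑ e', S e e' * lo v θ lam e' k w|
      ≤ |lo v θ lam e k w| + |∑ e', S e e' * lo v θ lam e' k w| := abs_sub _ _
    _ ≤ c * lam + ∑ e', |S e e'| * (c * lam) := by
        refine add_le_add (lo_le h hl e k w) ((Finset.abs_sum_le_sum_abs _ _).trans
          (Finset.sum_le_sum fun e' _ => ?_))
        rw [abs_mul]
        exact mul_le_mul_of_nonneg_left (lo_le h hl e' k w) (abs_nonneg _)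
    _ = (1 + ∑ e', |S e e'|) * (c * lam) := by
        rw [← Finset.sum_mul]; ring

/-- `∑_k |hi| ≤ c |v| log (|v|/lam)` above `lam` -/
theorem hi_sum_le (h : CommData P S T μ v θ c p) {lam : ℝ} (hl : 0 < lam) (e : E) (w : W) :
    ∑ k, |hi v θ lam e k w| ≤ if lam < |v e w| then c * (|v e w| * Real.log (|v e w| / lam)) else 0 := by
  unfold hi
  split_ifs with h1
  · simp only [abs_mul]
    rw [← Finset.mul_sum]
    have h0 : 0 < |v e w| := hl.trans h1
    have h2 := h.lip (Real.log |v e w|) (Real.log lam)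
    have h3 : |Real.log |v e w| - Real.log lam| = Real.log (|v e w| / lam) := by
      rw [Real.log_div h0.ne' hl.ne', abs_of_nonneg]
      have := Real.log_le_log hl h1.le
      linarith
    rw [h3] at h2
    calc |v e w| * ∑ k, |θ k (Real.log |v e w|) - θ k (Real.log lam)|
        ≤ |v e w| * (c * Real.log (|v e w| / lam)) := mul_le_mul_of_nonneg_left h2 h0.le
      _ = c * (|v e w| * Real.log (|v e w| / lam)) := by ring
  · simp

/-- `∑_k hi² ≤ c² v² log² (|v|/lam)` above `lam` (`∑ x² ≤ (∑ |x|)²`) -/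
theorem hi_sq_le (h : CommData P S T μ v θ c p) {lam : ℝ} (hl : 0 < lam) (e : E) (w : W) :
    ∑ k, hi v θ lam e k w ^ 2 ≤
      if lam < |v e w| then c ^ 2 * (|v e w| ^ 2 * Real.log (|v e w| / lam) ^ 2) else 0 := by
  have h1 := hi_sum_le h hl e w
  have h2 := sum_sq_le (fun k => hi v θ lam e k w)
  have h0 : 0 ≤ ∑ k, |hi v θ lam e k w| := Finset.sum_nonneg fun _ _ => abs_nonneg _
  refine h2.trans ((pow_le_pow_left₀ h0 h1 2).trans (le_of_eq ?_))
  split_ifs
  · ring
  · ring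

/-- `∑_k lo² ≤ c² v² log² (lam/|v|)` below `lam` -/
theorem lo_sq_le (h : CommData P S T μ v θ c p) {lam : ℝ} (hl : 0 < lam) (e : E) (w : W) :
    ∑ k, lo v θ lam e k w ^ 2 ≤
      if lam < |v e w| then 0 else c ^ 2 * (|v e w| ^ 2 * Real.log (lam / |v e w|) ^ 2) := by
  unfold lo
  split_ifs with h1
  · simp
  · refine (sum_sq_le _).trans ?_
    simp only [abs_mul]
    rw [← Finset.mul_sum, mul_pow]
    rcases eq_or_lt_of_le (abs_nonneg (v e w)) with h0 | h0
    · rw [← h0]; simp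
    · have h2 := h.lip (Real.log |v e w|) (Real.log lam)
      have h3 : |Real.log |v e w| - Real.log lam| = Real.log (lam / |v e w|) := by
        rw [Real.log_div hl.ne' h0.ne', abs_sub_comm, abs_of_nonneg]
        have := Real.log_le_log h0 (not_lt.1 h1)
        linarith
      rw [h3] at h2
      have h4 : 0 ≤ ∑ k, |θ k (Real.log |v e w|) - θ k (Real.log lam)| :=
        Finset.sum_nonneg fun _ _ => abs_nonneg _
      calc |v e w| ^ 2 * (∑ k, |θ k (Real.log |v e w|) - θ k (Real.log lam)|) ^ 2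
          ≤ |v e w| ^ 2 * (c * Real.log (lam / |v e w|)) ^ 2 :=
            mul_le_mul_of_nonneg_left (pow_le_pow_left₀ h4 h2 2) (sq_nonneg _)
        _ = c ^ 2 * (|v e w| ^ 2 * Real.log (lam / |v e w|) ^ 2) := by ring

/-- `L_2` bound of `(1-S) hi`, summed over `k` and `w` -/
theorem hi_l2 (h : CommData P S T μ v θ c p) {lam : ℝ} (hl : 0 < lam) :
    ∑ e, P e * ∑ k, ∑ w, μ w * (hi v θ lam e k w - ∑ e', S e e' * hi v θ lam e' k w) ^ 2 ≤
      ∑ e, P e * ∑ w, μ w *
        (if lam < |v e w| then c ^ 2 * (|v e w| ^ 2 * Real.log (|v e w| / lam) ^ 2) else 0) :=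
  gen_l2 h (fun e k w => hi v θ lam e k w) _ fun e w => hi_sq_le h hl e w

/-- `L_2` bound of `(1-S) lo` -/
theorem lo_l2 (h : CommData P S T μ v θ c p) {lam : ℝ} (hl : 0 < lam) :
    ∑ e, P e * ∑ k, ∑ w, μ w * (lo v θ lam e k w - ∑ e', S e e' * lo v θ lam e' k w) ^ 2 ≤
      ∑ e, P e * ∑ w, μ w *
        (if lam < |v e w| then 0 else c ^ 2 * (|v e w| ^ 2 * Real.log (lam / |v e w|) ^ 2)) :=
  gen_l2 h (fun e k w => lo v θ lam e k w) _ fun e w => lo_sq_le h hl e w

/-- `L_1` bound of `(1-S) hi`: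
`∑_e P e ∑ |S e e'| |hi e'| = ∑_e' P e' R e' |hi e'|` by the symmetry. -/
theorem hi_l1 (h : CommData P S T μ v θ c p) {lam : ℝ} (hl : 0 < lam) :
    ∑ e, P e * ∑ k, ∑ w, μ w * |hi v θ lam e k w - ∑ e', S e e' * hi v θ lam e' k w| ≤
      ∑ e, P e * (1 + ∑ e', |S e e'|) * ∑ w, μ w *
        (if lam < |v e w| then c * (|v e w| * Real.log (|v e w| / lam)) else 0) := by
  set H : E → ℝ := fun e => ∑ k, ∑ w, μ w * |hi v θ lam e k w| with hH
  have h1 : ∀ e, ∑ k, ∑ w, μ w * |hi v θ lam e k w - ∑ e', S e e' * hi v θ lam e' k w| ≤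
      H e + ∑ e', |S e e'| * H e' := by
    intro e
    have h2 : ∑ e', |S e e'| * H e' = ∑ k, ∑ w, μ w * ∑ e', |S e e'| * |hi v θ lam e' k w| := by
      simp only [hH, Finset.mul_sum]
      rw [Finset.sum_comm]
      refine Finset.sum_congr rfl fun k _ => ?_
      rw [Finset.sum_comm]
      exact Finset.sum_congr rfl fun w _ => Finset.sum_congr rfl fun e' _ => by ring
    rw [h2]
    simp only [hH, ← Finset.sum_add_distrib, ← mul_add]
    refine Finset.sum_le_sum fun k _ => Finset.sum_le_sum fun w _ =>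
      mul_le_mul_of_nonneg_left ?_ (h.μ_nonneg w)
    refine (abs_sub _ _).trans (add_le_add le_rfl ((Finset.abs_sum_le_sum_abs _ _).trans
      (le_of_eq (Finset.sum_congr rfl fun e' _ => abs_mul _ _))))
  have h3 : ∑ e, P e * ∑ e', |S e e'| * H e' = ∑ e, P e * (∑ e', |S e e'|) * H e := by
    simp only [Finset.mul_sum, Finset.sum_mul]
    rw [Finset.sum_comm]
    refine Finset.sum_congr rfl fun e _ => Finset.sum_congr rfl fun e' _ => ?_
    rw [← mul_assoc, h.ok.symm]
  have h4 : ∀ e, H e ≤ ∑ w, μ w *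
      (if lam < |v e w| then c * (|v e w| * Real.log (|v e w| / lam)) else 0) := by
    intro e
    simp only [hH]
    rw [Finset.sum_comm]
    refine Finset.sum_le_sum fun w _ => ?_
    rw [← Finset.mul_sum]
    exact mul_le_mul_of_nonneg_left (hi_sum_le h hl e w) (h.μ_nonneg w)
  calc ∑ e, P e * ∑ k, ∑ w, μ w * |hi v θ lam e k w - ∑ e', S e e' * hi v θ lam e' k w|
      ≤ ∑ e, P e * (H e + ∑ e', |S e e'| * H e') :=
        Finset.sum_le_sum fun e _ => mul_le_mul_of_nonneg_left (h1 e) (h.ok.nonneg e)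
    _ = ∑ e, P e * H e + ∑ e, P e * ∑ e', |S e e'| * H e' := by
        simp only [mul_add, Finset.sum_add_distrib]
    _ = ∑ e, P e * (1 + ∑ e', |S e e'|) * H e := by
        rw [h3, ← Finset.sum_add_distrib]
        exact Finset.sum_congr rfl fun e _ => by ring
    _ ≤ _ := by
        refine Finset.sum_le_sum fun e _ => mul_le_mul_of_nonneg_left (h4 e) ?_
        exact mul_nonneg (h.ok.nonneg e)
          (add_nonneg zero_le_one (Finset.sum_nonneg fun _ _ => abs_nonneg _))

end basic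

end Crest.Agent.LpDim
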