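import Crest.Agent.LpDim.CommDefs

/-!
Row 232, CHUNK R232-COMMGT1.
-/

set_option autoImplicit false

namespace Crest.Agent.LpDim

open Finset

namespace CommGt1

/-- dyadic heights -/
noncomputable def lam (H : ℝ) (j : ℕ) : ℝ := H * (1 / 2) ^ j

theorem lam_pos {H : ℝ} (hH : 0 < H) (j : ℕ) : 0 < lam H j := by unfold lam; positivity

theorem lam_succ (H : ℝ) (j : ℕ) : lam H (j + 1) = lam H j / 2 := by
  unfold lam; rw [pow_succ]; ring

theorem lam_zero (H : ℝ) : lam H 0 = H := by unfold lam; simp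

theorem dyadic_tail (b : ℝ) (hb : 0 < b) (H t : ℝ) (hH : 0 < H) (ht : 0 < t) (J : ℕ) :
    ∑ j ∈ range J, (if lam H j < t then lam H j ^ b else 0) ≤ (1 - 2 ^ (-b))⁻¹ * t ^ b := by
  have hx : (2 : ℝ) ^ (-b) < 1 := Real.rpow_lt_one_of_one_lt_of_neg (by norm_num) (by linarith)
  have hx1 : 0 < 1 - (2 : ℝ) ^ (-b) := by linarith
  rw [← div_eq_inv_mul, le_div_iff₀ hx1, Finset.sum_mul]
  have h1 : ∀ j ∈ range J, (if lam H j < t then lam H j ^ b else 0) * (1 - 2 ^ (-b)) ≤
      (min (lam H j) t) ^ b - (min (lam H (j + 1)) t) ^ b := by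
    intro j _
    have hl := lam_pos hH j
    have hl' := lam_pos hH (j + 1)
    have hlt : lam H (j + 1) ≤ lam H j := by rw [lam_succ]; linarith
    split_ifs with hj
    · have e1 : min (lam H j) t = lam H j := min_eq_left hj.le
      have e2 : min (lam H (j + 1)) t = lam H (j + 1) := min_eq_left (hlt.trans hj.le)
      rw [e1, e2, lam_succ, Real.div_rpow hl.le (by norm_num), Real.rpow_neg (by norm_num)]
      apply le_of_eq
      field_simp
    · rw [zero_mul, sub_nonneg]
      exact Real.rpow_le_rpow (le_min hl'.le ht.le) (min_le_min_right _ hlt) hb.le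
  refine (Finset.sum_le_sum h1).trans ?_
  rw [Finset.sum_range_sub' (fun j => (min (lam H j) t) ^ b)]
  have h2 : 0 ≤ (min (lam H J) t) ^ b := Real.rpow_nonneg (le_min (lam_pos hH J).le ht.le) _
  have h3 : (min (lam H 0) t) ^ b ≤ t ^ b :=
    Real.rpow_le_rpow (le_min (lam_pos hH 0).le ht.le) (min_le_right _ _) hb.le
  linarith

theorem log_sq_le {a u : ℝ} (ha : 0 < a) (hu : 1 ≤ u) :
    Real.log u ^ 2 ≤ 16 / a ^ 2 * u ^ (a / 2) := by
  have h0 : 0 ≤ Real.log u := Real.log_nonneg hu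
  have h1 : Real.log u ≤ u ^ (a / 4) / (a / 4) :=
    Real.log_le_rpow_div (by linarith) (by positivity)
  have h2 : Real.log u ^ 2 ≤ (u ^ (a / 4) / (a / 4)) ^ 2 := pow_le_pow_left₀ h0 h1 2
  refine h2.trans (le_of_eq ?_)
  have h3 : (u ^ (a / 4)) ^ 2 = u ^ (a / 2) := by
    rw [← Real.rpow_natCast, ← Real.rpow_mul (by linarith)]
    congr 1
    push_cast
    ring
  rw [div_pow, h3]
  field_simp
  ring

theorem dyadic_log (a : ℝ) (ha : 0 < a) (H t : ℝ) (hH : 0 < H) (ht : 0 ≤ t) (J : ℕ) :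
    ∑ j ∈ range J, lam H j ^ a * (if lam H j < t then t ^ 2 * Real.log (t / lam H j) ^ 2 else 0) ≤
      16 / a ^ 2 * (1 - 2 ^ (-(a / 2)))⁻¹ * t ^ (a + 2) := by
  rcases ht.eq_or_lt with h0 | h0
  · subst h0
    have h1 : ∀ j ∈ range J, lam H j ^ a *
        (if lam H j < (0:ℝ) then (0:ℝ) ^ 2 * Real.log (0 / lam H j) ^ 2 else 0) = 0 := by
      intro j _
      rw [if_neg (not_lt.2 (lam_pos hH j).le), mul_zero]
    rw [Finset.sum_congr rfl h1, Finset.sum_const_zero, Real.zero_rpow (by linarith), mul_zero]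
  · have h1 : ∀ j ∈ range J, lam H j ^ a *
        (if lam H j < t then t ^ 2 * Real.log (t / lam H j) ^ 2 else 0) ≤
        (16 / a ^ 2 * t ^ (a / 2 + 2)) * (if lam H j < t then lam H j ^ (a / 2) else 0) := by
      intro j _
      have hl := lam_pos hH j
      split_ifs with hj
      · have h2 := log_sq_le ha ((one_le_div hl).2 hj.le)
        have h3 : (t / lam H j) ^ (a / 2) = t ^ (a / 2) / lam H j ^ (a / 2) :=
          Real.div_rpow h0.le hl.le _
        rw [h3] at h2
        have h4 : lam H j ^ a = lam H j ^ (a / 2) * lam H j ^ (a / 2) := by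
          rw [← Real.rpow_add hl]; congr 1; ring
        have h5 : t ^ (a / 2 + 2) = t ^ (a / 2) * t ^ 2 := by
          rw [Real.rpow_add h0]
          congr 1
          exact_mod_cast Real.rpow_natCast t 2
        rw [h4, h5]
        have hp := Real.rpow_pos_of_pos hl (a / 2)
        calc lam H j ^ (a / 2) * lam H j ^ (a / 2) * (t ^ 2 * Real.log (t / lam H j) ^ 2)
            ≤ lam H j ^ (a / 2) * lam H j ^ (a / 2) *
              (t ^ 2 * (16 / a ^ 2 * (t ^ (a / 2) / lam H j ^ (a / 2)))) := by gcongr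
          _ = _ := by field_simp
      · simp
    refine (Finset.sum_le_sum h1).trans ?_
    rw [← Finset.mul_sum]
    have h2 := dyadic_tail (a / 2) (by positivity) H t hH h0 J
    have h3 : t ^ (a + 2) = t ^ (a / 2 + 2) * t ^ (a / 2) := by
      rw [← Real.rpow_add h0]; congr 1; ring
    rw [h3]
    calc 16 / a ^ 2 * t ^ (a / 2 + 2) * ∑ i ∈ range J, (if lam H i < t then lam H i ^ (a / 2) else 0)
        ≤ 16 / a ^ 2 * t ^ (a / 2 + 2) * ((1 - 2 ^ (-(a / 2)))⁻¹ * t ^ (a / 2)) := by gcongr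
      _ = _ := by ring

/-- pointwise bound -/
theorem pointwise {p : ℝ} (hp : 2 < p) (G r H : ℝ) (hG : 0 ≤ G) (hr : 0 < r) (hH : 0 < H)
    (U : ℕ → ℝ) (hU : ∀ j, G ≤ U j + r * lam H j) (hG0 : G ≤ r * H) (J : ℕ) :
    G ^ p ≤ 4 ^ (p - 1) * r ^ (p - 2) * (∑ j ∈ range (J + 1), lam H j ^ (p - 2) * U j ^ 2) +
      (2 * r * lam H J) ^ p := by
  have hsum : 0 ≤ 4 ^ (p - 1) * r ^ (p - 2) *
      (∑ j ∈ range (J + 1), lam H j ^ (p - 2) * U j ^ 2) := by
    have : ∀ j ∈ range (J + 1), 0 ≤ lam H j ^ (p - 2) * U j ^ 2 := fun j _ =>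
      mul_nonneg (Real.rpow_nonneg (lam_pos hH j).le _) (sq_nonneg _)
    have := Finset.sum_nonneg this
    positivity
  by_cases hJ : G ≤ 2 * r * lam H J
  · have := Real.rpow_le_rpow hG hJ (by linarith : 0 ≤ p)
    linarith
  · push Not at hJ
    have hex : ∃ j, 2 * r * lam H j < G := ⟨J, hJ⟩
    classical
    set j := Nat.find hex with hj
    have h1 : 2 * r * lam H j < G := Nat.find_spec hex
    have hjJ : j ≤ J := Nat.find_min' hex hJ
    have hj0 : j ≠ 0 := by
      intro h0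
      rw [h0, lam_zero] at h1
      nlinarith [mul_pos hr hH]
    obtain ⟨i, hi⟩ := Nat.exists_eq_succ_of_ne_zero hj0
    have h2 : ¬ 2 * r * lam H i < G := Nat.find_min hex (by rw [← hj, hi]; exact Nat.lt_succ_self i)
    push Not at h2
    have h3 : G / (4 * r) ≤ lam H j := by
      rw [hi, Nat.succ_eq_add_one, lam_succ, div_le_iff₀ (by positivity)]
      linarith
    have h4 : G / 2 ≤ U j := by
      have := hU j
      linarith
    have hGpos : 0 < G := lt_of_le_of_lt (by have := lam_pos hH j; positivity) h1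
    have h5 : (G / (4 * r)) ^ (p - 2) * (G / 2) ^ 2 ≤ lam H j ^ (p - 2) * U j ^ 2 := by
      have h6 : (G / (4 * r)) ^ (p - 2) ≤ lam H j ^ (p - 2) :=
        Real.rpow_le_rpow (by positivity) h3 (by linarith)
      have h7 : (G / 2) ^ 2 ≤ U j ^ 2 := pow_le_pow_left₀ (by positivity) h4 2
      have h8 : 0 ≤ lam H j ^ (p - 2) := Real.rpow_nonneg (lam_pos hH j).le _
      exact mul_le_mul h6 h7 (by positivity) h8
    have h6 : lam H j ^ (p - 2) * U j ^ 2 ≤ ∑ j ∈ range (J + 1), lam H j ^ (p - 2) * U j ^ 2 :=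
      Finset.single_le_sum (f := fun j => lam H j ^ (p - 2) * U j ^ 2)
        (fun j _ => mul_nonneg (Real.rpow_nonneg (lam_pos hH j).le _) (sq_nonneg _))
        (Finset.mem_range.2 (by omega))
    have h7 : G ^ p = 4 ^ (p - 1) * r ^ (p - 2) * ((G / (4 * r)) ^ (p - 2) * (G / 2) ^ 2) := by
      rw [Real.div_rpow hG (by positivity), Real.mul_rpow (by norm_num) hr.le]
      have e1 : (4 : ℝ) ^ (p - 1) = 4 ^ (p - 2) * 4 := by
        rw [← Real.rpow_add_one (by norm_num)]; congr 1; ring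
      have e2 : G ^ p = G ^ (p - 2) * G ^ 2 := by
        rw [← Real.rpow_natCast G 2, ← Real.rpow_add hGpos]; congr 1; push_cast; ring
      rw [e1, e2]
      have e3 : (4 : ℝ) ^ (p - 2) ≠ 0 := (Real.rpow_pos_of_pos (by norm_num) _).ne'
      have e4 : r ^ (p - 2) ≠ 0 := (Real.rpow_pos_of_pos hr _).ne'
      field_simp
      ring
    have h8 : 0 ≤ (2 * r * lam H J) ^ p :=
      Real.rpow_nonneg (by have := lam_pos hH J; positivity) _
    have h9 : 0 ≤ (4 : ℝ) ^ (p - 1) * r ^ (p - 2) := by positivity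
    rw [h7]
    have := mul_le_mul_of_nonneg_left (h5.trans h6) h9
    linarith

theorem tendsto_lam_rpow {p : ℝ} (hp : 0 < p) (H B : ℝ) (hH : 0 < H) :
    Filter.Tendsto (fun J => B * lam H J ^ p) Filter.atTop (nhds 0) := by
  have h1 : Filter.Tendsto (fun J : ℕ => lam H J) Filter.atTop (nhds 0) := by
    unfold lam
    have := (tendsto_pow_atTop_nhds_zero_of_lt_one (r := (1 / 2 : ℝ)) (by norm_num)
      (by norm_num)).const_mul H
    simpa using this
  have h2 : Filter.Tendsto (fun J : ℕ => lam H J ^ p) Filter.atTop (nhds ((0 : ℝ) ^ p)) :=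
    h1.rpow_const (Or.inr hp.le)
  rw [Real.zero_rpow hp.ne'] at h2
  simpa using h2.const_mul B

end CommGt1

open CommGt1

/-- Weighted estimate. PROOF. Fix `e k w`, `G = |gerr|`, `r = (1 + R e) c`, `H ≥ |v|` a common bound. For `0 < lam ≤ H`
`(G - r lam)₊ ≤ |(1-S) hi^lam|` (`gerr_split`, `lo_err_le`), and `hi^lam = 0` for `lam ≥ H`, so `G ≤ r H`. Hence
`∫_0^H lam^{p-3} |(1-S)hi^lam|² dlam ≥ ∫_0^{G/(2r)} lam^{p-3} (G/2)² dlam = (G²/4) (G/(2r))^{p-2}/(p-2)`, i.e.
`G^p ≤ (p-2) 2^p r^{p-2} ∫_0^H lam^{p-3} |(1-S)hi^lam|² dlam`. (A dyadic sum over `lam_j = H 2^{-j}` may replace the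
integral.) Sum with weights `P e μ w (1+R e)^{-(p-2)}` over `e,k,w`, use `hi_l2`, and
`∫_0^{|v|} lam^{p-3} log²(|v|/lam) dlam ≤ C |v|^{p-2}` (`log u ≤ (4/(p-2)) u^{(p-2)/4}`). -/
theorem comm_gt_weighted (p : ℝ) (hp : 2 < p) : ∃ C : ℝ, 0 < C ∧
    ∀ (E W κ : Type) [Fintype E] [Fintype W] [Fintype κ] (P : E → ℝ) (S : E → E → ℝ)
      (T : ℝ) (μ : W → ℝ) (v : E → W → ℝ) (θ : κ → ℝ → ℝ) (c : ℝ), CommData P S T μ v θ c p →
      ∑ e, P e * ((∑ k, ∑ w, μ w * |gerr S v θ e k w| ^ p) * (1 + ∑ e', |S e e'|) ^ (-(p - 2))) ≤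
        C * c ^ p := by
  have hx : (2 : ℝ) ^ (-((p - 2) / 2)) < 1 :=
    Real.rpow_lt_one_of_one_lt_of_neg (by norm_num) (by linarith)
  have hx1 : 0 < 1 - (2 : ℝ) ^ (-((p - 2) / 2)) := by linarith
  have ha : 0 < p - 2 := by linarith
  set C₀ : ℝ := 16 / (p - 2) ^ 2 * (1 - 2 ^ (-((p - 2) / 2)))⁻¹ with hC₀
  have hC₀pos : 0 < C₀ := by positivity
  refine ⟨4 ^ (p - 1) * C₀, by positivity, ?_⟩
  intro E W κ _ _ _ P S T μ v θ c h
  have hc := h.c_pos
  -- a common bound
  obtain ⟨H, hH, hv⟩ : ∃ H : ℝ, 0 < H ∧ ∀ e w, |v e w| ≤ H := by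
    refine ⟨1 + ∑ e, ∑ w, |v e w|, ?_, ?_⟩
    · have : 0 ≤ ∑ e, ∑ w, |v e w| :=
        Finset.sum_nonneg fun e _ => Finset.sum_nonneg fun w _ => abs_nonneg _
      linarith
    · intro e w
      have h1 : |v e w| ≤ ∑ w, |v e w| :=
        Finset.single_le_sum (f := fun w => |v e w|) (fun w _ => abs_nonneg _) (Finset.mem_univ w)
      have h2 : ∑ w, |v e w| ≤ ∑ e, ∑ w, |v e w| :=
        Finset.single_le_sum (f := fun e => ∑ w, |v e w|)
          (fun e _ => Finset.sum_nonneg fun w _ => abs_nonneg _) (Finset.mem_univ e)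
      linarith
  set R : E → ℝ := fun e => ∑ e', |S e e'| with hR
  have hR0 : ∀ e, 0 ≤ R e := fun e => Finset.sum_nonneg fun _ _ => abs_nonneg _
  set U : ℕ → E → κ → W → ℝ := fun j e k w =>
    |hi v θ (lam H j) e k w - ∑ e', S e e' * hi v θ (lam H j) e' k w| with hU
  have hpt : ∀ J e k w, |gerr S v θ e k w| ^ p ≤
      4 ^ (p - 1) * ((1 + R e) * c) ^ (p - 2) *
        (∑ j ∈ range (J + 1), lam H j ^ (p - 2) * U j e k w ^ 2) +
        (2 * ((1 + R e) * c) * lam H J) ^ p := by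
    intro J e k w
    have hr : 0 < (1 + R e) * c := mul_pos (by have := hR0 e; linarith) hc
    refine pointwise hp _ _ H (abs_nonneg _) hr hH (fun j => U j e k w) ?_ ?_ J
    · intro j
      rw [gerr_split h (lam H j) e k w]
      refine (abs_add_le _ _).trans ?_
      have := lo_err_le h (lam_pos hH j) e k w
      have e1 : (1 + R e) * (c * lam H j) = (1 + R e) * c * lam H j := by ring
      rw [e1] at this
      exact add_le_add le_rfl this
    · rw [gerr_split h H e k w]
      have h0 : ∀ e', hi v θ H e' k w = 0 := by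
        intro e'
        unfold hi
        rw [if_neg (not_lt.2 (hv e' w))]
      rw [h0]
      simp only [h0, mul_zero, Finset.sum_const_zero, sub_zero, zero_add]
      have := lo_err_le h hH e k w
      have e1 : (1 + R e) * (c * H) = (1 + R e) * c * H := by ring
      rw [e1] at this
      exact this
  -- bound for each `J`
  set B : ℝ := ∑ e, P e * ((∑ _k : κ, ∑ w, μ w * (2 * ((1 + R e) * c)) ^ p) *
    (1 + R e) ^ (-(p - 2))) with hB
  have hmain : ∀ J : ℕ, ∑ e, P e * ((∑ k, ∑ w, μ w * |gerr S v θ e k w| ^ p) *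
      (1 + R e) ^ (-(p - 2))) ≤ 4 ^ (p - 1) * C₀ * c ^ p + B * lam H J ^ p := by
    intro J
    have hstep1 : ∀ e, (∑ k, ∑ w, μ w * |gerr S v θ e k w| ^ p) * (1 + R e) ^ (-(p - 2)) ≤
        4 ^ (p - 1) * c ^ (p - 2) *
          (∑ j ∈ range (J + 1), lam H j ^ (p - 2) * ∑ k, ∑ w, μ w * U j e k w ^ 2) +
        ((∑ _k : κ, ∑ w, μ w * (2 * ((1 + R e) * c)) ^ p) * (1 + R e) ^ (-(p - 2))) *
          lam H J ^ p := by
      intro e
      have hR1 : 0 < 1 + R e := by have := hR0 e; linarith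
      have hneg : 0 ≤ (1 + R e) ^ (-(p - 2)) := (Real.rpow_pos_of_pos hR1 _).le
      have h1 : (∑ k, ∑ w, μ w * |gerr S v θ e k w| ^ p) ≤
          ∑ k, ∑ w, μ w * (4 ^ (p - 1) * ((1 + R e) * c) ^ (p - 2) *
            (∑ j ∈ range (J + 1), lam H j ^ (p - 2) * U j e k w ^ 2) +
            (2 * ((1 + R e) * c) * lam H J) ^ p) :=
        Finset.sum_le_sum fun k _ => Finset.sum_le_sum fun w _ =>
          mul_le_mul_of_nonneg_left (hpt J e k w) (h.μ_nonneg w)
      refine (mul_le_mul_of_nonneg_right h1 hneg).trans (le_of_eq ?_)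
      have e1 : ∀ k w, μ w * (4 ^ (p - 1) * ((1 + R e) * c) ^ (p - 2) *
            (∑ j ∈ range (J + 1), lam H j ^ (p - 2) * U j e k w ^ 2) +
            (2 * ((1 + R e) * c) * lam H J) ^ p) =
          4 ^ (p - 1) * ((1 + R e) * c) ^ (p - 2) *
            (∑ j ∈ range (J + 1), lam H j ^ (p - 2) * (μ w * U j e k w ^ 2)) +
            μ w * (2 * ((1 + R e) * c)) ^ p * lam H J ^ p := by
        intro k w
        rw [Real.mul_rpow (by positivity) (lam_pos hH J).le, mul_add]
        congr 1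
        · rw [mul_left_comm, Finset.mul_sum]
          congr 1
          refine Finset.sum_congr rfl fun j _ => by ring
        · ring
      simp only [e1]
      rw [Finset.sum_congr rfl fun k _ => Finset.sum_add_distrib, Finset.sum_add_distrib, add_mul]
      congr 1
      · have e2 : ∀ k : κ, ∑ w, 4 ^ (p - 1) * ((1 + R e) * c) ^ (p - 2) *
            (∑ j ∈ range (J + 1), lam H j ^ (p - 2) * (μ w * U j e k w ^ 2)) =
            4 ^ (p - 1) * ((1 + R e) * c) ^ (p - 2) *
              ∑ j ∈ range (J + 1), lam H j ^ (p - 2) * ∑ w, μ w * U j e k w ^ 2 := by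
          intro k
          rw [← Finset.mul_sum, Finset.sum_comm]
          congr 1
          refine Finset.sum_congr rfl fun j _ => by rw [Finset.mul_sum]
        rw [Finset.sum_congr rfl fun k _ => e2 k, ← Finset.mul_sum, Finset.sum_comm]
        have e3 : ∀ j ∈ range (J + 1), ∑ k, lam H j ^ (p - 2) * ∑ w, μ w * U j e k w ^ 2 =
            lam H j ^ (p - 2) * ∑ k, ∑ w, μ w * U j e k w ^ 2 := fun j _ => by
          rw [Finset.mul_sum]
        rw [Finset.sum_congr rfl e3, Real.mul_rpow hR1.le hc.le, Real.rpow_neg hR1.le]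
        have e4 : (1 + R e) ^ (p - 2) ≠ 0 := (Real.rpow_pos_of_pos hR1 _).ne'
        field_simp
      · have e2 : ∀ k : κ, ∑ w, μ w * (2 * ((1 + R e) * c)) ^ p * lam H J ^ p =
            (∑ w, μ w * (2 * ((1 + R e) * c)) ^ p) * lam H J ^ p := fun k => by
          rw [Finset.sum_mul]
        rw [Finset.sum_congr rfl fun k _ => e2 k, ← Finset.sum_mul]
        ring
    have hstep2 : ∑ e, P e * ((∑ k, ∑ w, μ w * |gerr S v θ e k w| ^ p) *
        (1 + R e) ^ (-(p - 2))) ≤
        4 ^ (p - 1) * c ^ (p - 2) * (∑ j ∈ range (J + 1), lam H j ^ (p - 2) *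
          ∑ e, P e * ∑ k, ∑ w, μ w * U j e k w ^ 2) + B * lam H J ^ p := by
      refine (Finset.sum_le_sum fun e _ =>
        mul_le_mul_of_nonneg_left (hstep1 e) (h.ok.nonneg e)).trans (le_of_eq ?_)
      rw [Finset.sum_congr rfl fun e _ => mul_add _ _ _, Finset.sum_add_distrib]
      congr 1
      · have e1 : ∀ e, P e * (4 ^ (p - 1) * c ^ (p - 2) *
            (∑ j ∈ range (J + 1), lam H j ^ (p - 2) * ∑ k, ∑ w, μ w * U j e k w ^ 2)) =
            4 ^ (p - 1) * c ^ (p - 2) *
            (∑ j ∈ range (J + 1), lam H j ^ (p - 2) * (P e * ∑ k, ∑ w, μ w * U j e k w ^ 2)) := by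
          intro e
          rw [mul_left_comm, Finset.mul_sum]
          congr 1
          refine Finset.sum_congr rfl fun j _ => by ring
        rw [Finset.sum_congr rfl fun e _ => e1 e, ← Finset.mul_sum, Finset.sum_comm]
        congr 1
        refine Finset.sum_congr rfl fun j _ => by rw [Finset.mul_sum]
      · rw [hB, Finset.sum_mul]
        refine Finset.sum_congr rfl fun e _ => by ring
    refine hstep2.trans (add_le_add ?_ le_rfl)
    have hstep3 : ∑ j ∈ range (J + 1), lam H j ^ (p - 2) *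
          ∑ e, P e * ∑ k, ∑ w, μ w * U j e k w ^ 2 ≤ C₀ * c ^ 2 := by
      have h1 : ∀ j ∈ range (J + 1), lam H j ^ (p - 2) *
          ∑ e, P e * ∑ k, ∑ w, μ w * U j e k w ^ 2 ≤
          lam H j ^ (p - 2) * ∑ e, P e * ∑ w, μ w *
            (if lam H j < |v e w| then
              c ^ 2 * (|v e w| ^ 2 * Real.log (|v e w| / lam H j) ^ 2) else 0) := by
        intro j _
        refine mul_le_mul_of_nonneg_left ?_ (Real.rpow_nonneg (lam_pos hH j).le _)
        have := hi_l2 h (lam_pos hH j)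
        refine le_trans (le_of_eq ?_) this
        refine Finset.sum_congr rfl fun e _ => ?_
        congr 1
        refine Finset.sum_congr rfl fun k _ => Finset.sum_congr rfl fun w _ => ?_
        rw [hU]
        simp only [sq_abs]
      refine (Finset.sum_le_sum h1).trans ?_
      have h2 : ∑ j ∈ range (J + 1), lam H j ^ (p - 2) * ∑ e, P e * ∑ w, μ w *
            (if lam H j < |v e w| then
              c ^ 2 * (|v e w| ^ 2 * Real.log (|v e w| / lam H j) ^ 2) else 0) =
          c ^ 2 * ∑ e, P e * ∑ w, μ w * ∑ j ∈ range (J + 1), lam H j ^ (p - 2) *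
            (if lam H j < |v e w| then |v e w| ^ 2 * Real.log (|v e w| / lam H j) ^ 2 else 0) := by
        simp only [Finset.mul_sum]
        rw [Finset.sum_comm]
        refine Finset.sum_congr rfl fun e _ => ?_
        rw [Finset.sum_comm]
        refine Finset.sum_congr rfl fun w _ => Finset.sum_congr rfl fun j _ => ?_
        split_ifs <;> ring
      rw [h2]
      have h3 : ∀ e, ∑ w, μ w * ∑ j ∈ range (J + 1), lam H j ^ (p - 2) *
            (if lam H j < |v e w| then |v e w| ^ 2 * Real.log (|v e w| / lam H j) ^ 2 else 0) ≤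
          C₀ := by
        intro e
        have h4 : ∀ w ∈ Finset.univ, μ w * ∑ j ∈ range (J + 1), lam H j ^ (p - 2) *
            (if lam H j < |v e w| then |v e w| ^ 2 * Real.log (|v e w| / lam H j) ^ 2 else 0) ≤
            μ w * (C₀ * |v e w| ^ p) := by
          intro w _
          refine mul_le_mul_of_nonneg_left ?_ (h.μ_nonneg w)
          have := dyadic_log (p - 2) ha H |v e w| hH (abs_nonneg _) (J + 1)
          rw [sub_add_cancel] at this
          exact this
        refine (Finset.sum_le_sum h4).trans ?_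
        have h5 : ∑ w, μ w * (C₀ * |v e w| ^ p) = C₀ * ∑ w, μ w * |v e w| ^ p := by
          rw [Finset.mul_sum]
          exact Finset.sum_congr rfl fun w _ => by ring
        rw [h5]
        calc C₀ * ∑ w, μ w * |v e w| ^ p ≤ C₀ * 1 :=
              mul_le_mul_of_nonneg_left (h.norm_le e) hC₀pos.le
          _ = C₀ := mul_one _
      calc c ^ 2 * ∑ e, P e * _ ≤ c ^ 2 * ∑ e, P e * C₀ := by
            refine mul_le_mul_of_nonneg_left ?_ (sq_nonneg c)
            exact Finset.sum_le_sum fun e _ => mul_le_mul_of_nonneg_left (h3 e) (h.ok.nonneg e)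
        _ = C₀ * c ^ 2 := by
            rw [← Finset.sum_mul, h.ok.sum_one]; ring
    have hcp : c ^ p = c ^ (p - 2) * c ^ 2 := by
      rw [← Real.rpow_natCast c 2, ← Real.rpow_add hc]; congr 1; push_cast; ring
    calc 4 ^ (p - 1) * c ^ (p - 2) * (∑ j ∈ range (J + 1), lam H j ^ (p - 2) *
          ∑ e, P e * ∑ k, ∑ w, μ w * U j e k w ^ 2) ≤ 4 ^ (p - 1) * c ^ (p - 2) * (C₀ * c ^ 2) :=
          mul_le_mul_of_nonneg_left hstep3 (by positivity)
      _ = 4 ^ (p - 1) * C₀ * c ^ p := by rw [hcp]; ring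
  have hlim := tendsto_lam_rpow (p := p) (by linarith) H B hH
  have hlim2 := hlim.const_add (4 ^ (p - 1) * C₀ * c ^ p)
  rw [add_zero] at hlim2
  exact ge_of_tendsto' hlim2 hmain

end Crest.Agent.LpDim
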