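import Crest.Agent.LpDim.Defs

/-!
Row 232, CHUNK WN: weighted `ℓ_p` norms on finite sets.
-/

set_option autoImplicit false

namespace Crest.Agent.LpDim

open Finset

variable {ι : Type} [Fintype ι] {μ : ι → ℝ} {p : ℝ}

private theorem wsum_nonneg (hμ : ∀ i, 0 ≤ μ i) (f : ι → ℝ) : 0 ≤ ∑ i, μ i * |f i| ^ p :=
  Finset.sum_nonneg fun i _ => mul_nonneg (hμ i) (Real.rpow_nonneg (abs_nonneg _) _)

theorem wn_nonneg (hμ : ∀ i, 0 ≤ μ i) (f : ι → ℝ) : 0 ≤ wn μ p f :=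
  Real.rpow_nonneg (wsum_nonneg hμ f) _

/-- `wn ^ p = ∑ μ |f|^p` -/
theorem wn_rpow (hμ : ∀ i, 0 ≤ μ i) (hp : 1 ≤ p) (f : ι → ℝ) :
    wn μ p f ^ p = ∑ i, μ i * |f i| ^ p := by
  unfold wn
  rw [← Real.rpow_mul (wsum_nonneg hμ f), one_div, inv_mul_cancel₀ (by linarith), Real.rpow_one]

private theorem wn_eq (hμ : ∀ i, 0 ≤ μ i) (hp : 1 ≤ p) (f : ι → ℝ) :
    wn μ p f = (∑ i, |μ i ^ (1 / p) * f i| ^ p) ^ (1 / p) := by
  unfold wn
  congr 1
  refine Finset.sum_congr rfl fun i _ => ?_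
  rw [abs_mul, Real.mul_rpow (abs_nonneg _) (abs_nonneg _),
    abs_of_nonneg (Real.rpow_nonneg (hμ i) _), ← Real.rpow_mul (hμ i), one_div,
    inv_mul_cancel₀ (by linarith), Real.rpow_one]

/-- Minkowski (`Real.Lp_add_le` for `μ^{1/p} f`) -/
theorem wn_add_le (hμ : ∀ i, 0 ≤ μ i) (hp : 1 ≤ p) (f g : ι → ℝ) :
    wn μ p (fun i => f i + g i) ≤ wn μ p f + wn μ p g := by
  rw [wn_eq hμ hp, wn_eq hμ hp, wn_eq hμ hp]
  have h := Real.Lp_add_le Finset.univ (fun i => μ i ^ (1 / p) * f i)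
    (fun i => μ i ^ (1 / p) * g i) hp
  simpa only [mul_add] using h

theorem wn_smul (hμ : ∀ i, 0 ≤ μ i) (hp : 1 ≤ p) (a : ℝ) (f : ι → ℝ) :
    wn μ p (fun i => a * f i) = |a| * wn μ p f := by
  unfold wn
  have h1 : ∑ i, μ i * |a * f i| ^ p = |a| ^ p * ∑ i, μ i * |f i| ^ p := by
    rw [Finset.mul_sum]
    refine Finset.sum_congr rfl fun i _ => ?_
    rw [abs_mul, Real.mul_rpow (abs_nonneg _) (abs_nonneg _)]
    ring
  rw [h1, Real.mul_rpow (Real.rpow_nonneg (abs_nonneg _) _) (wsum_nonneg hμ f),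
    ← Real.rpow_mul (abs_nonneg _), one_div, mul_inv_cancel₀ (by linarith), Real.rpow_one]

/-- reverse triangle inequality -/
theorem wn_sub_le (hμ : ∀ i, 0 ≤ μ i) (hp : 1 ≤ p) (f g : ι → ℝ) :
    wn μ p f - wn μ p g ≤ wn μ p (fun i => f i + g i) := by
  have h1 := wn_add_le hμ hp (fun i => f i + g i) (fun i => (-1) * g i)
  rw [wn_smul hμ hp, abs_neg, abs_one, one_mul] at h1
  have h2 : (fun i => f i + g i + -1 * g i) = f := by
    funext i; ring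
  rw [h2] at h1
  linarith

theorem wn_mono (hμ : ∀ i, 0 ≤ μ i) (hp : 1 ≤ p) {f g : ι → ℝ} (h : ∀ i, |f i| ≤ |g i|) :
    wn μ p f ≤ wn μ p g := by
  unfold wn
  refine Real.rpow_le_rpow (wsum_nonneg hμ f) (Finset.sum_le_sum fun i _ => ?_) (by positivity)
  exact mul_le_mul_of_nonneg_left (Real.rpow_le_rpow (abs_nonneg _) (h i) (by linarith)) (hμ i)

theorem wn_abs (f : ι → ℝ) : wn μ p (fun i => |f i|) = wn μ p f := by
  unfold wn
  simp only [abs_abs]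

/-- the norm of an affine function is convex -/
theorem wn_convexOn {M : Type} [AddCommGroup M] [Module ℝ M] (s : Set M) (hs : Convex ℝ s)
    (hμ : ∀ i, 0 ≤ μ i) (hp : 1 ≤ p) (A : M → ι → ℝ)
    (hA : ∀ x ∈ s, ∀ y ∈ s, ∀ a b : ℝ, 0 ≤ a → 0 ≤ b → a + b = 1 → ∀ i,
      A (a • x + b • y) i = a * A x i + b * A y i) :
    ConvexOn ℝ s (fun x => wn μ p (A x)) := by
  refine ⟨hs, fun x hx y hy a b ha hb hab => ?_⟩
  have h1 : A (a • x + b • y) = fun i => a * A x i + b * A y i :=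
    funext fun i => hA x hx y hy a b ha hb hab i
  show wn μ p (A (a • x + b • y)) ≤ a • wn μ p (A x) + b • wn μ p (A y)
  rw [h1]
  refine (wn_add_le hμ hp _ _).trans ?_
  rw [wn_smul hμ hp, wn_smul hμ hp, abs_of_nonneg ha, abs_of_nonneg hb, smul_eq_mul, smul_eq_mul]

end Crest.Agent.LpDim
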