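import Crest.Agent.LpDim.ObjDefs
import Crest.Agent.LpDim.Wn

/-!
Row 232, CHUNK R232-CONVEX.
-/

set_option autoImplicit false

namespace Crest.Agent.LpDim

open Finset

private theorem convex_Sk_lin {n : ℕ} (ρ : Fin n → Fin n → ℝ) (G G' : Fin n → Fin n → Fin n → ℝ)
    (s t : ℝ) (x y a b : Fin n) :
    Sk ρ (s • G + t • G') x y a b = s * Sk ρ G x y a b + t * Sk ρ G' x y a b := by
  unfold Sk
  simp only [Pi.add_apply, Pi.smul_apply, smul_eq_mul]
  ring

private theorem convex_Sop_lin {n : ℕ} (ρ : Fin n → Fin n → ℝ) (G G' : Fin n → Fin n → Fin n → ℝ)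
    (s t : ℝ) (F : Fin n → Fin n → ℝ) (x y : Fin n) :
    Sop ρ (s • G + t • G') F x y = s * Sop ρ G F x y + t * Sop ρ G' F x y := by
  unfold Sop
  simp only [convex_Sk_lin, Finset.mul_sum, ← Finset.sum_add_distrib]
  exact Finset.sum_congr rfl fun a _ => Finset.sum_congr rfl fun b _ => by ring

/-- CHUNK CONVEX. Convexity of the objectives on the affine set of projections. -/
theorem convex_isProj {n : ℕ} (ρ : Fin n → Fin n → ℝ) :
    Convex ℝ {G : Fin n → Fin n → Fin n → ℝ | IsProj ρ G} := by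
  intro G hG G' hG' s t _ _ hst f x y
  rw [convex_Sop_lin, hG f x y, hG' f x y, ← add_mul, hst, one_mul]

theorem ph1_convex {n : ℕ} (ρ : Fin n → Fin n → ℝ) (x y : Fin n) :
    ConvexOn ℝ {G : Fin n → Fin n → Fin n → ℝ | IsProj ρ G} (fun G => ph1 ρ G x y) := by
  refine ⟨convex_isProj ρ, fun G _ G' _ s t hs ht _ => ?_⟩
  show ph1 ρ (s • G + t • G') x y ≤ s * ph1 ρ G x y + t * ph1 ρ G' x y
  unfold ph1
  simp only [convex_Sk_lin, Finset.mul_sum, ← Finset.sum_add_distrib]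
  refine Finset.sum_le_sum fun a _ => Finset.sum_le_sum fun b _ => ?_
  refine (abs_add_le _ _).trans (le_of_eq ?_)
  rw [abs_mul, abs_mul, abs_of_nonneg hs, abs_of_nonneg ht]

theorem ph2_convex {n : ℕ} {W κ : Type} [Fintype W] [Fintype κ] {p : ℝ} (hp : 1 ≤ p) {μ : W → ℝ}
    (hμ : ∀ w, 0 ≤ μ w) (ρ : Fin n → Fin n → ℝ) (X : Fin n → W → ℝ) (θ : κ → ℝ → ℝ) (x y : Fin n) :
    ConvexOn ℝ {G : Fin n → Fin n → Fin n → ℝ | IsProj ρ G} (fun G => ph2 p μ ρ X θ G x y) := by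
  have h := wn_convexOn (ι := κ × W) (μ := fun q => μ q.2) (p := p) _ (convex_isProj ρ)
    (fun q => hμ q.2) hp
    (fun G q => bb ρ X (θ q.1) x y q.2 - Sop ρ G (fun a b => bb ρ X (θ q.1) a b q.2) x y)
    (by
      intro G _ G' _ s t _ _ hst q
      show _ - Sop ρ (s • G + t • G') _ x y = _
      rw [convex_Sop_lin]
      linear_combination (-bb ρ X (θ q.1) x y q.2) * hst)
  have h2 : (fun G => ph2 p μ ρ X θ G x y) = fun G => wn (fun q : κ × W => μ q.2) p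
      (fun q => bb ρ X (θ q.1) x y q.2 - Sop ρ G (fun a b => bb ρ X (θ q.1) a b q.2) x y) := by
    funext G
    unfold ph2 wn
    rw [Fintype.sum_prod_type]
  rw [h2]
  exact h

theorem ph3_convex {n : ℕ} {W κ : Type} [Fintype W] [Fintype κ] {μ : W → ℝ}
    (hμ : ∀ w, 0 ≤ μ w) (ρ : Fin n → Fin n → ℝ) (X : Fin n → W → ℝ) (θ : κ → ℝ → ℝ) (om : κ → ℝ)
    (hom : ∀ k, 0 ≤ om k) (x y : Fin n) :
    ConvexOn ℝ {G : Fin n → Fin n → Fin n → ℝ | IsProj ρ G} (fun G => ph3 μ ρ X θ om G x y) := by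
  refine ⟨convex_isProj ρ, fun G _ G' _ s t hs ht hst => ?_⟩
  show ph3 μ ρ X θ om (s • G + t • G') x y ≤ s * ph3 μ ρ X θ om G x y + t * ph3 μ ρ X θ om G' x y
  unfold ph3
  rw [Finset.mul_sum, Finset.mul_sum, ← Finset.sum_add_distrib]
  refine Finset.sum_le_sum fun k _ => ?_
  have h1 : ∀ A B : ℝ, s * (om k * A) + t * (om k * B) = om k * (s * A + t * B) := fun A B => by ring
  rw [h1]
  refine mul_le_mul_of_nonneg_left ?_ (hom k)
  rw [Finset.mul_sum, Finset.mul_sum, ← Finset.sum_add_distrib]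
  refine Finset.sum_le_sum fun w _ => ?_
  rw [convex_Sop_lin]
  set u := Sop ρ G (fun a b => bb ρ X (θ k) a b w) x y
  set v := Sop ρ G' (fun a b => bb ρ X (θ k) a b w) x y
  have h2 : (s * u + t * v) ^ 2 ≤ s * u ^ 2 + t * v ^ 2 := by
    have h3 : s * u ^ 2 + t * v ^ 2 - (s * u + t * v) ^ 2 = s * t * (u - v) ^ 2 := by
      have h4 : t = 1 - s := by linarith
      rw [h4]; ring
    have h5 : 0 ≤ s * t * (u - v) ^ 2 := mul_nonneg (mul_nonneg hs ht) (sq_nonneg _)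
    linarith
  calc μ w * (s * u + t * v) ^ 2 ≤ μ w * (s * u ^ 2 + t * v ^ 2) :=
        mul_le_mul_of_nonneg_left h2 (hμ w)
    _ = s * (μ w * u ^ 2) + t * (μ w * v ^ 2) := by ring

/-- symmetry of the objectives (`Sk ρ G y x a b = - Sk ρ G x y a b`, `bb` is antisymmetric) -/
theorem ph_symm {n : ℕ} {W κ : Type} [Fintype W] [Fintype κ] (p : ℝ) (μ : W → ℝ)
    (ρ : Fin n → Fin n → ℝ) (hρ : ∀ x y, ρ x y = ρ y x) (X : Fin n → W → ℝ) (θ : κ → ℝ → ℝ) (om : κ → ℝ)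
    (G : Fin n → Fin n → Fin n → ℝ) (x y : Fin n) :
    ph1 ρ G x y = ph1 ρ G y x ∧ ph2 p μ ρ X θ G x y = ph2 p μ ρ X θ G y x ∧
      ph3 μ ρ X θ om G x y = ph3 μ ρ X θ om G y x := by
  have hSk : ∀ a b, Sk ρ G y x a b = - Sk ρ G x y a b := by
    intro a b
    unfold Sk
    rw [hρ y x]
    ring
  have hSop : ∀ F : Fin n → Fin n → ℝ, Sop ρ G F y x = - Sop ρ G F x y := by
    intro F
    unfold Sop
    simp only [hSk, neg_mul, Finset.sum_neg_distrib]
  have hvv : ∀ w, vv ρ X y x w = - vv ρ X x y w := by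
    intro w
    unfold vv
    rw [hρ y x]
    ring
  have hbb : ∀ (φ : ℝ → ℝ) (w : W), bb ρ X φ y x w = - bb ρ X φ x y w := by
    intro φ w
    unfold bb
    rw [hvv, abs_neg]
    ring
  refine ⟨?_, ?_, ?_⟩
  · unfold ph1
    simp only [hSk, abs_neg]
  · unfold ph2
    congr 1
    refine Finset.sum_congr rfl fun k _ => Finset.sum_congr rfl fun w _ => ?_
    rw [hSop, hbb, ← abs_neg]
    congr 3
    ring
  · unfold ph3
    simp only [hSop, neg_sq]

end Crest.Agent.LpDim
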