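import Mathlib

/-!
# Row 232 (S0358, S0359): shared definitions

Full paper proof: table `ideas`, row 232 (helper8, "COMPLETE PAPER PROOF").
`V` is the (finite) set of points, `ρ x y > 0` the lengths, fields are functions `V → V → ℝ`.
-/

set_option autoImplicit false

namespace Crest.Agent.LpDim

open Finset

variable {V : Type} [Fintype V]

/-- gradient field of a potential -/
noncomputable def gr {V : Type} (ρ : V → V → ℝ) (f : V → ℝ) (x y : V) : ℝ := (f x - f y) / ρ x y

/-- kernel of the operator "field `F` ↦ gradient of `∑ F a b * G a b`" -/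
noncomputable def Sk {V : Type} (ρ : V → V → ℝ) (G : V → V → V → ℝ) (x y a b : V) : ℝ :=
  (G a b x - G a b y) / ρ x y

/-- the operator `S` on fields -/
noncomputable def Sop (ρ : V → V → ℝ) (G : V → V → V → ℝ) (F : V → V → ℝ) (x y : V) : ℝ :=
  ∑ a, ∑ b, Sk ρ G x y a b * F a b

/-- the operator `S` is a projection onto gradients -/
def IsProj (ρ : V → V → ℝ) (G : V → V → V → ℝ) : Prop :=
  ∀ (f : V → ℝ) (x y : V), Sop ρ G (gr ρ f) x y = gr ρ f x y

/-- application of a kernel to a function -/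
def app (K : V → V → ℝ) (f : V → ℝ) (x : V) : ℝ := ∑ y, K x y * f y

/-- entropy -/
noncomputable def Ent (ν : V → ℝ) (f : V → ℝ) : ℝ := ∑ x, ν x * (f x * Real.log (f x))

/-- lazy reversible Markov kernel with positive stationary probability `ν` -/
structure LRK (ν : V → ℝ) (K : V → V → ℝ) : Prop where
  nu_pos : ∀ x, 0 < ν x
  nonneg : ∀ x y, 0 ≤ K x y
  sum_one : ∀ x, ∑ y, K x y = 1
  rev : ∀ x y, ν x * K x y = ν y * K y x
  lazy : ∀ x, 1 / 2 ≤ K x x

/-- heat kernel in discrete time: `hk t x z = K^t(x,z) / ν z` -/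
noncomputable def hk [DecidableEq V] (ν : V → ℝ) (K : V → V → ℝ) : ℕ → V → V → ℝ
  | 0, x, z => if x = z then (ν z)⁻¹ else 0
  | t + 1, x, z => ∑ y, K x y * hk ν K t y z

/-- abstract operator on `L_2(P)` with the properties used in the commutator lemma -/
structure OpOK {E : Type} [Fintype E] (P : E → ℝ) (S : E → E → ℝ) (T : ℝ) : Prop where
  nonneg : ∀ e, 0 ≤ P e
  sum_one : ∑ e, P e = 1
  l2 : ∀ F : E → ℝ, ∑ e, P e * (F e - ∑ e', S e e' * F e') ^ 2 ≤ ∑ e, P e * F e ^ 2
  symm : ∀ e e', P e * |S e e'| = P e' * |S e' e|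
  row : ∑ e, P e * ∑ e', |S e e'| ≤ T

/-- weighted `ℓ_p` norm -/
noncomputable def wn {ι : Type} [Fintype ι] (μ : ι → ℝ) (p : ℝ) (f : ι → ℝ) : ℝ :=
  (∑ i, μ i * |f i| ^ p) ^ (1 / p)

/-- normalised differences of the coordinates -/
noncomputable def vv {V W : Type} (ρ : V → V → ℝ) (X : V → W → ℝ) (x y : V) (w : W) : ℝ :=
  (X x w - X y w) / ρ x y

/-- the part of a field at the log-heights selected by `θ` -/
noncomputable def bb {V W : Type} (ρ : V → V → ℝ) (X : V → W → ℝ) (θ : ℝ → ℝ) (x y : V) (w : W) : ℝ :=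
  vv ρ X x y w * θ (Real.log |vv ρ X x y w|)

/-! ### `N` independent signed atoms -/

/-- sign -/
def sg (b : Bool) : ℝ := if b then 1 else -1

/-- expectation over `N` independent signed atoms with law `μ` -/
noncomputable def EN {W : Type} [Fintype W] (μ : W → ℝ) (N : ℕ) (f : (Fin N → W × Bool) → ℝ) : ℝ :=
  ∑ ω : Fin N → W × Bool, (∏ m, μ (ω m).1 / 2) * f ω

/-- the signed sum -/
def SS {W : Type} {N : ℕ} (Y : W → ℝ) (ω : Fin N → W × Bool) : ℝ := ∑ m, sg (ω m).2 * Y (ω m).1

/-- expectation over a finite probability space -/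
def EE {Ω : Type} [Fintype Ω] (q : Ω → ℝ) (f : Ω → ℝ) : ℝ := ∑ ω, q ω * f ω

end Crest.Agent.LpDim
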