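import Mathlib

/-!
Row 232, CHUNK MINIMAX: finitely many convex objectives.
-/

set_option autoImplicit false

namespace Crest.Agent.LpDim

open Finset

theorem minimax {ι : Type} [Fintype ι] [Nonempty ι] {M : Type} [AddCommGroup M] [Module ℝ M]
    (s : Set M) (hs : Convex ℝ s) (φ : ι → M → ℝ) (hφ : ∀ i, ConvexOn ℝ s (φ i))
    (c : ℝ) (h : ∀ α : ι → ℝ, (∀ i, 0 ≤ α i) → ∑ i, α i = 1 → ∃ S ∈ s, ∑ i, α i * φ i S ≤ c)
    (c' : ℝ) (hc : c < c') : ∃ S ∈ s, ∀ i, φ i S ≤ c' := by
  classical
  by_contra hcon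
  set A : Set (ι → ℝ) := {y | ∃ S ∈ s, ∀ i, φ i S ≤ y i} with hA
  set B : Set (ι → ℝ) := {y | ∀ i, y i < c'} with hB
  have hAc : Convex ℝ A := by
    intro y hy z hz a b ha hb hab
    obtain ⟨S, hS, hSy⟩ := hy
    obtain ⟨R, hR, hRz⟩ := hz
    refine ⟨a • S + b • R, hs hS hR ha hb hab, fun i => ?_⟩
    have h1 := (hφ i).2 hS hR ha hb hab
    simp only [smul_eq_mul] at h1
    have h2 : a * φ i S ≤ a * y i := mul_le_mul_of_nonneg_left (hSy i) ha
    have h3 : b * φ i R ≤ b * z i := mul_le_mul_of_nonneg_left (hRz i) hb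
    simp only [Pi.add_apply, Pi.smul_apply, smul_eq_mul]
    linarith
  have hBc : Convex ℝ B := by
    intro y hy z hz a b ha hb hab i
    simp only [Pi.add_apply, Pi.smul_apply, smul_eq_mul]
    have h1 := hy i
    have h2 := hz i
    rcases eq_or_lt_of_le ha with ha0 | ha0
    · subst ha0
      have hb1 : b = 1 := by linarith
      subst hb1
      linarith
    · have h3 : a * y i < a * c' := mul_lt_mul_of_pos_left h1 ha0
      have h4 : b * z i ≤ b * c' := mul_le_mul_of_nonneg_left h2.le hb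
      have h5 : a * c' + b * c' = c' := by rw [← add_mul, hab, one_mul]
      linarith
  have hBo : IsOpen B := by
    have : B = Set.pi Set.univ (fun _ : ι => Set.Iio c') := by
      ext y; simp [hB]
    rw [this]
    exact isOpen_set_pi Set.finite_univ (fun _ _ => isOpen_Iio)
  have hdisj : Disjoint B A := by
    rw [Set.disjoint_left]
    rintro y hy ⟨S, hS, hSy⟩
    exact hcon ⟨S, hS, fun i => (hSy i).trans (hy i).le⟩
  obtain ⟨f, u, hfB, hfA⟩ := geometric_hahn_banach_open hBc hBo hAc hdisj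
  set a : ι → ℝ := fun i => f (Pi.single i 1) with ha
  have hf : ∀ y : ι → ℝ, f y = ∑ i, a i * y i := by
    intro y
    have := LinearMap.pi_apply_eq_sum_univ (f : (ι → ℝ) →ₗ[ℝ] ℝ) y
    simp only [ContinuousLinearMap.coe_coe, smul_eq_mul] at this
    rw [this]
    refine Finset.sum_congr rfl fun i _ => ?_
    rw [ha, mul_comm]
    congr 2
    funext j
    simp [Pi.single_apply, eq_comm]
  have hconst : ∀ t : ℝ, f (fun _ => t) = (∑ i, a i) * t := by
    intro t
    rw [hf, Finset.sum_mul]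
  have ha0 : ∀ i, 0 ≤ a i := by
    intro i
    by_contra hi
    push Not at hi
    have hb0 : (fun _ : ι => c' - 1) ∈ B := fun _ => by simp
    have h0 := hfB _ hb0
    set f0 := f (fun _ : ι => c' - 1) with hf0
    set t : ℝ := (u - f0) / (-(a i)) with ht
    have ht0 : 0 < t := div_pos (by linarith) (by linarith)
    have hmem : (fun j : ι => c' - 1) - t • (Pi.single i (1:ℝ) : ι → ℝ) ∈ B := by
      intro j
      simp only [Pi.sub_apply, Pi.smul_apply, smul_eq_mul]
      have : 0 ≤ t * (Pi.single i (1:ℝ) : ι → ℝ) j := by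
        by_cases hj : j = i
        · subst hj; simp [ht0.le]
        · simp [Pi.single_eq_of_ne hj]
      linarith
    have h1 := hfB _ hmem
    rw [map_sub, map_smul, smul_eq_mul] at h1
    have h2 : t * a i = -(u - f0) := by
      have hne' : a i ≠ 0 := hi.ne
      rw [ht]; field_simp
    have h3 : f (Pi.single i (1:ℝ)) = a i := rfl
    rw [h3, h2] at h1
    linarith
  have hne : ∃ S, S ∈ s := by
    obtain ⟨S, hS, -⟩ := h (fun _ => 1 / (Fintype.card ι : ℝ)) (fun _ => by positivity) (by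
      simp [Finset.sum_const, Finset.card_univ])
    exact ⟨S, hS⟩
  have hpos : 0 < ∑ i, a i := by
    rcases eq_or_lt_of_le (Finset.sum_nonneg fun i (_ : i ∈ Finset.univ) => ha0 i) with h0 | h0
    · exfalso
      have hz : ∀ i, a i = 0 := by
        intro i
        exact (Finset.sum_eq_zero_iff_of_nonneg fun i _ => ha0 i).1 h0.symm i (Finset.mem_univ i)
      have hfz : ∀ y, f y = 0 := by
        intro y; rw [hf]; simp [hz]
      obtain ⟨S, hS⟩ := hne
      have h1 := hfA (fun i => φ i S) ⟨S, hS, fun i => le_rfl⟩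
      have h2 := hfB (fun _ => c' - 1) (fun _ => by simp)
      rw [hfz] at h1 h2
      linarith
    · exact h0
  obtain ⟨S, hS, hSle⟩ := h (fun i => a i / ∑ j, a j) (fun i => div_nonneg (ha0 i) hpos.le)
    (by rw [← Finset.sum_div, div_self hpos.ne'])
  have h1 := hfA (fun i => φ i S) ⟨S, hS, fun i => le_rfl⟩
  have h2 := hfB (fun _ => (c + c') / 2) (fun _ => by linarith)
  rw [hconst] at h2
  rw [hf] at h1
  have h3 : ∑ i, a i * φ i S = (∑ j, a j) * ∑ i, a i / (∑ j, a j) * φ i S := by
    rw [Finset.mul_sum]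
    refine Finset.sum_congr rfl fun i _ => ?_
    field_simp
  rw [h3] at h1
  have h4 : (∑ j, a j) * ∑ i, a i / (∑ j, a j) * φ i S ≤ (∑ j, a j) * c :=
    mul_le_mul_of_nonneg_left hSle hpos.le
  have h5 : (∑ j, a j) * c < (∑ i, a i) * ((c + c') / 2) := by
    apply mul_lt_mul_of_pos_left _ hpos
    linarith
  linarith

end Crest.Agent.LpDim
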