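import Crest.Agent.LpDim.Avg
import Crest.Agent.LpDim.Convex
import Crest.Agent.LpDim.Minimax

/-!
Row 232, CHUNK R232-EXISTSS: one operator `S` good for all pairs.
-/

set_option autoImplicit false

namespace Crest.Agent.LpDim

open Finset

private theorem ph1_nonneg {n : ℕ} (ρ : Fin n → Fin n → ℝ) (G : Fin n → Fin n → Fin n → ℝ)
    (x y : Fin n) : 0 ≤ ph1 ρ G x y :=
  sum_nonneg fun _ _ => sum_nonneg fun _ _ => abs_nonneg _

private theorem ph2_nonneg {n : ℕ} {W κ : Type} [Fintype W] [Fintype κ] (p : ℝ) {μ : W → ℝ}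
    (hμ : ∀ w, 0 ≤ μ w) (ρ : Fin n → Fin n → ℝ) (X : Fin n → W → ℝ) (θ : κ → ℝ → ℝ)
    (G : Fin n → Fin n → Fin n → ℝ) (x y : Fin n) : 0 ≤ ph2 p μ ρ X θ G x y :=
  Real.rpow_nonneg (sum_nonneg fun _ _ => sum_nonneg fun w _ =>
    mul_nonneg (hμ w) (Real.rpow_nonneg (abs_nonneg _) _)) _

private theorem ph3_nonneg {n : ℕ} {W κ : Type} [Fintype W] [Fintype κ] {μ : W → ℝ}
    (hμ : ∀ w, 0 ≤ μ w) (ρ : Fin n → Fin n → ℝ) (X : Fin n → W → ℝ) (θ : κ → ℝ → ℝ) {om : κ → ℝ}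
    (hom : ∀ k, 0 ≤ om k)
    (G : Fin n → Fin n → Fin n → ℝ) (x y : Fin n) : 0 ≤ ph3 μ ρ X θ om G x y :=
  sum_nonneg fun k _ => mul_nonneg (hom k) (sum_nonneg fun w _ =>
    mul_nonneg (hμ w) (sq_nonneg _))

/-- the averaging step: symmetric nonnegative `φ`, weights `Q`. -/
private theorem avg_step {n : ℕ} (hn : 2 ≤ n) (Q φ : Fin n → Fin n → ℝ) (hφ : ∀ x y, 0 ≤ φ x y)
    (hs : ∀ x y, φ x y = φ y x)
    (h : ∑ x, ∑ y, ((Q x y + Q y x) / 4 + 1 / (2 * (n : ℝ) ^ 2)) * φ x y ≤ 1) :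
    ∑ x, ∑ y, Q x y * φ x y ≤ 2 := by
  have h1 : ∑ x, ∑ y, Q y x * φ x y = ∑ x, ∑ y, Q x y * φ x y := by
    rw [sum_comm]
    exact sum_congr rfl fun x _ => sum_congr rfl fun y _ => by rw [hs y x]
  have h2 : ∑ x, ∑ y, (Q x y + Q y x) / 4 * φ x y = (∑ x, ∑ y, Q x y * φ x y) / 2 := by
    have : ∑ x, ∑ y, (Q x y + Q y x) / 4 * φ x y
        = (∑ x, ∑ y, Q x y * φ x y) / 4 + (∑ x, ∑ y, Q y x * φ x y) / 4 := by
      simp only [sum_div, ← sum_add_distrib]
      exact sum_congr rfl fun x _ => sum_congr rfl fun y _ => by ring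
    rw [this, h1]; ring
  have h3 : ∑ x, ∑ y, (Q x y + Q y x) / 4 * φ x y ≤
      ∑ x, ∑ y, ((Q x y + Q y x) / 4 + 1 / (2 * (n : ℝ) ^ 2)) * φ x y := by
    refine sum_le_sum fun x _ => sum_le_sum fun y _ => ?_
    refine mul_le_mul_of_nonneg_right ?_ (hφ x y)
    have : 0 ≤ 1 / (2 * (n : ℝ) ^ 2) := by positivity
    linarith
  linarith

/-- CHUNK EXISTS-S. PROOF. `minimax` with `ι = Fin 3 × Fin n × Fin n` and the three objectives divided by their bounds
`C (1+log n)`, `C c (1+log n)^{|1-2/p|}`, `C`; given weights `α`, let `Q x y = ∑_j α (j,x,y)` and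
`P x y = (Q x y + Q y x)/4 + 1/(2 n²)`, `G` from `exists_avg`: by `ph_symm`
`∑_j ∑ α_j φ_j ≤ ∑_j ∑ Q φ_j ≤ 2 ∑_j ∑ P φ_j ≤ 6` (all objectives are nonnegative). So `c = 6`, `c' = 7`. -/
theorem exists_S (p : ℝ) (hp1 : 1 < p) (hp2 : p ≠ 2) : ∃ C : ℝ, 1 ≤ C ∧
    ∀ (n : ℕ) (W κ : Type) [Fintype W] [Fintype κ] (μ : W → ℝ)
      (ρ : Fin n → Fin n → ℝ) (X : Fin n → W → ℝ) (θ : κ → ℝ → ℝ) (c : ℝ) (om : κ → ℝ),
      EmbData p μ ρ X θ c om → ∃ G : Fin n → Fin n → Fin n → ℝ, IsProj ρ G ∧ ∀ x y,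
        ph1 ρ G x y ≤ C * (1 + Real.log n) ∧
        ph2 p μ ρ X θ G x y ≤ C * c * (1 + Real.log n) ^ |1 - 2 / p| ∧
        ph3 μ ρ X θ om G x y ≤ C := by
  obtain ⟨C, hC1, hC⟩ := exists_avg p hp1 hp2
  refine ⟨7 * C, by linarith, ?_⟩
  intro n W κ _ _ μ ρ X θ c om hE
  have hC0 : 0 < C := by linarith
  have hn := hE.n_ge
  have hn1 : (1 : ℝ) ≤ n := by
    have : (2 : ℝ) ≤ n := by exact_mod_cast hn
    linarith
  have hlog : 0 ≤ Real.log n := Real.log_nonneg hn1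
  set L : ℝ := 1 + Real.log n with hL
  have hL0 : 0 < L := by positivity
  have hc := hE.c_pos
  set D : Fin 3 → ℝ := ![C * L, C * c * L ^ |1 - 2 / p|, C] with hD
  have hLp : 0 < L ^ |1 - 2 / p| := Real.rpow_pos_of_pos hL0 _
  have hDpos : ∀ j, 0 < D j := by
    intro j
    fin_cases j
    · simp only [hD]; simp; positivity
    · simp only [hD]; simp; positivity
    · simp only [hD]; simp; positivity
  set ph : Fin 3 → (Fin n → Fin n → Fin n → ℝ) → Fin n → Fin n → ℝ := fun j G x y =>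
    (![ph1 ρ G x y, ph2 p μ ρ X θ G x y, ph3 μ ρ X θ om G x y] : Fin 3 → ℝ) j with hph
  have hph0 : ∀ j G x y, 0 ≤ ph j G x y := by
    intro j G x y
    fin_cases j
    · exact ph1_nonneg ρ G x y
    · exact ph2_nonneg p hE.μ_nonneg ρ X θ G x y
    · exact ph3_nonneg hE.μ_nonneg ρ X θ hE.om_nonneg G x y
  have hphs : ∀ j G x y, ph j G x y = ph j G y x := by
    intro j G x y
    have := ph_symm p μ ρ hE.ρ_symm X θ om G x y
    fin_cases j
    · exact this.1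
    · exact this.2.1
    · exact this.2.2
  have hphc : ∀ j x y, ConvexOn ℝ {G : Fin n → Fin n → Fin n → ℝ | IsProj ρ G} (fun G => ph j G x y) := by
    intro j x y
    fin_cases j
    · exact ph1_convex ρ x y
    · exact ph2_convex hp1.le hE.μ_nonneg ρ X θ x y
    · exact ph3_convex hE.μ_nonneg ρ X θ om hE.om_nonneg x y
  haveI : Nonempty (Fin 3 × Fin n × Fin n) := ⟨(0, ⟨0, by omega⟩, ⟨0, by omega⟩)⟩
  have key := minimax (ι := Fin 3 × Fin n × Fin n) {G : Fin n → Fin n → Fin n → ℝ | IsProj ρ G}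
    (convex_isProj ρ) (fun i G => (D i.1)⁻¹ * ph i.1 G i.2.1 i.2.2)
    (fun i => by
      have := (hphc i.1 i.2.1 i.2.2).smul (c := (D i.1)⁻¹) (inv_nonneg.2 (hDpos i.1).le)
      simpa [smul_eq_mul] using this) 6 ?_ 7 (by norm_num)
  · obtain ⟨G, hG, hGi⟩ := key
    refine ⟨G, hG, fun x y => ?_⟩
    have h0 := hGi (0, x, y)
    have h1 := hGi (1, x, y)
    have h2 := hGi (2, x, y)
    simp only at h0 h1 h2
    rw [inv_mul_le_iff₀ (hDpos _)] at h0 h1 h2
    have e0 : D 0 = C * L := rfl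
    have e1 : D 1 = C * c * L ^ |1 - 2 / p| := rfl
    have e2 : D 2 = C := rfl
    rw [e0] at h0
    rw [e1] at h1
    rw [e2] at h2
    refine ⟨?_, ?_, ?_⟩
    · calc ph1 ρ G x y ≤ C * L * 7 := h0
        _ = 7 * C * L := by ring
    · calc ph2 p μ ρ X θ G x y ≤ C * c * L ^ |1 - 2 / p| * 7 := h1
        _ = 7 * C * c * L ^ |1 - 2 / p| := by ring
    · calc ph3 μ ρ X θ om G x y ≤ C * 7 := h2
        _ = 7 * C := by ring
  · intro α hα0 hα1
    set Q : Fin n → Fin n → ℝ := fun x y => ∑ j, α (j, x, y) with hQ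
    have hQ0 : ∀ x y, 0 ≤ Q x y := fun x y => sum_nonneg fun j _ => hα0 _
    have hQ1 : ∑ x, ∑ y, Q x y = 1 := by
      rw [← hα1, Fintype.sum_prod_type]
      simp only [hQ]
      rw [sum_comm' (s := univ) (t := fun _ => univ) (t' := univ) (s' := fun _ => univ) (by simp)]
      rw [show (∑ j : Fin 3, ∑ z : Fin n × Fin n, α (j, z)) = ∑ j : Fin 3, ∑ y : Fin n, ∑ x : Fin n, α (j, x, y) from
        sum_congr rfl fun j _ => by rw [Fintype.sum_prod_type, sum_comm]]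
      rw [sum_comm (s := (univ : Finset (Fin 3)))]
      refine sum_congr rfl fun y _ => ?_
      rw [sum_comm]
    set P : Fin n → Fin n → ℝ := fun x y => (Q x y + Q y x) / 4 + 1 / (2 * (n : ℝ) ^ 2) with hP
    have hP0 : ∀ x y, 0 < P x y := by
      intro x y
      have := hQ0 x y
      have := hQ0 y x
      have : 0 < 1 / (2 * (n : ℝ) ^ 2) := by positivity
      simp only [hP]
      linarith
    have hPs : ∀ x y, P x y = P y x := by
      intro x y
      simp only [hP]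
      ring
    have hP1 : ∑ x, ∑ y, P x y = 1 := by
      have e1 : ∑ x, ∑ y, P x y = (∑ x, ∑ y, Q x y) / 4 + (∑ x, ∑ y, Q y x) / 4 +
          ∑ x : Fin n, ∑ y : Fin n, 1 / (2 * (n : ℝ) ^ 2) := by
        simp only [hP, sum_div, ← sum_add_distrib]
        exact sum_congr rfl fun x _ => sum_congr rfl fun y _ => by ring
      have e2 : ∑ x, ∑ y, Q y x = 1 := by rw [sum_comm]; exact hQ1
      rw [e1, e2, hQ1]
      simp only [sum_const, card_univ, Fintype.card_fin, nsmul_eq_mul]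
      have : (n : ℝ) ≠ 0 := by positivity
      field_simp
      ring
    obtain ⟨G, hG, g1, g2, g3⟩ := hC n W κ μ ρ X θ c om hE P hP0 hPs hP1
    refine ⟨G, hG, ?_⟩
    have gj : ∀ j, ∑ x, ∑ y, P x y * ((D j)⁻¹ * ph j G x y) ≤ 1 := by
      intro j
      have e : ∑ x, ∑ y, P x y * ((D j)⁻¹ * ph j G x y) = (D j)⁻¹ * ∑ x, ∑ y, P x y * ph j G x y := by
        simp only [mul_sum]
        exact sum_congr rfl fun x _ => sum_congr rfl fun y _ => by ring
      rw [e, inv_mul_le_iff₀ (hDpos j), mul_one]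
      fin_cases j
      · exact g1
      · exact g2
      · exact g3
    have g2j : ∀ j, ∑ x, ∑ y, Q x y * ((D j)⁻¹ * ph j G x y) ≤ 2 := by
      intro j
      refine avg_step hn Q (fun x y => (D j)⁻¹ * ph j G x y) ?_ ?_ (gj j)
      · intro x y
        exact mul_nonneg (inv_nonneg.2 (hDpos j).le) (hph0 j G x y)
      · intro x y
        simp only [hphs j G x y]
    calc ∑ i : Fin 3 × Fin n × Fin n, α i * ((D i.1)⁻¹ * ph i.1 G i.2.1 i.2.2)
        = ∑ j : Fin 3, ∑ x, ∑ y, α (j, x, y) * ((D j)⁻¹ * ph j G x y) := by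
          rw [Fintype.sum_prod_type]
          exact sum_congr rfl fun j _ => by rw [Fintype.sum_prod_type]
      _ ≤ ∑ j : Fin 3, ∑ x, ∑ y, Q x y * ((D j)⁻¹ * ph j G x y) := by
          refine sum_le_sum fun j _ => sum_le_sum fun x _ => sum_le_sum fun y _ => ?_
          refine mul_le_mul_of_nonneg_right ?_ (mul_nonneg (inv_nonneg.2 (hDpos j).le) (hph0 j G x y))
          exact single_le_sum (f := fun j => α (j, x, y)) (fun j _ => hα0 _) (mem_univ j)
      _ ≤ ∑ _j : Fin 3, (2 : ℝ) := sum_le_sum fun j _ => g2j j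
      _ = 6 := by simp; norm_num

end Crest.Agent.LpDim
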