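import Mathlib

/-!
Row 232, CHUNK R232-SIMPLE.
-/

set_option autoImplicit false

namespace Crest.Agent.LpDim

open Finset MeasureTheory
open scoped ENNReal
universe u

/-- the joint simple function -/
private def jointSF {α : Type u} [MeasurableSpace α] {n : ℕ} (f : Fin n → SimpleFunc α ℝ) :
    SimpleFunc α (Fin n → ℝ) where
  toFun := fun a i => f i a
  measurableSet_fiber' := fun w => by
    have h : (fun a i => f i a) ⁻¹' {w} = ⋂ i, f i ⁻¹' {w i} := by
      ext a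
      simp only [Set.mem_preimage, Set.mem_singleton_iff, Set.mem_iInter]
      exact funext_iff
    rw [h]
    exact MeasurableSet.iInter fun i => (f i).measurableSet_fiber _
  finite_range' := by
    refine Set.Finite.subset (Set.Finite.pi' fun i => (f i).finite_range) ?_
    rintro _ ⟨a, rfl⟩ i
    exact ⟨a, rfl⟩

private theorem jointSF_apply {α : Type u} [MeasurableSpace α] {n : ℕ} (f : Fin n → SimpleFunc α ℝ)
    (a : α) (i : Fin n) : jointSF f a i = f i a := rfl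

/-- CHUNK SIMPLE. Approximation by simple functions with a common partition.
PROOF. `Lp.simpleFunc` is dense in `Lp` (`p ≠ ⊤`): simple `f i ∈ Lp` with `‖x i - f i‖ ≤ δ/2`. The joint simple function
`a ↦ (f i a)_i` (`SimpleFunc` with values in `Fin n → ℝ`) has finite range; `W` = its nonzero range elements (as a subtype of a
finset, then `Fin N`), `m w = (μ (preimage of w)).toReal` (finite for `w ≠ 0`), `Y i w = w i`. Then
`‖f i - f j‖^p = ∑_w m w |Y i w - Y j w|^p`. -/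
theorem exists_simple (p : ℝ≥0∞) [Fact (1 ≤ p)] (hptop : p ≠ ⊤) {n : ℕ}
    {α : Type u} [MeasurableSpace α] (μ : Measure α) (x : Fin n → Lp ℝ p μ) (δ : ℝ) (hδ : 0 < δ) :
    ∃ (N : ℕ) (m : Fin N → ℝ) (Y : Fin n → Fin N → ℝ), (∀ w, 0 ≤ m w) ∧
      ∀ i j, |(∑ w, m w * |Y i w - Y j w| ^ p.toReal) ^ (1 / p.toReal) - ‖x i - x j‖| ≤ δ := by
  classical
  have hp1 : 1 ≤ p := Fact.out
  have hp0 : p ≠ 0 := (lt_of_lt_of_le one_pos hp1).ne'
  have hpr : 0 < p.toReal := ENNReal.toReal_pos hp0 hptop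
  have hex : ∀ i, ∃ g : SimpleFunc α ℝ, eLpNorm ((x i : α → ℝ) - (g : α → ℝ)) p μ < ENNReal.ofReal (δ / 2) ∧
      MemLp g p μ := fun i =>
    (Lp.memLp (x i)).exists_simpleFunc_eLpNorm_sub_lt hptop
      (ENNReal.ofReal_pos.mpr (half_pos hδ)).ne'
  choose f hf hfm using hex
  have hnorm : ∀ i, ‖x i - (hfm i).toLp (f i)‖ ≤ δ / 2 := by
    intro i
    rw [Lp.norm_def]
    refine ENNReal.toReal_le_of_le_ofReal (half_pos hδ).le ?_
    refine le_of_eq_of_le (eLpNorm_congr_ae ?_) (hf i).le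
    filter_upwards [Lp.coeFn_sub (x i) ((hfm i).toLp (f i)), (hfm i).coeFn_toLp] with a ha hb
    rw [ha, Pi.sub_apply, Pi.sub_apply, hb]
  set F := jointSF f with hF
  have hfin : ∀ w : Fin n → ℝ, w ≠ 0 → μ (F ⁻¹' {w}) < ∞ := by
    intro w hw
    obtain ⟨i, hi⟩ : ∃ i, w i ≠ 0 := by
      by_contra hcon
      push Not at hcon
      exact hw (funext hcon)
    refine lt_of_le_of_lt (measure_mono ?_)
      (SimpleFunc.measure_preimage_lt_top_of_memLp hp0 hptop (f i) (hfm i) (w i) hi)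
    intro a ha
    have ha' : F a = w := ha
    show f i a = w i
    rw [← ha', hF, jointSF_apply]
  set R : Finset (Fin n → ℝ) := F.range.filter (· ≠ 0) with hR
  have hnij : ∀ i j, ‖(hfm i).toLp (f i) - (hfm j).toLp (f j)‖ =
      (∑ w ∈ R, (μ (F ⁻¹' {w})).toReal * |w i - w j| ^ p.toReal) ^ (1 / p.toReal) := by
    intro i j
    have h1 : eLpNorm (((hfm i).toLp (f i) - (hfm j).toLp (f j) : Lp ℝ p μ) : α → ℝ) p μ =
        eLpNorm (fun a => f i a - f j a) p μ := by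
      refine eLpNorm_congr_ae ?_
      filter_upwards [Lp.coeFn_sub ((hfm i).toLp (f i)) ((hfm j).toLp (f j)),
        (hfm i).coeFn_toLp, (hfm j).coeFn_toLp] with a ha hb hc
      rw [ha, Pi.sub_apply, hb, hc]
    rw [Lp.norm_def, h1, eLpNorm_eq_lintegral_rpow_enorm_toReal hp0 hptop]
    have h2 : ∫⁻ a, ‖f i a - f j a‖ₑ ^ p.toReal ∂μ =
        ∑ w ∈ F.range, ‖w i - w j‖ₑ ^ p.toReal * μ (F ⁻¹' {w}) := by
      rw [← SimpleFunc.map_lintegral (fun w : Fin n → ℝ => ‖w i - w j‖ₑ ^ p.toReal) F,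
        ← SimpleFunc.lintegral_eq_lintegral]
      rfl
    have h3 : ∑ w ∈ F.range, ‖w i - w j‖ₑ ^ p.toReal * μ (F ⁻¹' {w}) =
        ∑ w ∈ R, ‖w i - w j‖ₑ ^ p.toReal * μ (F ⁻¹' {w}) := by
      rw [hR, Finset.sum_filter]
      refine Finset.sum_congr rfl fun w _ => ?_
      split_ifs with h
      · rfl
      · have : w = 0 := by simpa using h
        subst this
        simp [hpr]
    rw [h2, h3, ← ENNReal.toReal_rpow, ENNReal.toReal_sum]
    · congr 1
      refine Finset.sum_congr rfl fun w _ => ?_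
      rw [ENNReal.toReal_mul, mul_comm, ← ENNReal.toReal_rpow, toReal_enorm, Real.norm_eq_abs]
    · intro w hw
      have hw0 : w ≠ 0 := (Finset.mem_filter.mp hw).2
      refine ENNReal.mul_ne_top ?_ (hfin w hw0).ne
      exact ENNReal.rpow_ne_top_of_nonneg hpr.le (by simp)
  let e := R.equivFin
  refine ⟨R.card, fun w => (μ (F ⁻¹' {((e.symm w : R) : Fin n → ℝ)})).toReal,
    fun i w => ((e.symm w : R) : Fin n → ℝ) i, fun w => ENNReal.toReal_nonneg, ?_⟩
  intro i j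
  have hsum : ∑ w : Fin R.card, (μ (F ⁻¹' {((e.symm w : R) : Fin n → ℝ)})).toReal *
      |((e.symm w : R) : Fin n → ℝ) i - ((e.symm w : R) : Fin n → ℝ) j| ^ p.toReal =
      ∑ w ∈ R, (μ (F ⁻¹' {w})).toReal * |w i - w j| ^ p.toReal := by
    rw [← Finset.sum_coe_sort R (fun w => (μ (F ⁻¹' {w})).toReal * |w i - w j| ^ p.toReal)]
    exact Equiv.sum_comp e.symm
      (fun w : R => (μ (F ⁻¹' {(w : Fin n → ℝ)})).toReal * |(w : Fin n → ℝ) i - (w : Fin n → ℝ) j| ^ p.toReal)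
  rw [hsum, ← hnij i j]
  calc |‖(hfm i).toLp (f i) - (hfm j).toLp (f j)‖ - ‖x i - x j‖|
      ≤ ‖((hfm i).toLp (f i) - (hfm j).toLp (f j)) - (x i - x j)‖ := abs_norm_sub_norm_le _ _
    _ = ‖(x j - (hfm j).toLp (f j)) - (x i - (hfm i).toLp (f i))‖ := by
        congr 1
        abel
    _ ≤ ‖x j - (hfm j).toLp (f j)‖ + ‖x i - (hfm i).toLp (f i)‖ := norm_sub_le _ _
    _ ≤ δ / 2 + δ / 2 := add_le_add (hnorm j) (hnorm i)
    _ = δ := by ring

end Crest.Agent.LpDim
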