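import Crest.Agent.LpDim.RDefs
import Crest.Agent.LpDim.Simple

/-!
Row 232, CHUNK R232-DENSITY.
-/

set_option autoImplicit false

namespace Crest.Agent.LpDim

open Finset MeasureTheory
open scoped ENNReal
universe u

/-- CHUNK DENSITY. Change of density. PROOF. `h w ^ p = (∑_{i ≠ j} m-free |v_{ij} w|^p)/(n² - n)`, `W = {w // 0 < h w}`,
`μ w = h w^p m w`, `X i w = Y i w / h w`. On the removed `w` all `Y i w` are equal. -/
theorem exists_density (p : ℝ) (hp : 1 ≤ p) {n : ℕ} (hn : 2 ≤ n) {N : ℕ} (m : Fin N → ℝ) (hm : ∀ w, 0 ≤ m w)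
    (Y : Fin n → Fin N → ℝ) (ρ : Fin n → Fin n → ℝ) (hρ : ∀ i j, 0 < ρ i j) (hρs : ∀ i j, ρ i j = ρ j i)
    (hY : ∀ i j, i ≠ j → ∑ w, m w * |Y i w - Y j w| ^ p = ρ i j ^ p) :
    ∃ (W : Type) (_ : Fintype W) (μ : W → ℝ) (X : Fin n → W → ℝ), PtData p μ ρ X := by
  classical
  have hp0 : 0 < p := by linarith
  set a : Fin n → Fin n → Fin N → ℝ := fun x y w => |(Y x w - Y y w) / ρ x y| ^ p with ha
  have ha0 : ∀ x y w, 0 ≤ a x y w := fun x y w => Real.rpow_nonneg (abs_nonneg _) _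
  have haxx : ∀ x w, a x x w = 0 := fun x w => by
    simp only [ha, sub_self, zero_div, abs_zero]
    exact Real.zero_rpow hp0.ne'
  set g : Fin N → ℝ := fun w => ∑ x, ∑ y, a x y w with hg
  have hg0 : ∀ w, 0 ≤ g w := fun w => Finset.sum_nonneg fun x _ => Finset.sum_nonneg fun y _ => ha0 x y w
  have hag : ∀ x y w, a x y w ≤ g w := by
    intro x y w
    calc a x y w ≤ ∑ y, a x y w := Finset.single_le_sum (fun y _ => ha0 x y w) (Finset.mem_univ y)
      _ ≤ g w := Finset.single_le_sum (f := fun x => ∑ y, a x y w)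
          (fun x _ => Finset.sum_nonneg fun y _ => ha0 x y w) (Finset.mem_univ x)
  set D : ℝ := (n : ℝ) ^ 2 - n with hD
  have hn' : (2 : ℝ) ≤ n := by exact_mod_cast hn
  have hD0 : 0 < D := by nlinarith
  have hnorm : ∀ x y, x ≠ y → ∑ w, m w * a x y w = 1 := by
    intro x y hxy
    have hr : 0 < ρ x y ^ p := Real.rpow_pos_of_pos (hρ x y) p
    have e : ∀ w, m w * a x y w = (m w * |Y x w - Y y w| ^ p) / ρ x y ^ p := by
      intro w
      simp only [ha]
      rw [abs_div, abs_of_pos (hρ x y), Real.div_rpow (abs_nonneg _) (hρ x y).le, mul_div_assoc]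
    rw [Finset.sum_congr rfl fun w _ => e w, ← Finset.sum_div, hY x y hxy, div_self hr.ne']
  have hmass : ∑ w, m w * g w = D := by
    have e1 : ∑ w, m w * g w = ∑ x, ∑ y, ∑ w, m w * a x y w := by
      simp only [hg, Finset.mul_sum]
      rw [Finset.sum_comm]
      refine Finset.sum_congr rfl fun x _ => ?_
      rw [Finset.sum_comm]
    rw [e1]
    have e2 : ∀ x y, ∑ w, m w * a x y w = 1 - if x = y then 1 else 0 := by
      intro x y
      by_cases hxy : x = y
      · subst hxy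
        simp [haxx]
      · rw [hnorm x y hxy, if_neg hxy, sub_zero]
    simp only [e2, Finset.sum_sub_distrib]
    simp [hD, sq]
  set h : Fin N → ℝ := fun w => (g w / D) ^ (1 / p) with hh
  have hhp : ∀ w, h w ^ p = g w / D := by
    intro w
    simp only [hh]
    rw [← Real.rpow_mul (div_nonneg (hg0 w) hD0.le), one_div, inv_mul_cancel₀ hp0.ne', Real.rpow_one]
  have hh0 : ∀ w, 0 ≤ h w := fun w => Real.rpow_nonneg (div_nonneg (hg0 w) hD0.le) _
  -- the new space
  let W : Type := {w : Fin N // 0 < g w}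
  let X : Fin n → W → ℝ := fun i w => Y i w.1 / h w.1
  have hhpos : ∀ w : W, 0 < h w.1 := fun w => Real.rpow_pos_of_pos (div_pos w.2 hD0) _
  have hvv : ∀ x y (w : W), vv ρ X x y w = ((Y x w.1 - Y y w.1) / ρ x y) / h w.1 := by
    intro x y w
    simp only [vv, X]
    rw [← sub_div, div_div, div_div, mul_comm]
  have hvp : ∀ x y (w : W), |vv ρ X x y w| ^ p = a x y w.1 * (D / g w.1) := by
    intro x y w
    rw [hvv, abs_div, abs_of_pos (hhpos w), Real.div_rpow (abs_nonneg _) (hhpos w).le, hhp]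
    simp only [ha]
    rw [div_div_eq_mul_div, mul_div_assoc]
  have hsum : ∀ f : Fin N → ℝ, (∀ w, g w = 0 → f w = 0) → ∑ w : W, f w.1 = ∑ w, f w := by
    intro f hf
    have h1 : ∑ w : W, f w.1 = ∑ w ∈ Finset.univ.filter (fun w => 0 < g w), f w := by
      rw [← Finset.sum_subtype (Finset.univ.filter (fun w => 0 < g w)) (fun w => by simp) f]
    rw [h1]
    refine Finset.sum_subset (Finset.subset_univ _) fun w _ hw => ?_
    apply hf
    have : ¬ 0 < g w := by simpa using hw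
    exact le_antisymm (not_lt.mp this) (hg0 w)
  refine ⟨W, inferInstance, fun w => m w.1 * (g w.1 / D), X, ?_⟩
  refine ⟨hn, fun w => mul_nonneg (hm _) (div_nonneg (hg0 _) hD0.le), ?_, hρ, hρs, ?_, ?_⟩
  · rw [hsum (fun w => m w * (g w / D)) (fun w hw => by simp [hw])]
    have : ∑ w, m w * (g w / D) = (∑ w, m w * g w) / D := by
      rw [Finset.sum_div]
      exact Finset.sum_congr rfl fun w _ => by rw [mul_div_assoc]
    rw [this, hmass, div_self hD0.ne']
  · intro x y hxy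
    have e : ∀ w : W, m w.1 * (g w.1 / D) * |vv ρ X x y w| ^ p = m w.1 * a x y w.1 := by
      intro w
      rw [hvp]
      have h1 := w.2.ne'
      have h2 := hD0.ne'
      field_simp
    rw [Finset.sum_congr rfl fun w _ => e w, hsum (fun w => m w * a x y w), hnorm x y hxy]
    intro w hw
    have : a x y w = 0 := le_antisymm ((hag x y w).trans hw.le) (ha0 x y w)
    simp [this]
  · intro x y w
    have h1 : |vv ρ X x y w| ^ p ≤ (n : ℝ) ^ 2 := by
      rw [hvp]
      have h2 : a x y w.1 * (D / g w.1) ≤ g w.1 * (D / g w.1) :=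
        mul_le_mul_of_nonneg_right (hag x y w.1) (div_nonneg hD0.le w.2.le)
      have h3 : g w.1 * (D / g w.1) = D := mul_div_cancel₀ D w.2.ne'
      have h4 : D ≤ (n : ℝ) ^ 2 := by rw [hD]; linarith
      linarith
    have h2 : (|vv ρ X x y w| ^ p) ^ (1 / p) ≤ ((n : ℝ) ^ 2) ^ (1 / p) :=
      Real.rpow_le_rpow (Real.rpow_nonneg (abs_nonneg _) _) h1 (by positivity)
    rw [← Real.rpow_mul (abs_nonneg _), mul_one_div_cancel hp0.ne', Real.rpow_one,
      ← Real.rpow_natCast, ← Real.rpow_mul (by positivity)] at h2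
    have e : ((2 : ℕ) : ℝ) * (1 / p) = 2 / p := by push_cast; ring
    rwa [e] at h2

/-- CHUNK REDUCE. PROOF. `exists_simple` with `δ = η * min_{i ≠ j} ‖x i - x j‖`, `ρ i j` = the finite norm for `i ≠ j`, `1` on the
diagonal, `exists_density`. -/
theorem exists_ptData (p : ℝ≥0∞) [Fact (1 ≤ p)] (hp1 : 1 < p) (hptop : p ≠ ⊤) {n : ℕ} (hn : 2 ≤ n)
    {α : Type u} [MeasurableSpace α] (μ : Measure α) (x : Fin n → Lp ℝ p μ) (hx : Function.Injective x)
    (η : ℝ) (hη : 0 < η) (hη1 : η < 1) :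
    ∃ (W : Type) (_ : Fintype W) (m : W → ℝ) (ρ : Fin n → Fin n → ℝ) (X : Fin n → W → ℝ),
      PtData p.toReal m ρ X ∧ ∀ i j, i ≠ j →
        (1 - η) * ‖x i - x j‖ ≤ ρ i j ∧ ρ i j ≤ (1 + η) * ‖x i - x j‖ := by
  classical
  have hp : 1 ≤ p.toReal := by
    have := ENNReal.toReal_mono hptop hp1.le
    simpa using this
  have hp0 : 0 < p.toReal := by linarith
  obtain ⟨⟨i₀, j₀⟩, hq₀, hmin⟩ := Finset.exists_min_image
    (Finset.univ.filter (fun q : Fin n × Fin n => q.1 ≠ q.2)) (fun q => ‖x q.1 - x q.2‖)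
    ⟨(⟨0, by omega⟩, ⟨1, by omega⟩), by simp⟩
  have hij : i₀ ≠ j₀ := by simpa using hq₀
  have hnz : ∀ i j, i ≠ j → 0 < ‖x i - x j‖ := by
    intro i j h
    rw [norm_pos_iff, sub_ne_zero]
    exact fun h' => h (hx h')
  set δ := η * ‖x i₀ - x j₀‖ with hδ
  have hδ0 : 0 < δ := mul_pos hη (hnz _ _ hij)
  have hδle : ∀ i j, i ≠ j → δ ≤ η * ‖x i - x j‖ := by
    intro i j h
    exact mul_le_mul_of_nonneg_left (hmin (i, j) (by simpa using h)) hη.le
  obtain ⟨N, m, Y, hm, hY⟩ := exists_simple p hptop μ x δ hδ0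
  set R : Fin n → Fin n → ℝ := fun i j =>
    (∑ w, m w * |Y i w - Y j w| ^ p.toReal) ^ (1 / p.toReal) with hR
  have hS0 : ∀ i j, 0 ≤ ∑ w, m w * |Y i w - Y j w| ^ p.toReal := fun i j =>
    Finset.sum_nonneg fun w _ => mul_nonneg (hm w) (Real.rpow_nonneg (abs_nonneg _) _)
  have hlow : ∀ i j, i ≠ j → (1 - η) * ‖x i - x j‖ ≤ R i j := by
    intro i j h
    have h1 := (abs_le.mp (hY i j)).1
    have h2 := hδle i j h
    simp only [hR]
    linarith
  have hup : ∀ i j, i ≠ j → R i j ≤ (1 + η) * ‖x i - x j‖ := by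
    intro i j h
    have h1 := (abs_le.mp (hY i j)).2
    have h2 := hδle i j h
    simp only [hR]
    linarith
  set ρ : Fin n → Fin n → ℝ := fun i j => if i = j then 1 else R i j with hρdef
  have hρpos : ∀ i j, 0 < ρ i j := by
    intro i j
    by_cases h : i = j
    · simp [hρdef, h]
    · simp only [hρdef, if_neg h]
      exact lt_of_lt_of_le (mul_pos (by linarith) (hnz i j h)) (hlow i j h)
  have hρs : ∀ i j, ρ i j = ρ j i := by
    intro i j
    by_cases h : i = j
    · simp [h]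
    · simp only [hρdef, if_neg h, if_neg (Ne.symm h), hR]
      congr 1
      exact Finset.sum_congr rfl fun w _ => by rw [abs_sub_comm]
  obtain ⟨W, hW, μ', X, hPt⟩ := exists_density p.toReal hp hn m hm Y ρ hρpos hρs (by
    intro i j h
    simp only [hρdef, if_neg h, hR]
    rw [← Real.rpow_mul (hS0 i j), one_div, inv_mul_cancel₀ hp0.ne', Real.rpow_one])
  refine ⟨W, hW, μ', ρ, X, hPt, fun i j h => ?_⟩
  have e : ρ i j = R i j := by simp only [hρdef, if_neg h]
  rw [e]
  exact ⟨hlow i j h, hup i j h⟩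

end Crest.Agent.LpDim
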