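import Crest.Agent.LpDim.MainFin
import Crest.Agent.LpDim.Reduce

/-!
Row 232, CHUNK FINAL: S0358.
-/

set_option autoImplicit false

namespace Crest.Agent.LpDim

open Finset MeasureTheory
open scoped ENNReal
universe u

/-- exponent comparison: `(1 + log n)^{|1-2/p|} ≤ C (log n)^γ` for `n ≥ 2`
(`1 + log n ≤ 3 log n`; for `p < 2` `2/p - 1 ≤ 2 - p` and `log n ≥ log 2`). -/
theorem rpow_compare (q : ℝ) (hq1 : 1 < q) (hq2 : q ≠ 2) : ∃ C : ℝ, 0 < C ∧ ∀ n : ℕ, 2 ≤ n →
    (1 + Real.log n) ^ |1 - 2 / q| ≤ C * Real.log n ^ (if q < 2 then 2 - q else 1 - 2 / q) := by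
  have hq0 : 0 < q := by linarith
  set γ : ℝ := if q < 2 then 2 - q else 1 - 2 / q with hγ
  have hle : |1 - 2 / q| ≤ γ := by
    rw [hγ]
    split_ifs with h
    · have h1 : 1 < 2 / q := by
        rw [lt_div_iff₀ hq0]
        linarith
      rw [abs_of_neg (by linarith)]
      have h2 : 2 / q ≤ 3 - q := by
        rw [div_le_iff₀ hq0]
        nlinarith
      linarith
    · have h1 : 2 / q ≤ 1 := by
        rw [div_le_one hq0]
        linarith
      rw [abs_of_nonneg (by linarith)]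
  refine ⟨(3 : ℝ) ^ γ, Real.rpow_pos_of_pos (by norm_num) _, ?_⟩
  intro n hn
  have hn2 : (2 : ℝ) ≤ n := by exact_mod_cast hn
  have hlog : Real.log 2 ≤ Real.log n := Real.log_le_log (by norm_num) hn2
  have hl2 := Real.log_two_gt_d9
  have hlog0 : 0 < Real.log n := by linarith
  have h3 : 1 ≤ 3 * Real.log n := by linarith
  calc (1 + Real.log n) ^ |1 - 2 / q| ≤ (3 * Real.log n) ^ |1 - 2 / q| :=
        Real.rpow_le_rpow (by linarith) (by linarith) (abs_nonneg _)
    _ ≤ (3 * Real.log n) ^ γ := Real.rpow_le_rpow_of_exponent_le h3 hle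
    _ = (3 : ℝ) ^ γ * Real.log n ^ γ := Real.mul_rpow (by norm_num) hlog0.le

private theorem rpow_inv_ge {e q : ℝ} (he0 : 0 < e) (he1 : e < 1) (hq : 1 < q) :
    1 - e ≤ (1 - e) ^ (1 / q) := by
  have hq0 : 0 < q := by linarith
  have h : (1 - e) ^ (1 : ℝ) ≤ (1 - e) ^ (1 / q) := by
    refine Real.rpow_le_rpow_of_exponent_ge (by linarith) (by linarith) ?_
    rw [div_le_one hq0]
    exact hq.le
  rwa [Real.rpow_one] at h

private theorem rpow_inv_le {e q : ℝ} (he0 : 0 < e) (hq : 1 < q) :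
    (1 + e) ^ (1 / q) ≤ 1 + e := by
  have hq0 : 0 < q := by linarith
  have h : (1 + e) ^ (1 / q) ≤ (1 + e) ^ (1 : ℝ) := by
    refine Real.rpow_le_rpow_of_exponent_le (by linarith) ?_
    rw [div_le_one hq0]
    exact hq.le
  rwa [Real.rpow_one] at h

theorem S0358_aux
    (p : ℝ≥0∞) [Fact (1 ≤ p)] (hp1 : 1 < p) (hptop : p ≠ ⊤) (hp2 : p ≠ 2)
    (D : ℝ) (hD : 1 < D) :
    ∃ C : ℝ, ∀ (n : ℕ), 2 ≤ n →
      ∀ (α : Type u) [MeasurableSpace α] (μ : Measure α) (x : Fin n → Lp ℝ p μ),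
        Function.Injective x →
        ∃ d : ℕ, (d : ℝ) ≤ Real.exp (C * Real.log n ^ (if p.toReal < 2 then 2 - p.toReal else 1 - 2 / p.toReal)) ∧
          ∃ (y : Fin n → PiLp p (fun _ : Fin d => ℝ)) (s : ℝ), 0 < s ∧
            ∀ i j, s * ‖x i - x j‖ ≤ ‖y i - y j‖ ∧ ‖y i - y j‖ ≤ D * s * ‖x i - x j‖ := by
  have hq1 : 1 < p.toReal := by
    have := (ENNReal.toReal_lt_toReal ENNReal.one_ne_top hptop).mpr hp1
    simpa using this
  have hq2 : p.toReal ≠ 2 := by
    intro h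
    apply hp2
    have h2 : p = ENNReal.ofReal 2 := by rw [← h, ENNReal.ofReal_toReal hptop]
    rw [h2]
    simp
  have hq0 : 0 < p.toReal := by linarith
  -- the parameter
  set r : ℝ := Real.sqrt D with hr
  have hr2 : r ^ 2 = D := Real.sq_sqrt (by linarith)
  have hr1 : 1 < r := by
    rw [hr, Real.lt_sqrt (by norm_num)]
    linarith
  obtain ⟨e, he⟩ : ∃ e : ℝ, e = (r - 1) / (r + 1) := ⟨_, rfl⟩
  have hrp : 0 < r + 1 := by linarith
  have he0 : 0 < e := by
    rw [he]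
    exact div_pos (by linarith) hrp
  have he1 : e < 1 := by
    rw [he, div_lt_one hrp]
    linarith
  have hre : 1 + e = r * (1 - e) := by
    rw [he]
    field_simp
    ring
  obtain ⟨C, hC, hmain⟩ := main_finite p.toReal hq1 hq2 e he0 he1.le
  obtain ⟨C', hC', hcmp⟩ := rpow_compare p.toReal hq1 hq2
  refine ⟨C * C', ?_⟩
  intro n hn α _ μ x hx
  obtain ⟨W, instW, m, ρ, X, hP, hρ⟩ := exists_ptData p hp1 hptop hn μ x hx e he0 he1
  obtain ⟨d, y, hd, hy⟩ := hmain n W m ρ X hP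
  refine ⟨d, ?_, fun i => WithLp.toLp p (y i), (1 - e) ^ 2, by nlinarith [sq_pos_of_pos (sub_pos.mpr he1)], ?_⟩
  · refine hd.trans ?_
    rw [Real.exp_le_exp, mul_assoc]
    exact mul_le_mul_of_nonneg_left (hcmp n hn) (by linarith)
  · intro i j
    by_cases hij : i = j
    · subst hij
      simp
    · obtain ⟨h1, h2⟩ := hy i j hij
      obtain ⟨h3, h4⟩ := hρ i j hij
      have hx0 : 0 ≤ ‖x i - x j‖ := norm_nonneg _
      have hρ0 : 0 ≤ ρ i j := le_trans (mul_nonneg (by linarith) hx0) h3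
      have hnorm : ‖WithLp.toLp p (y i) - WithLp.toLp p (y j)‖ =
          (∑ r, |y i r - y j r| ^ p.toReal) ^ (1 / p.toReal) := by
        rw [PiLp.norm_eq_sum hq0]
        rfl
      have hlow : (1 - e) * ρ i j ≤ ‖WithLp.toLp p (y i) - WithLp.toLp p (y j)‖ := by
        rw [hnorm]
        calc (1 - e) * ρ i j ≤ (1 - e) ^ (1 / p.toReal) * ρ i j :=
              mul_le_mul_of_nonneg_right (rpow_inv_ge he0 he1 hq1) hρ0
          _ = ((1 - e) * ρ i j ^ p.toReal) ^ (1 / p.toReal) := by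
              rw [Real.mul_rpow (by linarith) (Real.rpow_nonneg hρ0 _), ← Real.rpow_mul hρ0,
                mul_one_div_cancel hq0.ne', Real.rpow_one]
          _ ≤ _ := Real.rpow_le_rpow (mul_nonneg (by linarith) (Real.rpow_nonneg hρ0 _)) h1
              (by positivity)
      have hup : ‖WithLp.toLp p (y i) - WithLp.toLp p (y j)‖ ≤ (1 + e) * ρ i j := by
        rw [hnorm]
        calc (∑ r, |y i r - y j r| ^ p.toReal) ^ (1 / p.toReal)
            ≤ ((1 + e) * ρ i j ^ p.toReal) ^ (1 / p.toReal) :=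
              Real.rpow_le_rpow (Finset.sum_nonneg fun r _ => Real.rpow_nonneg (abs_nonneg _) _) h2
                (by positivity)
          _ = (1 + e) ^ (1 / p.toReal) * ρ i j := by
              rw [Real.mul_rpow (by linarith) (Real.rpow_nonneg hρ0 _), ← Real.rpow_mul hρ0,
                mul_one_div_cancel hq0.ne', Real.rpow_one]
          _ ≤ (1 + e) * ρ i j := mul_le_mul_of_nonneg_right (rpow_inv_le he0 hq1) hρ0
      constructor
      · calc (1 - e) ^ 2 * ‖x i - x j‖ = (1 - e) * ((1 - e) * ‖x i - x j‖) := by ring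
          _ ≤ (1 - e) * ρ i j := mul_le_mul_of_nonneg_left h3 (by linarith)
          _ ≤ _ := hlow
      · calc ‖WithLp.toLp p (y i) - WithLp.toLp p (y j)‖ ≤ (1 + e) * ρ i j := hup
          _ ≤ (1 + e) * ((1 + e) * ‖x i - x j‖) := mul_le_mul_of_nonneg_left h4 (by linarith)
          _ = D * (1 - e) ^ 2 * ‖x i - x j‖ := by
              rw [hre, ← hr2]
              ring

end Crest.Agent.LpDim
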