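import Crest.Agent.LpDim.Kernel

/-!
Row 232, CHUNK HEAT: discrete heat kernel.
-/

set_option autoImplicit false

namespace Crest.Agent.LpDim

open Finset

variable {V : Type} [Fintype V] [DecidableEq V] {ν : V → ℝ} {K : V → V → ℝ}

theorem hk_nonneg (h : LRK ν K) (t : ℕ) (x z : V) : 0 ≤ hk ν K t x z := by
  induction t generalizing x z with
  | zero =>
    simp only [hk]
    split_ifs
    · exact (inv_pos.mpr (h.nu_pos z)).le
    · exact le_refl _
  | succ t ih =>
    simp only [hk]
    exact Finset.sum_nonneg fun y _ => mul_nonneg (h.nonneg x y) (ih y z)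

private theorem heat_succ_app (t : ℕ) (x z : V) :
    hk ν K (t + 1) x z = app K (fun x => hk ν K t x z) x := rfl

/-- `∑_x ν x h_t(x,z) = 1` (stationarity) -/
theorem hk_sum (h : LRK ν K) (t : ℕ) (z : V) : ∑ x, ν x * hk ν K t x z = 1 := by
  induction t with
  | zero =>
    simp only [hk, mul_ite, mul_zero]
    rw [Finset.sum_ite_eq' Finset.univ z (fun x => ν x * (ν z)⁻¹)]
    simp [mul_inv_cancel₀ (h.nu_pos z).ne']
  | succ t ih =>
    simp only [heat_succ_app]
    rw [stationary h]
    exact ih

private theorem heat_zero_mul (h : LRK ν K) (x z : V) (g : V → ℝ) :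
    ∑ z, ν z * (hk ν K 0 x z * g z) = g x := by
  simp only [hk, ite_mul, zero_mul, mul_ite, mul_zero]
  rw [Finset.sum_ite_eq Finset.univ x]
  simp only [Finset.mem_univ, if_true]
  rw [← mul_assoc, mul_inv_cancel₀ (h.nu_pos x).ne', one_mul]

/-- iterates of the kernel: `K^t g (x) = ∑_z ν z h_t(x,z) g z`. -/
theorem iterate_app (h : LRK ν K) (t : ℕ) (g : V → ℝ) (x : V) :
    ((app K)^[t]) g x = ∑ z, ν z * (hk ν K t x z * g z) := by
  induction t generalizing x with
  | zero =>
    rw [Function.iterate_zero, id, heat_zero_mul h x x g]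
  | succ t ih =>
    rw [Function.iterate_succ_apply']
    simp only [app, hk]
    have : ∀ y, K x y * ((app K)^[t]) g y = ∑ z, K x y * (ν z * (hk ν K t y z * g z)) := by
      intro y; rw [ih y, Finset.mul_sum]
    simp only [this]
    rw [Finset.sum_comm]
    refine Finset.sum_congr rfl fun z _ => ?_
    rw [Finset.sum_mul, Finset.mul_sum]
    exact Finset.sum_congr rfl fun y _ => by ring

/-- commutation and symmetry -/
private theorem heat_symm_aux (h : LRK ν K) (t : ℕ) :
    (∀ x z, hk ν K t x z = hk ν K t z x) ∧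
      (∀ x z, hk ν K (t + 1) x z = ∑ y, hk ν K t x y * K z y) := by
  induction t with
  | zero =>
    have h0 : ∀ x z, hk ν K 0 x z = hk ν K 0 z x := by
      intro x z
      simp only [hk]
      by_cases hxz : x = z
      · subst hxz; rfl
      · rw [if_neg hxz, if_neg (Ne.symm hxz)]
    refine ⟨h0, fun x z => ?_⟩
    have e1 : hk ν K 1 x z = K x z * (ν z)⁻¹ := by
      simp only [hk, mul_ite, mul_zero]
      rw [Finset.sum_ite_eq' Finset.univ z (fun y => K x y * (ν z)⁻¹)]
      simp
    have e2 : ∑ y, hk ν K 0 x y * K z y = (ν x)⁻¹ * K z x := by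
      simp only [hk, ite_mul, zero_mul]
      rw [Finset.sum_ite_eq Finset.univ x (fun y => (ν y)⁻¹ * K z y)]
      simp
    rw [e1, e2]
    have hx := (h.nu_pos x).ne'
    have hz := (h.nu_pos z).ne'
    have hr := h.rev x z
    field_simp
    linarith
  | succ t ih =>
    obtain ⟨ihs, ihc⟩ := ih
    have hs : ∀ x z, hk ν K (t + 1) x z = hk ν K (t + 1) z x := by
      intro x z
      rw [ihc x z]
      simp only [hk]
      exact Finset.sum_congr rfl fun y _ => by rw [ihs x y, mul_comm]
    refine ⟨hs, fun x z => ?_⟩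
    have e1 : hk ν K (t + 1 + 1) x z = ∑ y, K x y * hk ν K (t + 1) y z := rfl
    rw [e1]
    have e2 : ∀ y, K x y * hk ν K (t + 1) y z = ∑ u, K x y * (hk ν K t y u * K z u) := by
      intro y; rw [ihc y z, Finset.mul_sum]
    have e3 : ∀ y, hk ν K (t + 1) x y * K z y = ∑ u, K x u * hk ν K t u y * K z y := by
      intro y; simp only [hk]; rw [Finset.sum_mul]
    simp only [e2, e3]
    rw [Finset.sum_comm]
    exact Finset.sum_congr rfl fun y _ => Finset.sum_congr rfl fun u _ => by ring

/-- commutation: `∑_y K x y h_t(y,z) = ∑_y h_t(x,y) K z y` hence symmetry. (Prove symmetry together with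
`h_{t+1}(x,z) = ∑_y h_t(x,y) K(z,y)` by induction, using `K y z / ν z = K z y / ν y`.) -/
theorem hk_symm (h : LRK ν K) (t : ℕ) (x z : V) : hk ν K t x z = hk ν K t z x :=
  (heat_symm_aux h t).1 x z

/-- semigroup property (induction on `s`) -/
theorem hk_add (h : LRK ν K) (s t : ℕ) (x y : V) :
    hk ν K (s + t) x y = ∑ z, ν z * (hk ν K s x z * hk ν K t z y) := by
  induction s generalizing x with
  | zero => rw [heat_zero_mul h x x (fun z => hk ν K t z y), Nat.zero_add]
  | succ s ih =>
    have e0 : s + 1 + t = s + t + 1 := by omega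
    rw [e0]
    have e1 : hk ν K (s + t + 1) x y = ∑ u, K x u * hk ν K (s + t) u y := rfl
    rw [e1]
    have e2 : ∀ u, K x u * hk ν K (s + t) u y =
        ∑ z, K x u * (ν z * (hk ν K s u z * hk ν K t z y)) := by
      intro u; rw [ih u, Finset.mul_sum]
    simp only [e2]
    rw [Finset.sum_comm]
    refine Finset.sum_congr rfl fun z _ => ?_
    simp only [hk]
    rw [Finset.sum_mul, Finset.mul_sum]
    exact Finset.sum_congr rfl fun u _ => by ring

/-- the kernel at time `t + 1` is `K` applied to the kernel at time `t` -/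
theorem hk_succ (t : ℕ) (z : V) :
    (fun x => hk ν K (t + 1) x z) = app K (fun x => hk ν K t x z) := rfl

/-- initial entropy: `Ent (h_0(.,z)) = log (1/ν z)` -/
theorem ent_zero (h : LRK ν K) (z : V) :
    Ent ν (fun x => hk ν K 0 x z) = Real.log (ν z)⁻¹ := by
  unfold Ent
  rw [Finset.sum_eq_single z]
  · simp only [hk, if_true]
    rw [← mul_assoc, mul_inv_cancel₀ (h.nu_pos z).ne', one_mul]
  · intro b _ hb
    simp only [hk, if_neg hb, zero_mul, mul_zero]
  · intro hz; exact absurd (Finset.mem_univ z) hz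

/-- energies tend to zero along the iterates: `∑_t (1/2) ∑∑ ν K (δ K^t g)² ≤ ∑ ν g²` by `energy_decr`. -/
theorem energy_tendsto (h : LRK ν K) (g : V → ℝ) :
    Filter.Tendsto (fun t => ∑ x, ∑ y, ν x * K x y * (((app K)^[t]) g x - ((app K)^[t]) g y) ^ 2)
      Filter.atTop (nhds 0) := by
  set E : ℕ → ℝ := fun t =>
    ∑ x, ∑ y, ν x * K x y * (((app K)^[t]) g x - ((app K)^[t]) g y) ^ 2 with hE
  set A : ℕ → ℝ := fun t => ∑ x, ν x * (((app K)^[t]) g x) ^ 2 with hA
  have hEnn : ∀ t, 0 ≤ E t := fun t => Finset.sum_nonneg fun x _ => Finset.sum_nonneg fun y _ =>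
    mul_nonneg (mul_nonneg (h.nu_pos x).le (h.nonneg x y)) (sq_nonneg _)
  have hAnn : ∀ t, 0 ≤ A t := fun t => Finset.sum_nonneg fun x _ =>
    mul_nonneg (h.nu_pos x).le (sq_nonneg _)
  have step : ∀ t, A (t + 1) ≤ A t - 1 / 2 * E t := by
    intro t
    have := energy_decr h (((app K)^[t]) g)
    simp only [hA, hE, Function.iterate_succ_apply']
    exact this
  have part : ∀ n, ∑ t ∈ Finset.range n, E t ≤ 2 * A 0 - 2 * A n := by
    intro n
    induction n with
    | zero => simp
    | succ n ih =>
      rw [Finset.sum_range_succ]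
      have := step n
      linarith
  have hsum : Summable E := by
    refine summable_of_sum_range_le (c := 2 * A 0) hEnn fun n => ?_
    have := part n
    have := hAnn n
    linarith
  exact hsum.tendsto_atTop_zero

end Crest.Agent.LpDim
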