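import Mathlib

/-!
Row 232, S0359: scalar inequalities (strict Clarkson inequality, strict convexity) and the computation of norms.
-/

set_option autoImplicit false

namespace Crest.Agent.LpDim

open Finset MeasureTheory
open scoped ENNReal

/-- Clarkson defect -/
noncomputable def cdef (q a b : ℝ) : ℝ := |a + b| ^ q + |a - b| ^ q - 2 * (|a| ^ q + |b| ^ q)

theorem cdef_zero_right {q : ℝ} (hq : 0 < q) (a : ℝ) : cdef q a 0 = 0 := by
  simp [cdef, Real.zero_rpow hq.ne']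
  ring

theorem cdef_zero_left {q : ℝ} (hq : 0 < q) (b : ℝ) : cdef q 0 b = 0 := by
  simp [cdef, Real.zero_rpow hq.ne']
  ring

theorem rpow_sq_half {q : ℝ} (a : ℝ) : (a ^ 2) ^ (q / 2) = |a| ^ q := by
  rw [← sq_abs, ← Real.rpow_natCast, ← Real.rpow_mul (abs_nonneg a)]
  congr 1
  push_cast
  ring

theorem cdef_gt {q : ℝ} (hq : 2 < q) (a b : ℝ) : 0 ≤ cdef q a b ∧ (cdef q a b = 0 → a = 0 ∨ b = 0) := by
  have hr : 1 < q / 2 := by linarith
  have h1 : 2 * (a ^ 2 + b ^ 2) ^ (q / 2) ≤ |a + b| ^ q + |a - b| ^ q := by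
    have hconv := (convexOn_rpow hr.le).2 (Set.mem_Ici.2 (sq_nonneg (a + b)))
      (Set.mem_Ici.2 (sq_nonneg (a - b))) (by norm_num : (0 : ℝ) ≤ 1 / 2)
      (by norm_num : (0 : ℝ) ≤ 1 / 2) (by norm_num : (1 / 2 : ℝ) + 1 / 2 = 1)
    simp only [smul_eq_mul] at hconv
    rw [rpow_sq_half, rpow_sq_half] at hconv
    have e : 1 / 2 * (a + b) ^ 2 + 1 / 2 * (a - b) ^ 2 = a ^ 2 + b ^ 2 := by ring
    rw [e] at hconv
    linarith
  by_cases ha : a = 0
  · subst ha
    rw [cdef_zero_left (by linarith)]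
    exact ⟨le_rfl, fun _ => Or.inl rfl⟩
  by_cases hb : b = 0
  · subst hb
    rw [cdef_zero_right (by linarith)]
    exact ⟨le_rfl, fun _ => Or.inr rfl⟩
  have ha2 : 0 < a ^ 2 := by positivity
  have hb2 : 0 < b ^ 2 := by positivity
  have h2 : |a| ^ q + |b| ^ q < (a ^ 2 + b ^ 2) ^ (q / 2) := by
    rw [← rpow_sq_half a, ← rpow_sq_half b]
    have e : ∀ x : ℝ, 0 < x → x ^ (q / 2) = x * x ^ (q / 2 - 1) := by
      intro x hx
      rw [Real.rpow_sub_one hx.ne']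
      field_simp
    rw [e _ ha2, e _ hb2, e _ (add_pos ha2 hb2), add_mul]
    have h3 : (a ^ 2) ^ (q / 2 - 1) < (a ^ 2 + b ^ 2) ^ (q / 2 - 1) :=
      Real.rpow_lt_rpow ha2.le (by linarith) (by linarith)
    have h4 : (b ^ 2) ^ (q / 2 - 1) < (a ^ 2 + b ^ 2) ^ (q / 2 - 1) :=
      Real.rpow_lt_rpow hb2.le (by linarith) (by linarith)
    exact add_lt_add (mul_lt_mul_of_pos_left h3 ha2) (mul_lt_mul_of_pos_left h4 hb2)
  have h5 : 0 < cdef q a b := by
    unfold cdef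
    linarith
  exact ⟨h5.le, fun h => absurd h h5.ne'⟩

theorem cdef_lt {q : ℝ} (hq0 : 0 < q) (hq : q < 2) (a b : ℝ) :
    cdef q a b ≤ 0 ∧ (cdef q a b = 0 → a = 0 ∨ b = 0) := by
  have hr : q / 2 < 1 := by linarith
  have h1 : |a + b| ^ q + |a - b| ^ q ≤ 2 * (a ^ 2 + b ^ 2) ^ (q / 2) := by
    have hconv := (Real.concaveOn_rpow (p := q / 2) (by positivity) hr.le).2
      (Set.mem_Ici.2 (sq_nonneg (a + b)))
      (Set.mem_Ici.2 (sq_nonneg (a - b))) (by norm_num : (0 : ℝ) ≤ 1 / 2)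
      (by norm_num : (0 : ℝ) ≤ 1 / 2) (by norm_num : (1 / 2 : ℝ) + 1 / 2 = 1)
    simp only [smul_eq_mul] at hconv
    rw [rpow_sq_half, rpow_sq_half] at hconv
    have e : 1 / 2 * (a + b) ^ 2 + 1 / 2 * (a - b) ^ 2 = a ^ 2 + b ^ 2 := by ring
    rw [e] at hconv
    linarith
  by_cases ha : a = 0
  · subst ha
    rw [cdef_zero_left (by linarith)]
    exact ⟨le_rfl, fun _ => Or.inl rfl⟩
  by_cases hb : b = 0
  · subst hb
    rw [cdef_zero_right (by linarith)]
    exact ⟨le_rfl, fun _ => Or.inr rfl⟩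
  have ha2 : 0 < a ^ 2 := by positivity
  have hb2 : 0 < b ^ 2 := by positivity
  have h2 : (a ^ 2 + b ^ 2) ^ (q / 2) < |a| ^ q + |b| ^ q := by
    rw [← rpow_sq_half a, ← rpow_sq_half b]
    have e : ∀ x : ℝ, 0 < x → x ^ (q / 2) = x * x ^ (q / 2 - 1) := by
      intro x hx
      rw [Real.rpow_sub_one hx.ne']
      field_simp
    rw [e _ ha2, e _ hb2, e _ (add_pos ha2 hb2), add_mul]
    have h3 : (a ^ 2 + b ^ 2) ^ (q / 2 - 1) < (a ^ 2) ^ (q / 2 - 1) :=
      Real.rpow_lt_rpow_of_neg ha2 (by linarith) (by linarith)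
    have h4 : (a ^ 2 + b ^ 2) ^ (q / 2 - 1) < (b ^ 2) ^ (q / 2 - 1) :=
      Real.rpow_lt_rpow_of_neg hb2 (by linarith) (by linarith)
    exact add_lt_add (mul_lt_mul_of_pos_left h3 ha2) (mul_lt_mul_of_pos_left h4 hb2)
  have h5 : cdef q a b < 0 := by
    unfold cdef
    linarith
  exact ⟨h5.le, fun h => absurd h h5.ne⟩

/-- the sum of the Clarkson defects vanishes iff the supports are disjoint -/
theorem sum_cdef_eq_zero_iff {ι : Type} [Fintype ι] {q : ℝ} (hq : 0 < q) (hq2 : q ≠ 2) (F G : ι → ℝ) :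
    ∑ r, cdef q (F r) (G r) = 0 ↔ ∀ r, F r = 0 ∨ G r = 0 := by
  constructor
  · intro h
    rcases lt_or_gt_of_ne hq2 with h2 | h2
    · have := (Finset.sum_eq_zero_iff_of_nonpos (fun r _ => (cdef_lt hq h2 (F r) (G r)).1)).1 h
      exact fun r => (cdef_lt hq h2 (F r) (G r)).2 (this r (mem_univ r))
    · have := (Finset.sum_eq_zero_iff_of_nonneg (fun r _ => (cdef_gt h2 (F r) (G r)).1)).1 h
      exact fun r => (cdef_gt h2 (F r) (G r)).2 (this r (mem_univ r))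
  · intro h
    refine Finset.sum_eq_zero fun r _ => ?_
    rcases h r with h | h
    · rw [h, cdef_zero_left hq]
    · rw [h, cdef_zero_right hq]

/-- strict midpoint convexity of `|·|^q` -/
theorem scal_convex {q : ℝ} (hq : 1 < q) (u v : ℝ) :
    |u + v| ^ q ≤ 2 ^ q * ((|u| ^ q + |v| ^ q) / 2) ∧
      (|u + v| ^ q = 2 ^ q * ((|u| ^ q + |v| ^ q) / 2) → u = v) := by
  have h0 : |u + v| ^ q ≤ (|u| + |v|) ^ q :=
    Real.rpow_le_rpow (abs_nonneg _) (abs_add_le u v) (by linarith)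
  have h2q : (0 : ℝ) < 2 ^ q := by positivity
  by_cases huv : |u| = |v|
  · have e : (|u| + |v|) ^ q = 2 ^ q * ((|u| ^ q + |v| ^ q) / 2) := by
      rw [← huv, ← two_mul, Real.mul_rpow (by norm_num) (abs_nonneg _)]
      ring
    refine ⟨h0.trans e.le, fun h => ?_⟩
    rw [← e] at h
    have h3 : |u + v| = |u| + |v| := by
      have hq0 : q ≠ 0 := by linarith
      have := congrArg (fun x : ℝ => x ^ (1 / q)) h
      rwa [← Real.rpow_mul (abs_nonneg _), ← Real.rpow_mul (by positivity), mul_one_div_cancel hq0,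
        Real.rpow_one, Real.rpow_one] at this
    rcases abs_eq_abs.1 huv with h4 | h4
    · exact h4
    · rw [h4, neg_add_cancel, abs_zero, abs_neg] at h3
      have h5 : |v| = 0 := by linarith [abs_nonneg v]
      have h6 : v = 0 := abs_eq_zero.1 h5
      rw [h4, h6]; simp
  · have hs := (strictConvexOn_rpow hq).2 (show |u| ∈ Set.Ici (0 : ℝ) from abs_nonneg u)
      (show |v| ∈ Set.Ici (0 : ℝ) from abs_nonneg v) huv (by norm_num : (0 : ℝ) < 1 / 2)
      (by norm_num : (0 : ℝ) < 1 / 2) (by norm_num : (1 / 2 : ℝ) + 1 / 2 = 1)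
    simp only [smul_eq_mul] at hs
    have e : (|u| + |v|) ^ q = 2 ^ q * (1 / 2 * |u| + 1 / 2 * |v|) ^ q := by
      rw [← Real.mul_rpow (by norm_num) (by positivity)]
      congr 1
      ring
    have h5 : |u + v| ^ q < 2 ^ q * ((|u| ^ q + |v| ^ q) / 2) := by
      refine h0.trans_lt ?_
      rw [e]
      refine mul_lt_mul_of_pos_left ?_ h2q
      linarith
    exact ⟨h5.le, fun h => absurd h h5.ne⟩

/-- if `|F| = |F'| = a`, `|F - F'| = 2 a` (norms of `ℓ_q`) then `F' = - F` -/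
theorem opp_of_norms {ι : Type} [Fintype ι] {q : ℝ} (hq : 1 < q) (F F' : ι → ℝ) (a : ℝ)
    (h1 : ∑ r, |F r| ^ q = a) (h2 : ∑ r, |F' r| ^ q = a) (h3 : ∑ r, |F r - F' r| ^ q = 2 ^ q * a) (r : ι) :
    F' r = - F r := by
  have key : ∀ r, |F r + (-F' r)| ^ q = 2 ^ q * ((|F r| ^ q + |-F' r| ^ q) / 2) := by
    have hle : ∀ r ∈ (univ : Finset ι), |F r + (-F' r)| ^ q ≤ 2 ^ q * ((|F r| ^ q + |-F' r| ^ q) / 2) :=
      fun r _ => (scal_convex hq (F r) (-F' r)).1
    have hsum : ∑ r, |F r + (-F' r)| ^ q = ∑ r, 2 ^ q * ((|F r| ^ q + |-F' r| ^ q) / 2) := by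
      simp only [abs_neg, ← sub_eq_add_neg]
      rw [h3, ← mul_sum, ← sum_div, sum_add_distrib, h1, h2]
      ring
    intro r
    exact (Finset.sum_eq_sum_iff_of_le hle).1 hsum r (mem_univ r)
  have := (scal_convex hq (F r) (-F' r)).2 (key r)
  linarith

/-- `q`-th power of the norm in `ℓ_p^d` -/
theorem piLp_norm_rpow {d : ℕ} (p : ℝ≥0∞) [Fact (1 ≤ p)] (hp : 0 < p.toReal) (f : PiLp p (fun _ : Fin d => ℝ)) :
    ‖f‖ ^ p.toReal = ∑ r, |f r| ^ p.toReal := by
  rw [PiLp.norm_eq_sum hp, ← Real.rpow_mul (sum_nonneg fun _ _ => by positivity),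
    one_div_mul_cancel hp.ne', Real.rpow_one]
  rfl

/-- functions on a finite set as elements of `L_p` of the counting measure -/
noncomputable def ofFun {α : Type} [Fintype α] [MeasurableSpace α] [DiscreteMeasurableSpace α]
    (p : ℝ≥0∞) (f : α → ℝ) : Lp ℝ p (Measure.count : Measure α) :=
  (MemLp.of_discrete (f := f) (p := p) (μ := (Measure.count : Measure α))).toLp f

theorem ofFun_sub {α : Type} [Fintype α] [MeasurableSpace α] [DiscreteMeasurableSpace α]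
    (p : ℝ≥0∞) (f g : α → ℝ) : ofFun p f - ofFun p g = ofFun p (fun a => f a - g a) := rfl

theorem ofFun_norm {α : Type} [Fintype α] [MeasurableSpace α] [DiscreteMeasurableSpace α]
    (p : ℝ≥0∞) [Fact (1 ≤ p)] (hp0 : p ≠ 0) (hptop : p ≠ ⊤) (f : α → ℝ) :
    ‖ofFun p f‖ ^ p.toReal = ∑ a, |f a| ^ p.toReal := by
  have hq : 0 < p.toReal := ENNReal.toReal_pos hp0 hptop
  unfold ofFun
  rw [Lp.norm_toLp, eLpNorm_eq_lintegral_rpow_enorm_toReal hp0 hptop, lintegral_count, tsum_fintype,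
    ← ENNReal.toReal_rpow, ← Real.rpow_mul ENNReal.toReal_nonneg, one_div_mul_cancel hq.ne', Real.rpow_one,
    ENNReal.toReal_sum]
  · refine sum_congr rfl fun a _ => ?_
    rw [← ENNReal.toReal_rpow, toReal_enorm]
    rfl
  · intro a _
    exact ENNReal.rpow_ne_top_of_nonneg hq.le enorm_ne_top

end Crest.Agent.LpDim
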