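import Crest.Agent.LpDim.Defs

/-!
Row 232, CHUNK KERNEL: variance and entropy decrease of a lazy reversible kernel.
-/

set_option autoImplicit false

namespace Crest.Agent.LpDim

open Finset

variable {V : Type} [Fintype V]

/-- Variance lemma. `k` a probability vector with `k x₀ ≥ 1/2`.
PROOF. `∑ k f² - (∑ k f)² = (1/2) ∑_{y,y'} k y k y' (f y - f y')²`; keep the terms `(x₀,y)` and `(y,x₀)`, `y ≠ x₀`:
this is `≥ ∑_y k x₀ k y (f x₀ - f y)² ≥ (1/2) ∑_y k y (f x₀ - f y)²`. -/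
theorem var_ge (k : V → ℝ) (hk : ∀ y, 0 ≤ k y) (hk1 : ∑ y, k y = 1) (x₀ : V) (hx : 1 / 2 ≤ k x₀)
    (f : V → ℝ) :
    1 / 2 * ∑ y, k y * (f x₀ - f y) ^ 2 ≤ ∑ y, k y * f y ^ 2 - (∑ y, k y * f y) ^ 2 := by
  classical
  set c := f x₀ with hc
  set g : V → ℝ := fun y => f y - c with hg
  have hg0 : g x₀ = 0 := by simp [hg, hc]
  have e1 : ∑ y, k y * (c - f y) ^ 2 = ∑ y, k y * g y ^ 2 := by
    refine Finset.sum_congr rfl fun y _ => ?_
    simp only [hg]; ring
  have e2 : ∑ y, k y * f y = ∑ y, k y * g y + c := by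
    have : ∑ y, k y * f y = ∑ y, (k y * g y + k y * c) := by
      refine Finset.sum_congr rfl fun y _ => ?_
      simp only [hg]; ring
    rw [this, Finset.sum_add_distrib, ← Finset.sum_mul, hk1, one_mul]
  have e3 : ∑ y, k y * f y ^ 2 = ∑ y, k y * g y ^ 2 + 2 * c * (∑ y, k y * g y) + c ^ 2 := by
    have : ∑ y, k y * f y ^ 2 = ∑ y, (k y * g y ^ 2 + 2 * c * (k y * g y) + k y * c ^ 2) := by
      refine Finset.sum_congr rfl fun y _ => ?_
      simp only [hg]; ring
    rw [this, Finset.sum_add_distrib, Finset.sum_add_distrib, ← Finset.sum_mul, hk1, one_mul,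
      ← Finset.mul_sum]
  have hcs : (∑ y ∈ Finset.univ.erase x₀, k y * g y) ^ 2 ≤
      (∑ y ∈ Finset.univ.erase x₀, k y) * ∑ y ∈ Finset.univ.erase x₀, k y * g y ^ 2 := by
    refine Finset.sum_sq_le_sum_mul_sum_of_sq_eq_mul _ (fun i _ => hk i)
      (fun i _ => mul_nonneg (hk i) (sq_nonneg _)) (fun i _ => by ring)
  have s1 : ∑ y ∈ Finset.univ.erase x₀, k y * g y = ∑ y, k y * g y := by
    rw [← Finset.add_sum_erase Finset.univ (fun y => k y * g y) (Finset.mem_univ x₀), hg0]; ring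
  have s2 : ∑ y ∈ Finset.univ.erase x₀, k y * g y ^ 2 = ∑ y, k y * g y ^ 2 := by
    rw [← Finset.add_sum_erase Finset.univ (fun y => k y * g y ^ 2) (Finset.mem_univ x₀), hg0]
    ring
  have s3 : ∑ y ∈ Finset.univ.erase x₀, k y ≤ 1 / 2 := by
    have := Finset.add_sum_erase Finset.univ k (Finset.mem_univ x₀)
    linarith
  have s4 : 0 ≤ ∑ y, k y * g y ^ 2 :=
    Finset.sum_nonneg fun y _ => mul_nonneg (hk y) (sq_nonneg _)
  rw [s1, s2] at hcs
  rw [e1, e2, e3]
  nlinarith [mul_le_mul_of_nonneg_right s3 s4]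

/-- `a log a - a log m - a + m ≥ (√a - √m)²` for `a ≥ 0`, `m > 0`
(`log u ≥ 1 - 1/u` with `u = √(a/m)`; `a = 0` is clear). -/
theorem bregman_ge (a m : ℝ) (ha : 0 ≤ a) (hm : 0 < m) :
    (√a - √m) ^ 2 ≤ a * Real.log a - a * Real.log m - a + m := by
  rcases ha.eq_or_lt with h0 | hpos
  · subst h0
    simp [Real.sq_sqrt hm.le]
  · have hs : 0 < √a := Real.sqrt_pos.mpr hpos
    have ht : 0 < √m := Real.sqrt_pos.mpr hm
    have ea : a = √a ^ 2 := (Real.sq_sqrt hpos.le).symm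
    have em : m = √m ^ 2 := (Real.sq_sqrt hm.le).symm
    have la : Real.log a = 2 * Real.log (√a) := by
      conv_lhs => rw [ea]
      rw [Real.log_pow]; norm_num
    have lm : Real.log m = 2 * Real.log (√m) := by
      conv_lhs => rw [em]
      rw [Real.log_pow]; norm_num
    have hlog : 1 - (√a / √m)⁻¹ ≤ Real.log (√a / √m) :=
      Real.one_sub_inv_le_log_of_pos (div_pos hs ht)
    rw [Real.log_div hs.ne' ht.ne'] at hlog
    have hinv : (√a / √m)⁻¹ = √m / √a := inv_div _ _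
    rw [hinv] at hlog
    have h2 : √a ^ 2 * (1 - √m / √a) ≤ √a ^ 2 * (Real.log (√a) - Real.log (√m)) :=
      mul_le_mul_of_nonneg_left hlog (sq_nonneg _)
    have h3 : √a ^ 2 * (1 - √m / √a) = √a ^ 2 - √a * √m := by
      field_simp
    rw [h3] at h2
    rw [la, lm]
    set s := √a with hsdef
    set t := √m with htdef
    rw [ea, em]
    nlinarith [h2]

/-- One-point entropy inequality. PROOF. `m = ∑ k f`. If `m = 0` all `k y * f y = 0`, both sides vanish
(`f x₀ = 0` as `k x₀ > 0`; `k y * √(f y) = 0`). If `m > 0`: sum `bregman_ge (f y) m` with weights `k y`: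
`∑ k f log f - m log m ≥ ∑ k (√f - √m)² ≥ ∑ k f - (∑ k √f)² ` (the mean minimises) and `var_ge` for `√f`. -/
theorem ent_point (k : V → ℝ) (hk : ∀ y, 0 ≤ k y) (hk1 : ∑ y, k y = 1) (x₀ : V) (hx : 1 / 2 ≤ k x₀)
    (f : V → ℝ) (hf : ∀ y, 0 ≤ f y) :
    1 / 2 * ∑ y, k y * (√(f x₀) - √(f y)) ^ 2 ≤
      ∑ y, k y * (f y * Real.log (f y)) - (∑ y, k y * f y) * Real.log (∑ y, k y * f y) := by
  have hnn : ∀ y ∈ (Finset.univ : Finset V), 0 ≤ k y * f y := fun y _ => mul_nonneg (hk y) (hf y)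
  rcases (Finset.sum_nonneg hnn).eq_or_lt with h0 | hpos
  · have hz : ∀ y, k y * f y = 0 := fun y =>
      (Finset.sum_eq_zero_iff_of_nonneg hnn).mp h0.symm y (Finset.mem_univ y)
    have hfx : f x₀ = 0 := by
      rcases mul_eq_zero.mp (hz x₀) with h | h
      · linarith
      · exact h
    have e1 : ∑ y, k y * (√(f x₀) - √(f y)) ^ 2 = 0 := by
      refine Finset.sum_eq_zero fun y _ => ?_
      rw [hfx, Real.sqrt_zero, zero_sub, neg_sq, Real.sq_sqrt (hf y), hz y]
    have e2 : ∑ y, k y * (f y * Real.log (f y)) = 0 := by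
      refine Finset.sum_eq_zero fun y _ => ?_
      rw [← mul_assoc, hz y, zero_mul]
    rw [e1, e2, ← h0]
    simp
  · set m := ∑ y, k y * f y with hm
    set b := ∑ y, k y * √(f y) with hb
    have h1 : ∑ y, k y * (√(f y) - √m) ^ 2 ≤
        ∑ y, k y * (f y * Real.log (f y) - f y * Real.log m - f y + m) :=
      Finset.sum_le_sum fun y _ => mul_le_mul_of_nonneg_left (bregman_ge (f y) m (hf y) hpos) (hk y)
    have e1 : ∑ y, k y * (f y * Real.log (f y) - f y * Real.log m - f y + m) =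
        ∑ y, k y * (f y * Real.log (f y)) - m * Real.log m := by
      have : ∀ y, k y * (f y * Real.log (f y) - f y * Real.log m - f y + m) =
          k y * (f y * Real.log (f y)) - (k y * f y) * Real.log m - k y * f y + k y * m :=
        fun y => by ring
      simp only [this]
      rw [Finset.sum_add_distrib, Finset.sum_sub_distrib, Finset.sum_sub_distrib,
        ← Finset.sum_mul, ← Finset.sum_mul, hk1]
      rw [← hm]; ring
    have e2 : ∑ y, k y * (√(f y) - √m) ^ 2 = 2 * m - 2 * √m * b := by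
      have : ∀ y, k y * (√(f y) - √m) ^ 2 = k y * f y - 2 * √m * (k y * √(f y)) + k y * m := by
        intro y
        have ha := Real.sq_sqrt (hf y)
        have hb := Real.sq_sqrt hpos.le
        calc k y * (√(f y) - √m) ^ 2
            = k y * (√(f y)) ^ 2 - 2 * √m * (k y * √(f y)) + k y * (√m) ^ 2 := by ring
          _ = _ := by rw [ha, hb]
      simp only [this]
      rw [Finset.sum_add_distrib, Finset.sum_sub_distrib, ← Finset.mul_sum, ← Finset.sum_mul, hk1,
        ← hm, ← hb]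
      ring
    have h3 := var_ge k hk hk1 x₀ hx (fun y => √(f y))
    have e3 : ∑ y, k y * (fun y => √(f y)) y ^ 2 = m := by
      rw [hm]
      refine Finset.sum_congr rfl fun y _ => ?_
      simp only
      rw [Real.sq_sqrt (hf y)]
    rw [e3] at h3
    have h4 : 1 / 2 * ∑ y, k y * (√(f x₀) - √(f y)) ^ 2 ≤ m - b ^ 2 := h3
    have h5 := Real.sq_sqrt hpos.le
    rw [e1, e2] at h1
    nlinarith [sq_nonneg (√m - b)]

/-- stationarity: `∑_x ν x ∑_y K x y g y = ∑_y ν y g y` -/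
theorem stationary {ν : V → ℝ} {K : V → V → ℝ} (h : LRK ν K) (g : V → ℝ) :
    ∑ x, ν x * app K g x = ∑ x, ν x * g x := by
  simp only [app, Finset.mul_sum]
  rw [Finset.sum_comm]
  refine Finset.sum_congr rfl fun y _ => ?_
  have : ∀ x, ν x * (K x y * g y) = (ν y * g y) * K y x := by
    intro x
    rw [← mul_assoc, h.rev x y]; ring
  simp only [this]
  rw [← Finset.mul_sum, h.sum_one, mul_one]

/-- energy decrease (`var_ge` at each `x`, stationarity) -/
theorem energy_decr {ν : V → ℝ} {K : V → V → ℝ} (h : LRK ν K) (f : V → ℝ) :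
    ∑ x, ν x * (app K f x) ^ 2 ≤
      ∑ x, ν x * f x ^ 2 - 1 / 2 * ∑ x, ∑ y, ν x * K x y * (f x - f y) ^ 2 := by
  have h1 : ∀ x, (app K f x) ^ 2 ≤
      app K (fun y => f y ^ 2) x - 1 / 2 * ∑ y, K x y * (f x - f y) ^ 2 := by
    intro x
    have := var_ge (K x) (h.nonneg x) (h.sum_one x) x (h.lazy x) f
    simp only [app]
    linarith
  have h2 : ∑ x, ν x * (app K f x) ^ 2 ≤
      ∑ x, ν x * (app K (fun y => f y ^ 2) x - 1 / 2 * ∑ y, K x y * (f x - f y) ^ 2) :=
    Finset.sum_le_sum fun x _ => mul_le_mul_of_nonneg_left (h1 x) (h.nu_pos x).le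
  refine h2.trans (le_of_eq ?_)
  have h3 : ∀ x, ν x * (app K (fun y => f y ^ 2) x - 1 / 2 * ∑ y, K x y * (f x - f y) ^ 2) =
      ν x * app K (fun y => f y ^ 2) x - 1 / 2 * ∑ y, ν x * K x y * (f x - f y) ^ 2 := by
    intro x
    have : ∑ y, ν x * K x y * (f x - f y) ^ 2 = ν x * ∑ y, K x y * (f x - f y) ^ 2 := by
      rw [Finset.mul_sum]
      exact Finset.sum_congr rfl fun y _ => by ring
    rw [this]; ring
  simp only [h3]
  rw [Finset.sum_sub_distrib, stationary h, ← Finset.mul_sum]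

/-- entropy decrease (`ent_point` at each `x`, stationarity) -/
theorem ent_decr {ν : V → ℝ} {K : V → V → ℝ} (h : LRK ν K) (f : V → ℝ) (hf : ∀ x, 0 ≤ f x) :
    Ent ν (app K f) ≤
      Ent ν f - 1 / 2 * ∑ x, ∑ y, ν x * K x y * (√(f x) - √(f y)) ^ 2 := by
  have h1 : ∀ x, app K f x * Real.log (app K f x) ≤
      app K (fun y => f y * Real.log (f y)) x - 1 / 2 * ∑ y, K x y * (√(f x) - √(f y)) ^ 2 := by
    intro x
    have := ent_point (K x) (h.nonneg x) (h.sum_one x) x (h.lazy x) f hf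
    simp only [app]
    linarith
  have h2 : Ent ν (app K f) ≤
      ∑ x, ν x * (app K (fun y => f y * Real.log (f y)) x -
        1 / 2 * ∑ y, K x y * (√(f x) - √(f y)) ^ 2) :=
    Finset.sum_le_sum fun x _ => mul_le_mul_of_nonneg_left (h1 x) (h.nu_pos x).le
  refine h2.trans (le_of_eq ?_)
  have h3 : ∀ x, ν x * (app K (fun y => f y * Real.log (f y)) x -
        1 / 2 * ∑ y, K x y * (√(f x) - √(f y)) ^ 2) =
      ν x * app K (fun y => f y * Real.log (f y)) x -
        1 / 2 * ∑ y, ν x * K x y * (√(f x) - √(f y)) ^ 2 := by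
    intro x
    have : ∑ y, ν x * K x y * (√(f x) - √(f y)) ^ 2 =
        ν x * ∑ y, K x y * (√(f x) - √(f y)) ^ 2 := by
      rw [Finset.mul_sum]
      exact Finset.sum_congr rfl fun y _ => by ring
    rw [this]; ring
  simp only [h3]
  rw [Finset.sum_sub_distrib, stationary h, ← Finset.mul_sum, Ent]

/-- Jensen: `Ent ≥ 0` for a density of mass one (`u log u ≥ u - 1`). -/
theorem ent_nonneg {ν : V → ℝ} (hν : ∀ x, 0 ≤ ν x) (hν1 : ∑ x, ν x = 1) (f : V → ℝ)
    (hf : ∀ x, 0 ≤ f x) (hf1 : ∑ x, ν x * f x = 1) : 0 ≤ Ent ν f := by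
  have h1 : ∀ x, f x - 1 ≤ f x * Real.log (f x) := by
    intro x
    rcases (hf x).eq_or_lt with h0 | hpos
    · rw [← h0]; simp
    · have := Real.one_sub_inv_le_log_of_pos hpos
      have h2 := mul_le_mul_of_nonneg_left this hpos.le
      have h3 : f x * (1 - (f x)⁻¹) = f x - 1 := by
        field_simp
      linarith
  have h2 : ∑ x, ν x * (f x - 1) ≤ Ent ν f :=
    Finset.sum_le_sum fun x _ => mul_le_mul_of_nonneg_left (h1 x) (hν x)
  have h3 : ∑ x, ν x * (f x - 1) = 0 := by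
    simp only [mul_sub, mul_one]
    rw [Finset.sum_sub_distrib, hf1, hν1, sub_self]
  linarith

/-- entropy of a probability vector: `∑ ν log (1/ν) ≤ log |V|` (`log (1/(nν)) ≤ 1/(nν) - 1`). -/
theorem entropy_le (ν : V → ℝ) (hν : ∀ x, 0 < ν x) (hν1 : ∑ x, ν x = 1) :
    ∑ x, ν x * Real.log (ν x)⁻¹ ≤ Real.log (Fintype.card V) := by
  have hne : Nonempty V := by
    by_contra hcon
    rw [not_nonempty_iff] at hcon
    simp at hν1
  have hn : (0 : ℝ) < (Fintype.card V : ℝ) := by exact_mod_cast Fintype.card_pos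
  have h1 : ∀ x, ν x * Real.log (ν x)⁻¹ ≤
      ν x * Real.log (Fintype.card V) + ((Fintype.card V : ℝ)⁻¹ - ν x) := by
    intro x
    have hp : 0 < ((Fintype.card V : ℝ) * ν x)⁻¹ := inv_pos.mpr (mul_pos hn (hν x))
    have h2 := Real.log_le_sub_one_of_pos hp
    have h3 : Real.log ((Fintype.card V : ℝ) * ν x)⁻¹ =
        Real.log (ν x)⁻¹ - Real.log (Fintype.card V) := by
      rw [Real.log_inv, Real.log_mul hn.ne' (hν x).ne', Real.log_inv]; ring
    rw [h3] at h2
    have h4 := mul_le_mul_of_nonneg_left h2 (hν x).le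
    have h5 : ν x * (((Fintype.card V : ℝ) * ν x)⁻¹ - 1) = (Fintype.card V : ℝ)⁻¹ - ν x := by
      have := (hν x).ne'
      field_simp
    rw [h5] at h4
    linarith
  have h2 := Finset.sum_le_sum fun x (_ : x ∈ (Finset.univ : Finset V)) => h1 x
  refine h2.trans (le_of_eq ?_)
  rw [Finset.sum_add_distrib, Finset.sum_sub_distrib, ← Finset.sum_mul, hν1, one_mul,
    Finset.sum_const, Finset.card_univ, nsmul_eq_mul, mul_inv_cancel₀ hn.ne', sub_self, add_zero]

end Crest.Agent.LpDim
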