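import Mathlib

/-!
Row 232, CHUNK R232-NUM.
-/

set_option autoImplicit false
set_option maxHeartbeats 1000000

namespace Crest.Agent.LpDim

open Finset

/-- CHUNK NUM. Choice of the numbers `L` (truncation) and `d` (number of samples) in terms of `s = exp (-C T^γ)`.
Here `T = 1 + log n ≥ 1`, `J = n²` pairs, `η = ε/(K+1)`, `K + 1 ≤ C' T`.
PROOF. `L = (A T)/s²`-type, e.g. `L = A T / s ^ 2` with `A = A(p, ε, C)` large, `d = ⌈ 64 L^{2p} T (K+1)²·A/ε² ⌉`; all conditions reduce to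
`log`-inequalities because `sL = A T/s` dominates `log d`, `log n²`, `log(1/s)`, ...; and `d ≤ exp (C'' T^γ)` as
`T ≤ exp (T^γ/γ)`. -/
theorem exists_num (p γ C ε : ℝ) (hp : 1 < p) (hγ : 0 < γ) (hγ1 : γ ≤ 1) (hC : 1 ≤ C) (hε : 0 < ε) (hε1 : ε ≤ 1) :
    ∃ C' : ℝ, 1 ≤ C' ∧ ∀ (n K : ℕ), 2 ≤ n → (K : ℝ) ≤ C * (1 + Real.log n) →
      ∃ (L : ℝ) (d : ℕ), 1 ≤ L ∧ 1 ≤ d ∧ ((K + 1) * d : ℝ) ≤ Real.exp (C' * (1 + Real.log n) ^ γ) ∧
        d * (n * n : ℝ) * (6 * Real.exp (-(Real.exp (-(C * (1 + Real.log n) ^ γ)) * L))) ≤ 1 / 4 ∧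
        6 * (2 * p / Real.exp (-(C * (1 + Real.log n) ^ γ))) ^ p *
          Real.exp (-(Real.exp (-(C * (1 + Real.log n) ^ γ)) * L / 2)) ≤ ε / (K + 1) / 2 ∧
        2 * (n * n : ℝ) * Real.exp (-(d * (ε / (K + 1)) ^ 2 / (16 * (L ^ p) ^ 2))) ≤ 1 / 4 := by
  have hp0 : 0 < p := by linarith
  have hC0 : 0 < C := by linarith
  have hε2 : ε ^ 2 ≤ 1 := by nlinarith
  have h768 : 1 ≤ 768 * C ^ 3 / ε ^ 2 := by
    rw [le_div_iff₀ (by positivity), one_mul]
    have : 1 ≤ C ^ 3 := one_le_pow₀ hC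
    linarith
  have hlog768 : 0 ≤ Real.log (768 * C ^ 3 / ε ^ 2) := Real.log_nonneg h768
  have h2pp : 1 ≤ (2 * p) ^ p := Real.one_le_rpow (by linarith) hp0.le
  have h2C : 1 ≤ 2 * C * (2 * p) ^ p / ε := by
    rw [le_div_iff₀ hε, one_mul]
    nlinarith
  have hB2' : 0 ≤ Real.log (2 * C * (2 * p) ^ p / ε) := Real.log_nonneg h2C
  obtain ⟨B0, hB0⟩ : ∃ B0 : ℝ, B0 = Real.log (768 * C ^ 3 / ε ^ 2) + (2 * p + 4) / γ + 4 * p * C := ⟨_, rfl⟩
  obtain ⟨B2, hB2⟩ : ∃ B2 : ℝ, B2 = Real.log (2 * C * (2 * p) ^ p / ε) := ⟨_, rfl⟩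
  have hB2n : 0 ≤ B2 := hB2 ▸ hB2'
  have hpC : 1 ≤ p * C := by nlinarith
  have hγ' : 0 ≤ (2 * p + 4) / γ := by positivity
  have hB0n : 4 ≤ B0 := by rw [hB0]; nlinarith
  obtain ⟨A, hA⟩ : ∃ A : ℝ, A = 64 * p ^ 2 + 2 * (B0 + 6) + 2 * (4 + B2 + p * C) := ⟨_, rfl⟩
  have hp2n : 0 ≤ 64 * p ^ 2 := by positivity
  have hA1 : 1 ≤ A := by linarith
  have hAB0 : B0 + 6 ≤ A / 2 := by linarith
  have hAB2 : 4 + B2 + p * C ≤ A / 2 := by linarith
  have hA0 : 0 < A := by linarith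
  have hlogA : 0 ≤ Real.log A := Real.log_nonneg hA1
  have hAlog : 2 * p * Real.log A ≤ A / 2 := by
    have h1 : Real.log A = 2 * Real.log (Real.sqrt A) := by
      rw [Real.log_sqrt hA0.le]; ring
    have h2 : Real.log (Real.sqrt A) ≤ Real.sqrt A - 1 :=
      Real.log_le_sub_one_of_pos (Real.sqrt_pos.2 hA0)
    have h3 : 8 * p ≤ Real.sqrt A := by
      apply Real.le_sqrt_of_sq_le
      have : (8 * p) ^ 2 = 64 * p ^ 2 := by ring
      rw [this]; linarith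
    have h4 : Real.sqrt A * Real.sqrt A = A := Real.mul_self_sqrt hA0.le
    have h5 : 0 ≤ Real.sqrt A := Real.sqrt_nonneg A
    rw [h1]
    have h6 : p * Real.log (Real.sqrt A) ≤ p * Real.sqrt A :=
      mul_le_mul_of_nonneg_left (by linarith) hp0.le
    have h7 : 8 * p * Real.sqrt A ≤ Real.sqrt A * Real.sqrt A :=
      mul_le_mul_of_nonneg_right h3 h5
    nlinarith
  refine ⟨B0 + 2 * p * Real.log A, ?_, ?_⟩
  · have : 0 ≤ 2 * p * Real.log A := by positivity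
    linarith
  intro n K hn hK
  obtain ⟨T, hT⟩ : ∃ T : ℝ, T = 1 + Real.log n := ⟨_, rfl⟩
  rw [← hT] at hK ⊢
  have hn1 : (1 : ℝ) ≤ n := by
    have : (2 : ℝ) ≤ n := by exact_mod_cast hn
    linarith
  have hT1 : 1 ≤ T := by
    rw [hT]; linarith [Real.log_nonneg hn1]
  have hT0 : 0 < T := by linarith
  obtain ⟨U, hU⟩ : ∃ U : ℝ, U = T ^ γ := ⟨_, rfl⟩
  rw [← hU]
  have hU1 : 1 ≤ U := by rw [hU]; exact Real.one_le_rpow hT1 hγ.le
  have hUT : U ≤ T := by
    rw [hU]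
    calc T ^ γ ≤ T ^ (1 : ℝ) := Real.rpow_le_rpow_of_exponent_le hT1 hγ1
      _ = T := Real.rpow_one T
  have hTU : Real.log T ≤ U / γ := by
    rw [le_div_iff₀ hγ]
    have h1 : U = Real.exp (Real.log T * γ) := by
      rw [hU, Real.rpow_def_of_pos hT0]
    have h2 := Real.add_one_le_exp (Real.log T * γ)
    rw [h1]; linarith
  have hlogT : 0 ≤ Real.log T := Real.log_nonneg hT1
  have hlogTT : Real.log T ≤ T := (Real.log_le_sub_one_of_pos hT0).trans (by linarith)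
  have hnn : (n * n : ℝ) = Real.exp (2 * (T - 1)) := by
    have : 2 * (T - 1) = Real.log n + Real.log n := by rw [hT]; ring
    rw [this, Real.exp_add, Real.exp_log (by linarith)]
  obtain ⟨L, hL⟩ : ∃ L : ℝ, L = A * T * Real.exp (2 * C * U) := ⟨_, rfl⟩
  have hexp2 : 1 ≤ Real.exp (2 * C * U) := Real.one_le_exp (by positivity)
  have hL1 : 1 ≤ L := by
    rw [hL]
    have : 1 ≤ A * T := one_le_mul_of_one_le_of_one_le hA1 hT1
    exact one_le_mul_of_one_le_of_one_le this hexp2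
  have hL0 : 0 < L := by linarith
  have hsL : A * T ≤ Real.exp (-(C * U)) * L := by
    rw [hL]
    have : Real.exp (-(C * U)) * (A * T * Real.exp (2 * C * U)) = A * T * Real.exp (C * U) := by
      rw [show C * U = -(C * U) + 2 * C * U by ring, Real.exp_add]; ring_nf
    rw [this]
    have h1 : 1 ≤ Real.exp (C * U) := Real.one_le_exp (by positivity)
    have h2 : 0 ≤ A * T := by positivity
    nlinarith
  have hlogL : Real.log L = Real.log A + Real.log T + 2 * C * U := by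
    rw [hL, Real.log_mul (by positivity) (by positivity), Real.log_mul hA0.ne' hT0.ne', Real.log_exp]
  have hK1 : (K : ℝ) + 1 ≤ 2 * C * T := by nlinarith
  have hK0 : (1 : ℝ) ≤ (K : ℝ) + 1 := by
    have : (0 : ℝ) ≤ K := Nat.cast_nonneg _
    linarith
  have hLp1 : 1 ≤ L ^ p := Real.one_le_rpow hL1 hp0.le
  have hLp2 : (L ^ p) ^ 2 = Real.exp (2 * p * Real.log L) := by
    rw [Real.rpow_def_of_pos hL0, ← Real.exp_nat_mul]
    congr 1
    push_cast
    ring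
  obtain ⟨M, hM⟩ : ∃ M : ℝ, M = 48 * (L ^ p) ^ 2 * T * ((K : ℝ) + 1) ^ 2 / ε ^ 2 := ⟨_, rfl⟩
  have hM1 : 1 ≤ M := by
    rw [hM, le_div_iff₀ (by positivity), one_mul]
    have h1 : 1 ≤ (L ^ p) ^ 2 := one_le_pow₀ hLp1
    have h2 : 1 ≤ ((K : ℝ) + 1) ^ 2 := one_le_pow₀ hK0
    have h3 : 1 ≤ (L ^ p) ^ 2 * T := one_le_mul_of_one_le_of_one_le h1 hT1
    have h4 : 1 ≤ (L ^ p) ^ 2 * T * ((K : ℝ) + 1) ^ 2 := one_le_mul_of_one_le_of_one_le h3 h2
    have h5 : 48 * (L ^ p) ^ 2 * T * ((K : ℝ) + 1) ^ 2 = 48 * ((L ^ p) ^ 2 * T * ((K : ℝ) + 1) ^ 2) := by ring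
    rw [h5]
    linarith
  have hd1 : M ≤ (⌈M⌉₊ : ℝ) := Nat.le_ceil M
  have hd2 : (⌈M⌉₊ : ℝ) ≤ 2 * M := by
    have := Nat.ceil_lt_add_one (a := M) (by linarith)
    linarith
  have hdn : 1 ≤ ⌈M⌉₊ := by
    have : (1 : ℝ) ≤ (⌈M⌉₊ : ℝ) := hM1.trans hd1
    exact_mod_cast this
  -- dimension bound
  have hdim : (((K : ℝ) + 1) * (⌈M⌉₊ : ℝ)) ≤ Real.exp ((B0 + 2 * p * Real.log A) * U) := by
    have h1 : ((K : ℝ) + 1) * (⌈M⌉₊ : ℝ) ≤ (768 * C ^ 3 / ε ^ 2) * ((L ^ p) ^ 2 * T ^ 4) := by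
      calc ((K : ℝ) + 1) * (⌈M⌉₊ : ℝ) ≤ ((K : ℝ) + 1) * (2 * M) :=
            mul_le_mul_of_nonneg_left hd2 (by linarith)
        _ = 96 * (L ^ p) ^ 2 * T / ε ^ 2 * ((K : ℝ) + 1) ^ 3 := by rw [hM]; ring
        _ ≤ 96 * (L ^ p) ^ 2 * T / ε ^ 2 * (2 * C * T) ^ 3 := by
            refine mul_le_mul_of_nonneg_left ?_ (by positivity)
            exact pow_le_pow_left₀ (by linarith) hK1 3
        _ = (768 * C ^ 3 / ε ^ 2) * ((L ^ p) ^ 2 * T ^ 4) := by ring
    have h2 : (768 * C ^ 3 / ε ^ 2) * ((L ^ p) ^ 2 * T ^ 4) =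
        Real.exp (Real.log (768 * C ^ 3 / ε ^ 2) + (2 * p * Real.log L + 4 * Real.log T)) := by
      rw [Real.exp_add, Real.exp_log (by positivity), Real.exp_add, ← hLp2,
        show 4 * Real.log T = ((4 : ℕ) : ℝ) * Real.log T by norm_num, Real.exp_nat_mul, Real.exp_log hT0]
    refine h1.trans (h2.le.trans (Real.exp_le_exp.2 ?_))
    rw [hlogL, hB0]
    have e1 : Real.log (768 * C ^ 3 / ε ^ 2) ≤ Real.log (768 * C ^ 3 / ε ^ 2) * U :=
      le_mul_of_one_le_right hlog768 hU1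
    have e2 : 2 * p * Real.log A ≤ 2 * p * Real.log A * U :=
      le_mul_of_one_le_right (by positivity) hU1
    have e3 : (2 * p + 4) * Real.log T ≤ (2 * p + 4) * (U / γ) :=
      mul_le_mul_of_nonneg_left hTU (by positivity)
    have e4 : (2 * p + 4) * (U / γ) = (2 * p + 4) / γ * U := by ring
    have e5 : 2 * p * (Real.log A + Real.log T + 2 * C * U) + 4 * Real.log T =
        2 * p * Real.log A + (2 * p + 4) * Real.log T + 4 * p * C * U := by ring
    have e6 : (Real.log (768 * C ^ 3 / ε ^ 2) + (2 * p + 4) / γ + 4 * p * C + 2 * p * Real.log A) * U =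
        Real.log (768 * C ^ 3 / ε ^ 2) * U + (2 * p + 4) / γ * U + 4 * p * C * U +
          2 * p * Real.log A * U := by ring
    rw [e5, e6]
    linarith
  have hsL' : Real.exp (-(Real.exp (-(C * U)) * L)) ≤ Real.exp (-(A * T)) :=
    Real.exp_le_exp.2 (by linarith)
  refine ⟨L, ⌈M⌉₊, hL1, hdn, hdim, ?_, ?_, ?_⟩
  · -- condition 1
    have h1 : (⌈M⌉₊ : ℝ) ≤ Real.exp ((B0 + 2 * p * Real.log A) * T) := by
      calc (⌈M⌉₊ : ℝ) ≤ ((K : ℝ) + 1) * (⌈M⌉₊ : ℝ) := le_mul_of_one_le_left (by positivity) hK0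
        _ ≤ _ := hdim
        _ ≤ _ := Real.exp_le_exp.2 (mul_le_mul_of_nonneg_left hUT (by positivity))
    have h24 : (24 : ℝ) ≤ Real.exp 4 := by
      have h := Real.exp_one_gt_d9
      have : Real.exp 4 = Real.exp 1 ^ 4 := by rw [← Real.exp_nat_mul]; norm_num
      rw [this]
      have h2 : (2.7 : ℝ) ^ 4 ≤ Real.exp 1 ^ 4 := pow_le_pow_left₀ (by norm_num) (by linarith) 4
      linarith [show (24 : ℝ) ≤ 2.7 ^ 4 by norm_num]
    have h3 : (⌈M⌉₊ : ℝ) * (n * n : ℝ) * (24 * Real.exp (-(Real.exp (-(C * U)) * L))) ≤ 1 := by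
      calc (⌈M⌉₊ : ℝ) * (n * n : ℝ) * (24 * Real.exp (-(Real.exp (-(C * U)) * L)))
          ≤ Real.exp ((B0 + 2 * p * Real.log A) * T) * Real.exp (2 * (T - 1)) *
              (Real.exp 4 * Real.exp (-(A * T))) := by
            rw [hnn]
            gcongr
        _ = Real.exp ((B0 + 2 * p * Real.log A) * T + 2 * (T - 1) + (4 + (-(A * T)))) := by
            rw [Real.exp_add, Real.exp_add, Real.exp_add]
        _ ≤ 1 := by
            rw [Real.exp_le_one_iff]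
            have h5 : (B0 + 2 * p * Real.log A + 6) * T ≤ A * T :=
              mul_le_mul_of_nonneg_right (by linarith) hT0.le
            have h6 : (B0 + 2 * p * Real.log A + 6) * T = (B0 + 2 * p * Real.log A) * T + 6 * T := by ring
            linarith
    linarith
  · -- condition 2
    have h12 : (12 : ℝ) ≤ Real.exp 3 := by
      have h := Real.exp_one_gt_d9
      have : Real.exp 3 = Real.exp 1 ^ 3 := by rw [← Real.exp_nat_mul]; norm_num
      rw [this]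
      have h2 : (2.7 : ℝ) ^ 3 ≤ Real.exp 1 ^ 3 := pow_le_pow_left₀ (by norm_num) (by linarith) 3
      linarith [show (12 : ℝ) ≤ 2.7 ^ 3 by norm_num]
    have hsp : (2 * p / Real.exp (-(C * U))) ^ p = (2 * p) ^ p * Real.exp (p * C * U) := by
      rw [Real.exp_neg, div_inv_eq_mul, Real.mul_rpow (by positivity) (Real.exp_pos _).le,
        ← Real.exp_mul]
      congr 2
      ring
    have hsL2 : Real.exp (-(Real.exp (-(C * U)) * L / 2)) ≤ Real.exp (-(A * T / 2)) :=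
      Real.exp_le_exp.2 (by linarith)
    have hTe : T ≤ Real.exp T := by linarith [Real.add_one_le_exp T]
    have hmain : 12 * ((K : ℝ) + 1) / ε * ((2 * p) ^ p * Real.exp (p * C * U)) *
        Real.exp (-(Real.exp (-(C * U)) * L / 2)) ≤ 1 := by
      calc 12 * ((K : ℝ) + 1) / ε * ((2 * p) ^ p * Real.exp (p * C * U)) *
          Real.exp (-(Real.exp (-(C * U)) * L / 2))
          ≤ Real.exp 3 * (2 * C * Real.exp T) / ε * ((2 * p) ^ p * Real.exp (p * C * T)) *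
            Real.exp (-(A * T / 2)) := by
            have hKT : (K : ℝ) + 1 ≤ 2 * C * Real.exp T :=
              hK1.trans (mul_le_mul_of_nonneg_left hTe (by positivity))
            gcongr
        _ = (2 * C * (2 * p) ^ p / ε) * (Real.exp 3 * Real.exp T * Real.exp (p * C * T) *
            Real.exp (-(A * T / 2))) := by ring
        _ = Real.exp (B2 + (3 + T + p * C * T + (-(A * T / 2)))) := by
            rw [Real.exp_add, Real.exp_add, Real.exp_add, Real.exp_add, hB2, Real.exp_log (by positivity)]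
        _ ≤ 1 := by
            rw [Real.exp_le_one_iff]
            have h5 : (4 + B2 + p * C) * T ≤ A / 2 * T := mul_le_mul_of_nonneg_right hAB2 hT0.le
            have h6 : B2 ≤ B2 * T := le_mul_of_one_le_right hB2n hT1
            have h7 : (4 + B2 + p * C) * T = 4 * T + B2 * T + p * C * T := by ring
            have h8 : A / 2 * T = A * T / 2 := by ring
            linarith
    rw [hsp]
    rw [div_div, le_div_iff₀ (by positivity)]
    have e : 12 * ((K : ℝ) + 1) / ε * ((2 * p) ^ p * Real.exp (p * C * U)) *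
        Real.exp (-(Real.exp (-(C * U)) * L / 2)) = (6 * ((2 * p) ^ p * Real.exp (p * C * U)) *
        Real.exp (-(Real.exp (-(C * U)) * L / 2)) * ((K + 1) * 2)) / ε := by ring
    rw [e, div_le_one hε] at hmain
    exact hmain
  · -- condition 3
    have h1 : 3 * T ≤ (⌈M⌉₊ : ℝ) * (ε / ((K : ℝ) + 1)) ^ 2 / (16 * (L ^ p) ^ 2) := by
      rw [le_div_iff₀ (by positivity)]
      calc 3 * T * (16 * (L ^ p) ^ 2) = M * (ε / ((K : ℝ) + 1)) ^ 2 := by
            rw [hM]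
            field_simp
            ring
        _ ≤ (⌈M⌉₊ : ℝ) * (ε / ((K : ℝ) + 1)) ^ 2 :=
            mul_le_mul_of_nonneg_right hd1 (by positivity)
    have h8 : (8 : ℝ) ≤ Real.exp 3 := by
      have h := Real.exp_one_gt_d9
      have : Real.exp 3 = Real.exp 1 ^ 3 := by rw [← Real.exp_nat_mul]; norm_num
      rw [this]
      have h2 : (2.7 : ℝ) ^ 3 ≤ Real.exp 1 ^ 3 := pow_le_pow_left₀ (by norm_num) (by linarith) 3
      linarith [show (8 : ℝ) ≤ 2.7 ^ 3 by norm_num]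
    have h9 : (8 : ℝ) * (n * n : ℝ) *
        Real.exp (-((⌈M⌉₊ : ℝ) * (ε / ((K : ℝ) + 1)) ^ 2 / (16 * (L ^ p) ^ 2))) ≤ 1 := by
      calc (8 : ℝ) * (n * n : ℝ) *
          Real.exp (-((⌈M⌉₊ : ℝ) * (ε / ((K : ℝ) + 1)) ^ 2 / (16 * (L ^ p) ^ 2)))
          ≤ (Real.exp 1) ^ 3 * Real.exp (2 * (T - 1)) * Real.exp (-(3 * T)) := by
            rw [hnn]
            have : Real.exp 3 = Real.exp 1 ^ 3 := by rw [← Real.exp_nat_mul]; norm_num
            rw [← this]
            gcongr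
        _ ≤ 1 := by
            have : Real.exp 3 = Real.exp 1 ^ 3 := by rw [← Real.exp_nat_mul]; norm_num
            rw [← this, ← Real.exp_add, ← Real.exp_add, Real.exp_le_one_iff]
            linarith
    linarith

end Crest.Agent.LpDim
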