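import Crest.Agent.LpDim.Defs

/-!
Row 232, CHUNK SAMPLE: sampling from a finite probability space (Hoeffding/Bernstein with a union bound).
-/

set_option autoImplicit false

namespace Crest.Agent.LpDim

open Finset

variable {Ω : Type} [Fintype Ω]

/-- weight of a sample -/
def wt (q : Ω → ℝ) {d : ℕ} (ω : Fin d → Ω) : ℝ := ∏ r, q (ω r)

theorem wt_nonneg (q : Ω → ℝ) (hq : ∀ ω, 0 ≤ q ω) {d : ℕ} (ω : Fin d → Ω) : 0 ≤ wt q ω :=
  Finset.prod_nonneg fun r _ => hq _

theorem sum_wt_prod (q g : Ω → ℝ) (d : ℕ) :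
    ∑ ω : Fin d → Ω, wt q ω * ∏ r, g (ω r) = (∑ u, q u * g u) ^ d := by
  rw [Fintype.sum_pow]
  refine Finset.sum_congr rfl fun ω _ => ?_
  rw [wt, ← Finset.prod_mul_distrib]

theorem sum_wt (q : Ω → ℝ) (hq1 : ∑ ω, q ω = 1) (d : ℕ) :
    ∑ ω : Fin d → Ω, wt q ω = 1 := by
  have h := sum_wt_prod q (fun _ => 1) d
  simp only [Finset.prod_const_one, mul_one] at h
  rw [h, hq1, one_pow]

/-- marginal -/
theorem sum_wt_one (q : Ω → ℝ) (hq1 : ∑ ω, q ω = 1) (g : Ω → ℝ) {d : ℕ} (r : Fin d) :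
    ∑ ω : Fin d → Ω, wt q ω * g (ω r) = ∑ u, q u * g u := by
  classical
  have key : ∀ ω : Fin d → Ω, wt q ω * g (ω r) = ∏ r', q (ω r') * (if r' = r then g (ω r') else 1) := by
    intro ω
    rw [Finset.prod_mul_distrib, Finset.prod_ite_eq' Finset.univ r (fun r' => g (ω r'))]
    simp [wt]
  simp_rw [key]
  have h2 := Finset.prod_univ_sum (fun _ : Fin d => (Finset.univ : Finset Ω))
    (fun r' u => q u * (if r' = r then g u else 1))
  rw [Fintype.piFinset_univ] at h2
  rw [← h2]
  have h3 : ∀ r' : Fin d, ∑ u, q u * (if r' = r then g u else 1) = if r' = r then ∑ u, q u * g u else 1 := by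
    intro r'
    by_cases h : r' = r
    · simp [h]
    · simp [h, hq1]
  simp_rw [h3]
  rw [Finset.prod_ite_eq' Finset.univ r (fun _ => ∑ u, q u * g u)]
  simp

theorem exp_le_quad (u : ℝ) (h : |u| ≤ 1) : Real.exp u ≤ 1 + u + u ^ 2 := by
  have h1 := Real.abs_exp_sub_one_sub_id_le h
  have h2 := (abs_le.mp h1).2
  linarith

/-- one side of the exponential moment bound -/
theorem mgf_le (q : Ω → ℝ) (hq : ∀ ω, 0 ≤ q ω) (hq1 : ∑ ω, q ω = 1) (f : Ω → ℝ) (M l : ℝ)
    (hM : 0 < M) (hl : |l| * M ≤ 1) (hf : ∀ ω, 0 ≤ f ω ∧ f ω ≤ M) :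
    ∑ u, q u * Real.exp (l * (f u - ∑ v, q v * f v)) ≤ Real.exp (l ^ 2 * M ^ 2) := by
  set m := ∑ v, q v * f v with hm
  have hm0 : 0 ≤ m := Finset.sum_nonneg fun v _ => mul_nonneg (hq v) (hf v).1
  have hmM : m ≤ M := by
    calc m ≤ ∑ v, q v * M := Finset.sum_le_sum fun v _ => mul_le_mul_of_nonneg_left (hf v).2 (hq v)
      _ = M := by rw [← Finset.sum_mul, hq1, one_mul]
  have hdev : ∀ u, |f u - m| ≤ M := by
    intro u
    have h1 := (hf u).1
    have h2 := (hf u).2
    rw [abs_le]; constructor <;> linarith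
  have step : ∀ u, q u * Real.exp (l * (f u - m)) ≤ q u * (1 + l * (f u - m) + l ^ 2 * M ^ 2) := by
    intro u
    refine mul_le_mul_of_nonneg_left ?_ (hq u)
    have habs : |l * (f u - m)| ≤ 1 := by
      rw [abs_mul]
      exact le_trans (mul_le_mul_of_nonneg_left (hdev u) (abs_nonneg _)) hl
    have h1 := exp_le_quad _ habs
    have h2 : (l * (f u - m)) ^ 2 ≤ l ^ 2 * M ^ 2 := by
      rw [mul_pow]
      refine mul_le_mul_of_nonneg_left ?_ (sq_nonneg _)
      exact sq_le_sq' (by linarith [(abs_le.mp (hdev u)).1]) (abs_le.mp (hdev u)).2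
    linarith
  calc ∑ u, q u * Real.exp (l * (f u - m)) ≤ ∑ u, q u * (1 + l * (f u - m) + l ^ 2 * M ^ 2) :=
        Finset.sum_le_sum fun u _ => step u
    _ = (1 + l ^ 2 * M ^ 2) * ∑ u, q u + l * (∑ u, q u * f u - m * ∑ u, q u) := by
        rw [Finset.mul_sum, Finset.mul_sum, ← Finset.sum_sub_distrib, Finset.mul_sum,
          ← Finset.sum_add_distrib]
        refine Finset.sum_congr rfl fun u _ => by ring
    _ = 1 + l ^ 2 * M ^ 2 := by rw [hq1, ← hm]; ring
    _ ≤ Real.exp (l ^ 2 * M ^ 2) := by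
        have := Real.add_one_le_exp (l ^ 2 * M ^ 2)
        linarith

/-- one-sided bound. `f` with values in `[0, M]`, mean `m`. PROOF. `E e^{λ(f-m)} ≤ 1 + λ² M² ≤ e^{λ²M²}` for `|λ| M ≤ 1`
(`e^u ≤ 1 + u + u²`, `|u| ≤ 1`, `|f-m| ≤ M`), product over `r` (`Finset.prod_univ_sum`), Markov with `λ = ± η/(2M²)`. -/
theorem chernoff (q : Ω → ℝ) (hq : ∀ ω, 0 ≤ q ω) (hq1 : ∑ ω, q ω = 1) (f : Ω → ℝ) (M η : ℝ)
    (hM : 0 < M) (hη : 0 < η) (hηM : η ≤ M) (hf : ∀ ω, 0 ≤ f ω ∧ f ω ≤ M) (d : ℕ) (hd : 1 ≤ d) :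
    ∑ ω : Fin d → Ω, (if η < |(∑ r, f (ω r)) / d - ∑ u, q u * f u| then wt q ω else 0) ≤
      2 * Real.exp (-(d * η ^ 2 / (4 * M ^ 2))) := by
  set m := ∑ v, q v * f v with hm
  have hd0 : (0 : ℝ) < d := by exact_mod_cast hd
  set l : ℝ := η / (2 * M ^ 2) with hl
  have hl0 : 0 < l := by positivity
  have hlM : l * M ≤ 1 := by
    have : l * M = η / M / 2 := by rw [hl]; field_simp
    rw [this]
    have : η / M ≤ 1 := by rw [div_le_one hM]; exact hηM
    linarith
  -- exponential moments of the sums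
  have hsum : ∀ l' : ℝ, |l'| * M ≤ 1 →
      ∑ ω : Fin d → Ω, wt q ω * Real.exp (l' * (∑ r, f (ω r) - d * m)) ≤
        Real.exp (d * (l' ^ 2 * M ^ 2)) := by
    intro l' hl'
    have h1 : ∀ ω : Fin d → Ω, wt q ω * Real.exp (l' * (∑ r, f (ω r) - d * m)) =
        wt q ω * ∏ r, Real.exp (l' * (f (ω r) - m)) := by
      intro ω
      rw [← Real.exp_sum, ← Finset.mul_sum, Finset.sum_sub_distrib]
      simp
    simp_rw [h1]
    rw [sum_wt_prod q (fun u => Real.exp (l' * (f u - m))) d]
    rw [Real.exp_nat_mul]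
    refine pow_le_pow_left₀ ?_ (mgf_le q hq hq1 f M l' hM hl' hf) d
    exact Finset.sum_nonneg fun u _ => mul_nonneg (hq u) (Real.exp_pos _).le
  have hpos := hsum l (by rw [abs_of_pos hl0]; exact hlM)
  have hneg := hsum (-l) (by rw [abs_neg, abs_of_pos hl0]; exact hlM)
  have hpt : ∀ ω : Fin d → Ω,
      (if η < |(∑ r, f (ω r)) / d - m| then wt q ω else 0) ≤
        Real.exp (-(l * d * η)) * (wt q ω * Real.exp (l * (∑ r, f (ω r) - d * m))) +
        Real.exp (-(l * d * η)) * (wt q ω * Real.exp (-l * (∑ r, f (ω r) - d * m))) := by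
    intro ω
    have hw := wt_nonneg q hq ω
    split_ifs with hbad
    · set S := ∑ r, f (ω r) with hS
      have hconv : S / d - m = (S - d * m) / d := by field_simp
      rw [hconv, abs_div, abs_of_pos hd0, lt_div_iff₀ hd0] at hbad
      rcases le_or_gt 0 (S - d * m) with hs | hs
      · rw [abs_of_nonneg hs] at hbad
        have h1 : 1 ≤ Real.exp (-(l * d * η)) * Real.exp (l * (S - d * m)) := by
          rw [← Real.exp_add]
          apply Real.one_le_exp
          have : l * (η * d) ≤ l * (S - d * m) := mul_le_mul_of_nonneg_left hbad.le hl0.le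
          nlinarith
        have h2 : 0 ≤ Real.exp (-(l * d * η)) * (wt q ω * Real.exp (-l * (S - d * m))) := by positivity
        calc wt q ω = wt q ω * 1 := by ring
          _ ≤ wt q ω * (Real.exp (-(l * d * η)) * Real.exp (l * (S - d * m))) :=
            mul_le_mul_of_nonneg_left h1 hw
          _ ≤ _ := by nlinarith
      · rw [abs_of_neg hs] at hbad
        have h1 : 1 ≤ Real.exp (-(l * d * η)) * Real.exp (-l * (S - d * m)) := by
          rw [← Real.exp_add]
          apply Real.one_le_exp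
          have : l * (η * d) ≤ l * (-(S - d * m)) := mul_le_mul_of_nonneg_left hbad.le hl0.le
          nlinarith
        have h2 : 0 ≤ Real.exp (-(l * d * η)) * (wt q ω * Real.exp (l * (S - d * m))) := by positivity
        calc wt q ω = wt q ω * 1 := by ring
          _ ≤ wt q ω * (Real.exp (-(l * d * η)) * Real.exp (-l * (S - d * m))) :=
            mul_le_mul_of_nonneg_left h1 hw
          _ ≤ _ := by nlinarith
    · positivity
  have hexp : Real.exp (-(l * d * η)) * Real.exp (d * (l ^ 2 * M ^ 2)) =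
      Real.exp (-(d * η ^ 2 / (4 * M ^ 2))) := by
    rw [← Real.exp_add]
    congr 1
    rw [hl]
    field_simp
    ring
  calc ∑ ω : Fin d → Ω, (if η < |(∑ r, f (ω r)) / d - m| then wt q ω else 0)
      ≤ ∑ ω : Fin d → Ω, (Real.exp (-(l * d * η)) * (wt q ω * Real.exp (l * (∑ r, f (ω r) - d * m))) +
        Real.exp (-(l * d * η)) * (wt q ω * Real.exp (-l * (∑ r, f (ω r) - d * m)))) :=
        Finset.sum_le_sum fun ω _ => hpt ω
    _ = Real.exp (-(l * d * η)) * (∑ ω : Fin d → Ω, wt q ω * Real.exp (l * (∑ r, f (ω r) - d * m))) +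
        Real.exp (-(l * d * η)) * (∑ ω : Fin d → Ω, wt q ω * Real.exp (-l * (∑ r, f (ω r) - d * m))) := by
        rw [Finset.sum_add_distrib, ← Finset.mul_sum, ← Finset.mul_sum]
    _ ≤ Real.exp (-(l * d * η)) * Real.exp (d * (l ^ 2 * M ^ 2)) +
        Real.exp (-(l * d * η)) * Real.exp (d * ((-l) ^ 2 * M ^ 2)) := by
        gcongr
    _ = 2 * Real.exp (-(d * η ^ 2 / (4 * M ^ 2))) := by
        rw [neg_sq, hexp]; ring

/-- PROOF. Apply `chernoff` to `min (Z i) M` with `η/2`; the event that some `Z i (ω r) > M` has weight `≤ 1/4`; total weight of the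
bad events `≤ 1/2 < 1`, so a good `ω` exists; on it `Z = min Z M`, and `|E Z - E min(Z,M)| ≤ η/2`. -/
theorem exists_sample (q : Ω → ℝ) (hq : ∀ ω, 0 ≤ q ω) (hq1 : ∑ ω, q ω = 1) {I : Type} [Fintype I]
    (Z : I → Ω → ℝ) (hZ : ∀ i ω, 0 ≤ Z i ω) (M η : ℝ) (hM : 0 < M) (hη : 0 < η) (hηM : η ≤ M)
    (d : ℕ) (hd : 1 ≤ d)
    (hbad : d * ∑ i, ∑ ω, (if M < Z i ω then q ω else 0) ≤ 1 / 4)
    (htail : ∀ i, ∑ ω, (if M < Z i ω then q ω * Z i ω else 0) ≤ η / 2)
    (hconc : 2 * Fintype.card I * Real.exp (-(d * η ^ 2 / (16 * M ^ 2))) ≤ 1 / 4) :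
    ∃ ω : Fin d → Ω, ∀ i, |(∑ r, Z i (ω r)) / d - ∑ u, q u * Z i u| ≤ η := by
  classical
  by_contra hcon
  push Not at hcon
  set Zm : I → Ω → ℝ := fun i u => min (Z i u) M with hZm
  have hch : ∀ i, ∑ ω : Fin d → Ω,
      (if η / 2 < |(∑ r, Zm i (ω r)) / d - ∑ u, q u * Zm i u| then wt q ω else 0) ≤
      2 * Real.exp (-(d * η ^ 2 / (16 * M ^ 2))) := by
    intro i
    have h := chernoff q hq hq1 (Zm i) M (η / 2) hM (by linarith) (by linarith)
      (fun u => ⟨le_min (hZ i u) hM.le, min_le_right _ _⟩) d hd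
    have he : d * (η / 2) ^ 2 / (4 * M ^ 2) = d * η ^ 2 / (16 * M ^ 2) := by
      field_simp
      ring
    rwa [he] at h
  -- expectation difference
  have hdiff : ∀ i, |∑ u, q u * Z i u - ∑ u, q u * Zm i u| ≤ η / 2 := by
    intro i
    rw [← Finset.sum_sub_distrib]
    have hterm : ∀ u, 0 ≤ q u * Z i u - q u * Zm i u ∧
        q u * Z i u - q u * Zm i u ≤ (if M < Z i u then q u * Z i u else 0) := by
      intro u
      have hqu := hq u
      have hzu := hZ i u
      simp only [hZm]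
      split_ifs with h
      · rw [min_eq_right h.le]
        constructor
        · have := mul_le_mul_of_nonneg_left h.le hqu
          linarith
        · have := mul_nonneg hqu hM.le
          linarith
      · rw [min_eq_left (not_lt.mp h)]
        simp
    rw [abs_of_nonneg (Finset.sum_nonneg fun u _ => (hterm u).1)]
    exact le_trans (Finset.sum_le_sum fun u _ => (hterm u).2) (htail i)
  -- pointwise: every sample is bad
  have hpt : ∀ ω : Fin d → Ω, wt q ω ≤
      ∑ i, (if η / 2 < |(∑ r, Zm i (ω r)) / d - ∑ u, q u * Zm i u| then wt q ω else 0) +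
      ∑ r, ∑ i, wt q ω * (if M < Z i (ω r) then (1 : ℝ) else 0) := by
    intro ω
    have hw := wt_nonneg q hq ω
    obtain ⟨i, hi⟩ := hcon ω
    have hA : ∀ j, 0 ≤ (if η / 2 < |(∑ r, Zm j (ω r)) / d - ∑ u, q u * Zm j u| then wt q ω else 0) := by
      intro j; split_ifs
      · exact hw
      · exact le_refl _
    have hB : ∀ r j, 0 ≤ wt q ω * (if M < Z j (ω r) then (1 : ℝ) else 0) := by
      intro r j
      refine mul_nonneg hw ?_
      split_ifs <;> norm_num
    by_cases hex : ∃ r, M < Z i (ω r)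
    · obtain ⟨r, hr⟩ := hex
      have h1 : wt q ω ≤ ∑ r, ∑ j, wt q ω * (if M < Z j (ω r) then (1 : ℝ) else 0) := by
        calc wt q ω = wt q ω * (if M < Z i (ω r) then (1 : ℝ) else 0) := by simp [hr]
          _ ≤ ∑ j, wt q ω * (if M < Z j (ω r) then (1 : ℝ) else 0) :=
            Finset.single_le_sum (f := fun j => wt q ω * (if M < Z j (ω r) then (1 : ℝ) else 0))
              (fun j _ => hB r j) (Finset.mem_univ i)
          _ ≤ _ := Finset.single_le_sum
              (f := fun r => ∑ j, wt q ω * (if M < Z j (ω r) then (1 : ℝ) else 0))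
              (fun r _ => Finset.sum_nonneg fun j _ => hB r j) (Finset.mem_univ r)
      have h2 : 0 ≤ ∑ i, (if η / 2 < |(∑ r, Zm i (ω r)) / d - ∑ u, q u * Zm i u| then wt q ω else 0) :=
        Finset.sum_nonneg fun j _ => hA j
      linarith
    · push Not at hex
      have hsame : ∑ r, Zm i (ω r) = ∑ r, Z i (ω r) :=
        Finset.sum_congr rfl fun r _ => min_eq_left (hex r)
      have hlt : η / 2 < |(∑ r, Zm i (ω r)) / d - ∑ u, q u * Zm i u| := by
        rw [hsame]
        have h1 := hdiff i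
        by_contra hle
        push Not at hle
        have h3 : |(∑ r, Z i (ω r)) / d - ∑ u, q u * Z i u| ≤
            |(∑ r, Z i (ω r)) / d - ∑ u, q u * Zm i u| + |∑ u, q u * Z i u - ∑ u, q u * Zm i u| := by
          have := abs_sub ((∑ r, Z i (ω r)) / d - ∑ u, q u * Zm i u)
            (∑ u, q u * Z i u - ∑ u, q u * Zm i u)
          have he : (∑ r, Z i (ω r)) / d - ∑ u, q u * Zm i u - (∑ u, q u * Z i u - ∑ u, q u * Zm i u) =
            (∑ r, Z i (ω r)) / d - ∑ u, q u * Z i u := by ring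
          rwa [he] at this
        linarith
      have h1 : wt q ω ≤ ∑ j, (if η / 2 < |(∑ r, Zm j (ω r)) / d - ∑ u, q u * Zm j u| then wt q ω else 0) := by
        calc wt q ω = (if η / 2 < |(∑ r, Zm i (ω r)) / d - ∑ u, q u * Zm i u| then wt q ω else 0) := by
              rw [if_pos hlt]
          _ ≤ _ := Finset.single_le_sum
              (f := fun j => (if η / 2 < |(∑ r, Zm j (ω r)) / d - ∑ u, q u * Zm j u| then wt q ω else 0))
              (fun j _ => hA j) (Finset.mem_univ i)
      have h2 : 0 ≤ ∑ r, ∑ j, wt q ω * (if M < Z j (ω r) then (1 : ℝ) else 0) :=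
        Finset.sum_nonneg fun r _ => Finset.sum_nonneg fun j _ => hB r j
      linarith
  have htot : (1 : ℝ) ≤ ∑ i, ∑ ω : Fin d → Ω,
        (if η / 2 < |(∑ r, Zm i (ω r)) / d - ∑ u, q u * Zm i u| then wt q ω else 0) +
      ∑ r : Fin d, ∑ i, ∑ ω : Fin d → Ω, wt q ω * (if M < Z i (ω r) then (1 : ℝ) else 0) := by
    refine le_trans (sum_wt q hq1 d).symm.le ?_
    refine le_trans (Finset.sum_le_sum fun ω _ => hpt ω) ?_
    rw [Finset.sum_add_distrib]
    refine add_le_add (le_of_eq Finset.sum_comm) (le_of_eq ?_)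
    rw [Finset.sum_comm]
    refine Finset.sum_congr rfl fun r _ => ?_
    rw [Finset.sum_comm]
  have hfirst : ∑ i, ∑ ω : Fin d → Ω,
        (if η / 2 < |(∑ r, Zm i (ω r)) / d - ∑ u, q u * Zm i u| then wt q ω else 0) ≤ 1 / 4 := by
    refine le_trans (Finset.sum_le_sum fun i _ => hch i) ?_
    rw [Finset.sum_const, Finset.card_univ, nsmul_eq_mul]
    calc (Fintype.card I : ℝ) * (2 * Real.exp (-(d * η ^ 2 / (16 * M ^ 2))))
        = 2 * Fintype.card I * Real.exp (-(d * η ^ 2 / (16 * M ^ 2))) := by ring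
      _ ≤ 1 / 4 := hconc
  have hsecond : ∑ r : Fin d, ∑ i, ∑ ω : Fin d → Ω, wt q ω * (if M < Z i (ω r) then (1 : ℝ) else 0) ≤ 1 / 4 := by
    have h1 : ∀ (r : Fin d) (i : I), ∑ ω : Fin d → Ω, wt q ω * (if M < Z i (ω r) then (1 : ℝ) else 0) =
        ∑ u, (if M < Z i u then q u else 0) := by
      intro r i
      rw [sum_wt_one q hq1 (fun u => if M < Z i u then (1 : ℝ) else 0) r]
      refine Finset.sum_congr rfl fun u _ => ?_
      split_ifs <;> simp
    simp_rw [h1]
    rw [Finset.sum_const, Finset.card_univ, Fintype.card_fin, nsmul_eq_mul]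
    exact hbad
  linarith

/-- Version with an exponential moment: `E e^{s t_i} ≤ 6`, `Z_i = t_i^p`, `M = Λ^p`. It suffices that
`d * card I * 6 e^{-sΛ} ≤ 1/4` (Markov) and `6 (2p/s)^p e^{-sΛ/2} ≤ η/2`
(`t^p ≤ (2p/s)^p e^{st/2} ≤ (2p/s)^p e^{st} e^{-sΛ/2}` for `t ≥ Λ`). -/
theorem exists_sample_exp (q : Ω → ℝ) (hq : ∀ ω, 0 ≤ q ω) (hq1 : ∑ ω, q ω = 1) {I : Type} [Fintype I]
    (t : I → Ω → ℝ) (ht : ∀ i ω, 0 ≤ t i ω) (p s L η : ℝ) (hp : 1 ≤ p) (hs : 0 < s) (hs1 : s ≤ 1)
    (hL : 1 ≤ L) (hη : 0 < η) (hη1 : η ≤ 1) (hexp : ∀ i, ∑ ω, q ω * Real.exp (s * t i ω) ≤ 6)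
    (d : ℕ) (hd : 1 ≤ d)
    (h1 : d * Fintype.card I * (6 * Real.exp (-(s * L))) ≤ 1 / 4)
    (h2 : 6 * (2 * p / s) ^ p * Real.exp (-(s * L / 2)) ≤ η / 2)
    (h3 : 2 * Fintype.card I * Real.exp (-(d * η ^ 2 / (16 * (L ^ p) ^ 2))) ≤ 1 / 4) :
    ∃ ω : Fin d → Ω, ∀ i, |(∑ r, t i (ω r) ^ p) / d - ∑ u, q u * t i u ^ p| ≤ η := by
  have hp0 : 0 < p := by linarith
  have hL0 : 0 < L := by linarith
  have hLp : 1 ≤ L ^ p := Real.one_le_rpow hL hp0.le
  have hlt : ∀ i u, L ^ p < t i u ^ p → L < t i u := by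
    intro i u h
    by_contra hle
    push Not at hle
    exact absurd (Real.rpow_le_rpow (ht i u) hle hp0.le) (not_le.mpr h)
  refine exists_sample q hq hq1 (fun i u => t i u ^ p) (fun i u => Real.rpow_nonneg (ht i u) p)
    (L ^ p) η (by positivity) hη (by linarith) d hd ?_ ?_ h3
  · -- bad
    refine le_trans ?_ h1
    rw [mul_assoc]
    refine mul_le_mul_of_nonneg_left ?_ (Nat.cast_nonneg d)
    have : ∀ i : I, ∑ ω, (if L ^ p < t i ω ^ p then q ω else 0) ≤ 6 * Real.exp (-(s * L)) := by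
      intro i
      calc ∑ ω, (if L ^ p < t i ω ^ p then q ω else 0)
          ≤ ∑ ω, (q ω * Real.exp (s * t i ω)) * Real.exp (-(s * L)) := by
            refine Finset.sum_le_sum fun u _ => ?_
            split_ifs with h
            · have h' := hlt i u h
              rw [mul_assoc, ← Real.exp_add]
              have : 1 ≤ Real.exp (s * t i u + -(s * L)) := by
                apply Real.one_le_exp
                have := mul_le_mul_of_nonneg_left h'.le hs.le
                linarith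
              calc q u = q u * 1 := by ring
                _ ≤ _ := mul_le_mul_of_nonneg_left this (hq u)
            · have := hq u
              positivity
        _ = (∑ ω, q ω * Real.exp (s * t i ω)) * Real.exp (-(s * L)) := by rw [Finset.sum_mul]
        _ ≤ 6 * Real.exp (-(s * L)) := mul_le_mul_of_nonneg_right (hexp i) (Real.exp_pos _).le
    calc ∑ i, ∑ ω, (if L ^ p < t i ω ^ p then q ω else 0) ≤ ∑ _i : I, 6 * Real.exp (-(s * L)) :=
          Finset.sum_le_sum fun i _ => this i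
      _ = Fintype.card I * (6 * Real.exp (-(s * L))) := by
          rw [Finset.sum_const, Finset.card_univ, nsmul_eq_mul]
  · -- tail
    intro i
    have hc0 : 0 < 2 * p / s := by positivity
    refine le_trans ?_ h2
    calc ∑ ω, (if L ^ p < t i ω ^ p then q ω * t i ω ^ p else 0)
        ≤ ∑ ω, (q ω * Real.exp (s * t i ω)) * ((2 * p / s) ^ p * Real.exp (-(s * L / 2))) := by
          refine Finset.sum_le_sum fun u _ => ?_
          split_ifs with h
          · have h' := hlt i u h
            have htu := ht i u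
            rw [mul_assoc]
            refine mul_le_mul_of_nonneg_left ?_ (hq u)
            have hx : t i u = (2 * p / s) * (s * t i u / (2 * p)) := by field_simp
            have hx0 : 0 ≤ s * t i u / (2 * p) := by positivity
            have hb : (s * t i u / (2 * p)) ^ p ≤ Real.exp (s * t i u / 2) := by
              have h1 : s * t i u / (2 * p) ≤ Real.exp (s * t i u / (2 * p)) := by
                have := Real.add_one_le_exp (s * t i u / (2 * p))
                linarith
              calc (s * t i u / (2 * p)) ^ p ≤ (Real.exp (s * t i u / (2 * p))) ^ p :=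
                    Real.rpow_le_rpow hx0 h1 hp0.le
                _ = Real.exp (s * t i u / 2) := by
                    rw [← Real.exp_mul]
                    congr 1
                    field_simp
            calc t i u ^ p = (2 * p / s) ^ p * (s * t i u / (2 * p)) ^ p := by
                  rw [← Real.mul_rpow hc0.le hx0, ← hx]
              _ ≤ (2 * p / s) ^ p * Real.exp (s * t i u / 2) :=
                  mul_le_mul_of_nonneg_left hb (Real.rpow_nonneg hc0.le p)
              _ ≤ (2 * p / s) ^ p * (Real.exp (s * t i u) * Real.exp (-(s * L / 2))) := by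
                  refine mul_le_mul_of_nonneg_left ?_ (Real.rpow_nonneg hc0.le p)
                  rw [← Real.exp_add]
                  apply Real.exp_le_exp.mpr
                  have := mul_le_mul_of_nonneg_left h'.le hs.le
                  linarith
              _ = Real.exp (s * t i u) * ((2 * p / s) ^ p * Real.exp (-(s * L / 2))) := by ring
          · have := hq u
            positivity
      _ = (∑ ω, q ω * Real.exp (s * t i ω)) * ((2 * p / s) ^ p * Real.exp (-(s * L / 2))) := by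
          rw [Finset.sum_mul]
      _ ≤ 6 * ((2 * p / s) ^ p * Real.exp (-(s * L / 2))) := by
          refine mul_le_mul_of_nonneg_right (hexp i) ?_
          positivity
      _ = 6 * (2 * p / s) ^ p * Real.exp (-(s * L / 2)) := by ring

end Crest.Agent.LpDim
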