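import Crest.Agent.LpDim.Random
import Crest.Agent.LpDim.Sample
import Crest.Agent.LpDim.Num

/-!
Row 232, CHUNK R232-MAINFIN: the finite form of S0358.
-/

set_option autoImplicit false

namespace Crest.Agent.LpDim

open Finset

theorem gamma_mem {p : ℝ} (hp1 : 1 < p) (hp2 : p ≠ 2) : 0 < |1 - 2 / p| ∧ |1 - 2 / p| ≤ 1 := by
  have hp0 : 0 < p := by linarith
  constructor
  · rw [abs_pos]
    intro h
    apply hp2
    have : 2 / p = 1 := by linarith
    rw [div_eq_one_iff_eq hp0.ne'] at this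
    exact this.symm
  · rw [abs_le]
    have h1 : 2 / p < 2 := by
      rw [div_lt_iff₀ hp0]
      linarith
    have h2 : 0 < 2 / p := by positivity
    constructor <;> linarith

/-- CHUNK MAINFIN. PROOF. `exists_random` (with `ε/2`), then for each `k` `exists_sample_exp` on the finite probability space
`Fin (N k) → W × Bool` with weights `∏ μ/2`, index set the pairs (`t = |(ψ x - ψ y)/ρ x y|`, for `x = y` it is `0`),
`η = (ε/2)/(K+1)`, `L, d` from `exists_num`; `y x (k,r) = d^{-1/p} ψ k (ω_{k,r}) x`, reindexed by `Fin ((K+1)*d)`. -/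
theorem main_finite (p : ℝ) (hp1 : 1 < p) (hp2 : p ≠ 2) (ε : ℝ) (hε : 0 < ε) (hε1 : ε ≤ 1) :
    ∃ C : ℝ, 1 ≤ C ∧
    ∀ (n : ℕ) (W : Type) [Fintype W] (μ : W → ℝ) (ρ : Fin n → Fin n → ℝ) (X : Fin n → W → ℝ),
      PtData p μ ρ X → ∃ (d : ℕ) (y : Fin n → Fin d → ℝ),
        (d : ℝ) ≤ Real.exp (C * (1 + Real.log n) ^ |1 - 2 / p|) ∧ ∀ i j, i ≠ j →
          (1 - ε) * ρ i j ^ p ≤ ∑ r, |y i r - y j r| ^ p ∧
          ∑ r, |y i r - y j r| ^ p ≤ (1 + ε) * ρ i j ^ p := by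
  classical
  obtain ⟨C₁, hC₁, hR⟩ := exists_random p hp1 hp2 (ε / 2) (by positivity)
  obtain ⟨hγ0, hγ1⟩ := gamma_mem hp1 hp2
  obtain ⟨C₂, hC₂, hN⟩ := exists_num p |1 - 2 / p| C₁ (ε / 2) hp1 hγ0 hγ1 hC₁ (by positivity)
    (by linarith)
  refine ⟨C₂, hC₂, ?_⟩
  intro n W _ μ ρ X h
  obtain ⟨K, N, ψ, hK, hψ⟩ := hR n W μ ρ X h
  obtain ⟨L, d, hL, hd, hdim, h1, h2, h3⟩ := hN n K h.n_ge hK
  have hp0 : 0 < p := by linarith
  have hlog : 0 ≤ 1 + Real.log n := by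
    have := Real.log_natCast_nonneg n
    linarith
  set s : ℝ := Real.exp (-(C₁ * (1 + Real.log n) ^ |1 - 2 / p|)) with hs
  have hs0 : 0 < s := Real.exp_pos _
  have hs1 : s ≤ 1 := by
    rw [hs, Real.exp_le_one_iff]
    have : 0 ≤ C₁ * (1 + Real.log n) ^ |1 - 2 / p| :=
      mul_nonneg (by linarith) (Real.rpow_nonneg hlog _)
    linarith
  have hK0 : (0 : ℝ) < (K : ℝ) + 1 := by positivity
  have hd0 : (0 : ℝ) < (d : ℝ) := by exact_mod_cast hd
  set η : ℝ := ε / 2 / ((K : ℝ) + 1) with hη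
  have hη0 : 0 < η := by positivity
  have hη1 : η ≤ 1 := by
    rw [hη, div_le_one hK0]
    have : (0 : ℝ) ≤ K := Nat.cast_nonneg _
    linarith
  have hcard : (Fintype.card (Fin n × Fin n) : ℝ) = (n : ℝ) * n := by
    rw [Fintype.card_prod, Fintype.card_fin]
    push_cast
    ring
  have key : ∀ k : Fin (K + 1), ∃ ω : Fin d → (Fin (N k) → W × Bool), ∀ i : Fin n × Fin n,
      |(∑ r, |(ψ k (ω r) i.1 - ψ k (ω r) i.2) / ρ i.1 i.2| ^ p) / d -
        EN μ (N k) (fun ω => |(ψ k ω i.1 - ψ k ω i.2) / ρ i.1 i.2| ^ p)| ≤ η := by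
    intro k
    have hq1 : ∑ ω : Fin (N k) → W × Bool, ∏ m, μ (ω m).1 / 2 = 1 := by
      have := EN_const (μ := μ) h.μ_sum (N k) 1
      simpa [EN] using this
    refine exists_sample_exp (fun ω : Fin (N k) → W × Bool => ∏ m, μ (ω m).1 / 2)
      (fun ω => Finset.prod_nonneg fun m _ => div_nonneg (h.μ_nonneg _) (by norm_num)) hq1
      (I := Fin n × Fin n) (fun i ω => |(ψ k ω i.1 - ψ k ω i.2) / ρ i.1 i.2|)
      (fun i ω => abs_nonneg _) p s L η hp1.le hs0 hs1 hL hη0 hη1 ?_ d hd ?_ ?_ ?_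
    · intro i
      by_cases hi : i.1 = i.2
      · have : ∀ ω : Fin (N k) → W × Bool, |(ψ k ω i.1 - ψ k ω i.2) / ρ i.1 i.2| = 0 := by
          intro ω
          rw [hi]
          simp
        simp only [this, mul_zero, Real.exp_zero, mul_one]
        rw [hq1]
        norm_num
      · exact (hψ i.1 i.2 hi).1 k
    · rw [hcard]
      exact h1
    · exact h2
    · rw [hcard]
      exact h3
  choose ω hω using key
  have hdr : (((d : ℝ) ^ (-(1 / p))) ^ p) = (d : ℝ)⁻¹ := by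
    rw [← Real.rpow_mul hd0.le, neg_mul, one_div, inv_mul_cancel₀ hp0.ne', Real.rpow_neg_one]
  refine ⟨(K + 1) * d, fun i r => (d : ℝ) ^ (-(1 / p)) *
    ψ (finProdFinEquiv.symm r).1 (ω (finProdFinEquiv.symm r).1 (finProdFinEquiv.symm r).2) i, ?_, ?_⟩
  · push_cast
    exact hdim
  · intro i j hij
    have hρ : 0 < ρ i j := h.ρ_pos i j
    have hsum : ∑ r : Fin ((K + 1) * d), |(d : ℝ) ^ (-(1 / p)) *
        ψ (finProdFinEquiv.symm r).1 (ω (finProdFinEquiv.symm r).1 (finProdFinEquiv.symm r).2) i -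
        (d : ℝ) ^ (-(1 / p)) *
        ψ (finProdFinEquiv.symm r).1 (ω (finProdFinEquiv.symm r).1 (finProdFinEquiv.symm r).2) j| ^ p =
        ρ i j ^ p * ∑ k : Fin (K + 1), (∑ r, |(ψ k (ω k r) i - ψ k (ω k r) j) / ρ i j| ^ p) / d := by
      rw [Equiv.sum_comp finProdFinEquiv.symm (fun e : Fin (K + 1) × Fin d =>
        |(d : ℝ) ^ (-(1 / p)) * ψ e.1 (ω e.1 e.2) i - (d : ℝ) ^ (-(1 / p)) * ψ e.1 (ω e.1 e.2) j| ^ p),
        Fintype.sum_prod_type, Finset.mul_sum]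
      refine Finset.sum_congr rfl fun k _ => ?_
      rw [Finset.sum_div, Finset.mul_sum]
      refine Finset.sum_congr rfl fun r _ => ?_
      have e1 : (d : ℝ) ^ (-(1 / p)) * ψ k (ω k r) i - (d : ℝ) ^ (-(1 / p)) * ψ k (ω k r) j =
          (d : ℝ) ^ (-(1 / p)) * (ρ i j * ((ψ k (ω k r) i - ψ k (ω k r) j) / ρ i j)) := by
        field_simp
      rw [e1, abs_mul, abs_mul, Real.mul_rpow (abs_nonneg _) (by positivity),
        Real.mul_rpow (abs_nonneg _) (abs_nonneg _), abs_of_pos hρ,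
        abs_of_nonneg (Real.rpow_nonneg hd0.le _), hdr]
      field_simp
    rw [hsum]
    have hclose : |(∑ k : Fin (K + 1), (∑ r, |(ψ k (ω k r) i - ψ k (ω k r) j) / ρ i j| ^ p) / d) -
        ∑ k, EN μ (N k) (fun ω => |(ψ k ω i - ψ k ω j) / ρ i j| ^ p)| ≤ ε / 2 := by
      rw [← Finset.sum_sub_distrib]
      refine (Finset.abs_sum_le_sum_abs _ _).trans ?_
      refine (Finset.sum_le_sum fun k _ => hω k (i, j)).trans ?_
      rw [Finset.sum_const, Finset.card_univ, Fintype.card_fin, nsmul_eq_mul, hη]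
      push_cast
      rw [mul_div_cancel₀ _ hK0.ne']
    obtain ⟨-, hlo, hup⟩ := hψ i j hij
    have hρp : 0 ≤ ρ i j ^ p := Real.rpow_nonneg hρ.le _
    have hc := abs_le.1 hclose
    constructor
    · rw [mul_comm]
      exact mul_le_mul_of_nonneg_left (by linarith [hc.1]) hρp
    · rw [mul_comm (1 + ε)]
      exact mul_le_mul_of_nonneg_left (by linarith [hc.2]) hρp

end Crest.Agent.LpDim
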