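import Crest.Agent.LpDim.Atoms

/-!
Row 232, CHUNK R232-MOMTYPE.
-/

set_option autoImplicit false

namespace Crest.Agent.LpDim

open Finset

variable {W : Type} [Fintype W] {μ : W → ℝ} {N : ℕ}

private theorem Mom1_sq_rpow (x p : ℝ) : (x ^ 2) ^ (p / 2) = |x| ^ p := by
  rw [← sq_abs, ← Real.rpow_natCast, ← Real.rpow_mul (abs_nonneg x)]
  congr 1
  push_cast
  ring

private theorem Mom1_two_point_le {p : ℝ} (hp : 1 ≤ p) (hp2 : p ≤ 2) (a b : ℝ) :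
    |a + b| ^ p + |-a + b| ^ p ≤ 2 * (|a| ^ p + |b| ^ p) := by
  have hr0 : 0 ≤ p / 2 := by linarith
  have hr1 : p / 2 ≤ 1 := by linarith
  have hc := (Real.concaveOn_rpow hr0 hr1).2
    (Set.mem_Ici.2 (sq_nonneg (a + b))) (Set.mem_Ici.2 (sq_nonneg (-a + b)))
    (by norm_num : (0 : ℝ) ≤ 1 / 2) (by norm_num : (0 : ℝ) ≤ 1 / 2) (by norm_num)
  simp only [smul_eq_mul] at hc
  have h1 : (1 / 2 * (a + b) ^ 2 + 1 / 2 * (-a + b) ^ 2) = a ^ 2 + b ^ 2 := by ring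
  rw [h1] at hc
  have h2 := Real.rpow_add_le_add_rpow (sq_nonneg a) (sq_nonneg b) hr0 hr1
  rw [Mom1_sq_rpow, Mom1_sq_rpow] at h2
  rw [Mom1_sq_rpow, Mom1_sq_rpow] at hc
  linarith

private theorem Mom1_two_point_ge {p : ℝ} (hp2 : 2 ≤ p) (a b : ℝ) :
    2 * (|a| ^ p + |b| ^ p) ≤ |a + b| ^ p + |-a + b| ^ p := by
  have hr1 : 1 ≤ p / 2 := by linarith
  have hc := (convexOn_rpow hr1).2
    (Set.mem_Ici.2 (sq_nonneg (a + b))) (Set.mem_Ici.2 (sq_nonneg (-a + b)))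
    (by norm_num : (0 : ℝ) ≤ 1 / 2) (by norm_num : (0 : ℝ) ≤ 1 / 2) (by norm_num)
  simp only [smul_eq_mul] at hc
  have h1 : (1 / 2 * (a + b) ^ 2 + 1 / 2 * (-a + b) ^ 2) = a ^ 2 + b ^ 2 := by ring
  rw [h1] at hc
  have h2 := Real.add_rpow_le_rpow_add (sq_nonneg a) (sq_nonneg b) hr1
  rw [Mom1_sq_rpow, Mom1_sq_rpow] at h2
  rw [Mom1_sq_rpow, Mom1_sq_rpow] at hc
  linarith

private theorem Mom1_zero (hμ1 : ∑ w, μ w = 1) {p : ℝ} (hp : 0 < p) (Y : W → ℝ) :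
    EN μ 0 (fun ω => |SS Y ω| ^ p) = 0 := by
  have h : (fun ω : Fin 0 → W × Bool => |SS Y ω| ^ p) = fun _ => 0 := by
    funext ω
    simp [SS, Real.zero_rpow hp.ne']
  rw [h, EN_const hμ1]

private theorem Mom1_pair (p : ℝ) (Y : W → ℝ) (w : W) (N : ℕ) :
    EN μ N (fun ω => |SS Y (Fin.cons (w, true) ω : Fin (N + 1) → W × Bool)| ^ p) +
      EN μ N (fun ω => |SS Y (Fin.cons (w, false) ω : Fin (N + 1) → W × Bool)| ^ p) =
    EN μ N (fun ω => |Y w + SS Y ω| ^ p + |-Y w + SS Y ω| ^ p) := by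
  rw [EN_add]
  simp only [SS_cons, sg]
  simp

/-- CHUNK MOM-TYPE. `p ≤ 2`: `E|∑ sg Y|^p ≤ N ∑ μ |Y|^p`.
PROOF. Induction on `N` with `(|a+b|^p + |a-b|^p)/2 ≤ |a|^p + |b|^p` for `1 ≤ p ≤ 2`
(`≤ ((|a+b|²+|a-b|²)/2)^{p/2} = (a²+b²)^{p/2} ≤ |a|^p + |b|^p`). -/
theorem EN_le_of_le_two (hμ : ∀ w, 0 ≤ μ w) (hμ1 : ∑ w, μ w = 1) {p : ℝ} (hp : 1 ≤ p) (hp2 : p ≤ 2)
    (Y : W → ℝ) (N : ℕ) : EN μ N (fun ω => |SS Y ω| ^ p) ≤ N * ∑ w, μ w * |Y w| ^ p := by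
  induction N with
  | zero =>
    rw [Mom1_zero hμ1 (by linarith)]
    simp
  | succ N ih =>
    rw [EN_succ]
    have key : ∀ w ∈ (Finset.univ : Finset W), μ w / 2 *
        (EN μ N (fun ω => |SS Y (Fin.cons (w, true) ω : Fin (N + 1) → W × Bool)| ^ p) +
          EN μ N (fun ω => |SS Y (Fin.cons (w, false) ω : Fin (N + 1) → W × Bool)| ^ p)) ≤
        μ w * |Y w| ^ p + μ w * EN μ N (fun ω => |SS Y ω| ^ p) := by
      intro w _
      rw [Mom1_pair]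
      have h1 : EN μ N (fun ω => |Y w + SS Y ω| ^ p + |-Y w + SS Y ω| ^ p) ≤
          EN μ N (fun ω => 2 * (|Y w| ^ p + |SS Y ω| ^ p)) :=
        EN_mono hμ (fun ω => Mom1_two_point_le hp hp2 _ _)
      rw [EN_mul, EN_add (μ := μ) (N := N) (fun _ => |Y w| ^ p) (fun ω => |SS Y ω| ^ p),
        EN_const hμ1] at h1
      have h2 := mul_le_mul_of_nonneg_left h1 (by have := hμ w; linarith : 0 ≤ μ w / 2)
      linarith
    refine (Finset.sum_le_sum key).trans ?_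
    rw [Finset.sum_add_distrib, ← Finset.sum_mul, hμ1]
    push_cast
    linarith

/-- CHUNK MOM-COTYPE. `p ≥ 2`: `E|∑ sg Y|^p ≥ N ∑ μ |Y|^p`
(`(|a+b|^p + |a-b|^p)/2 ≥ (a²+b²)^{p/2} ≥ |a|^p + |b|^p`). -/
theorem EN_ge_of_two_le (hμ : ∀ w, 0 ≤ μ w) (hμ1 : ∑ w, μ w = 1) {p : ℝ} (hp2 : 2 ≤ p)
    (Y : W → ℝ) (N : ℕ) : N * ∑ w, μ w * |Y w| ^ p ≤ EN μ N (fun ω => |SS Y ω| ^ p) := by
  induction N with
  | zero =>
    rw [Mom1_zero hμ1 (by linarith)]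
    simp
  | succ N ih =>
    rw [EN_succ]
    have key : ∀ w ∈ (Finset.univ : Finset W),
        μ w * |Y w| ^ p + μ w * EN μ N (fun ω => |SS Y ω| ^ p) ≤ μ w / 2 *
        (EN μ N (fun ω => |SS Y (Fin.cons (w, true) ω : Fin (N + 1) → W × Bool)| ^ p) +
          EN μ N (fun ω => |SS Y (Fin.cons (w, false) ω : Fin (N + 1) → W × Bool)| ^ p)) := by
      intro w _
      rw [Mom1_pair]
      have h1 : EN μ N (fun ω => 2 * (|Y w| ^ p + |SS Y ω| ^ p)) ≤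
          EN μ N (fun ω => |Y w + SS Y ω| ^ p + |-Y w + SS Y ω| ^ p) :=
        EN_mono hμ (fun ω => Mom1_two_point_ge hp2 _ _)
      rw [EN_mul, EN_add (μ := μ) (N := N) (fun _ => |Y w| ^ p) (fun ω => |SS Y ω| ^ p),
        EN_const hμ1] at h1
      have h2 := mul_le_mul_of_nonneg_left h1 (by have := hμ w; linarith : 0 ≤ μ w / 2)
      linarith
    refine le_trans ?_ (Finset.sum_le_sum key)
    rw [Finset.sum_add_distrib, ← Finset.sum_mul, hμ1]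
    push_cast
    linarith

/-- elementary: `t^p ≤ (p/s)^p e^{s t}` for `t ≥ 0`, `s > 0`, `p > 0` (`u ≤ e^u`). -/
theorem rpow_le_exp {p s t : ℝ} (hp : 0 < p) (hs : 0 < s) (ht : 0 ≤ t) :
    t ^ p ≤ (p / s) ^ p * Real.exp (s * t) := by
  have hu : s * t / p ≤ Real.exp (s * t / p) := by
    have := Real.add_one_le_exp (s * t / p)
    linarith
  have h1 : t ≤ (p / s) * Real.exp (s * t / p) := by
    have h2 := mul_le_mul_of_nonneg_left hu (by positivity : 0 ≤ p / s)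
    have h3 : p / s * (s * t / p) = t := by field_simp
    linarith
  calc t ^ p ≤ ((p / s) * Real.exp (s * t / p)) ^ p := Real.rpow_le_rpow ht h1 hp.le
    _ = (p / s) ^ p * (Real.exp (s * t / p)) ^ p :=
        Real.mul_rpow (by positivity) (Real.exp_pos _).le
    _ = (p / s) ^ p * Real.exp (s * t) := by
        rw [← Real.exp_mul]
        congr 2
        field_simp

end Crest.Agent.LpDim
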