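import Crest.Agent.LpDim.Atoms

/-!
Row 232, CHUNK R232-MOMSPARSE.
-/

set_option autoImplicit false

namespace Crest.Agent.LpDim

open Finset

variable {W : Type} [Fintype W] {μ : W → ℝ} {N : ℕ}

open Classical in
/-- number of active atoms -/
noncomputable def nuA (Z : W → ℝ) (ω : Fin N → W × Bool) : ℝ :=
  ∑ m, if Z (ω m).1 = 0 then (0 : ℝ) else 1

/-- sum of the `p`-th powers -/
noncomputable def spA (Z : W → ℝ) (p : ℝ) (ω : Fin N → W × Bool) : ℝ :=
  ∑ m, |Z (ω m).1| ^ p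

theorem nuA_cons (Z : W → ℝ) (a : W × Bool) (ω : Fin N → W × Bool) :
    nuA Z (Fin.cons a ω : Fin (N + 1) → W × Bool) =
      (if Z a.1 = 0 then (0 : ℝ) else 1) + nuA Z ω := by
  simp [nuA, Fin.sum_univ_succ]

theorem spA_cons (Z : W → ℝ) (p : ℝ) (a : W × Bool) (ω : Fin N → W × Bool) :
    spA Z p (Fin.cons a ω : Fin (N + 1) → W × Bool) = |Z a.1| ^ p + spA Z p ω := by
  simp [spA, Fin.sum_univ_succ]

theorem spA_nonneg (Z : W → ℝ) (p : ℝ) (ω : Fin N → W × Bool) : 0 ≤ spA Z p ω :=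
  Finset.sum_nonneg fun _ _ => Real.rpow_nonneg (abs_nonneg _) _

theorem EN_succ' (N : ℕ) (f : (Fin (N + 1) → W × Bool) → ℝ)
    (hf : ∀ w ω, f (Fin.cons (w, false) ω) = f (Fin.cons (w, true) ω)) :
    EN μ (N + 1) f = ∑ w, μ w * EN μ N (fun ω => f (Fin.cons (w, true) ω)) := by
  rw [EN_succ]
  refine Finset.sum_congr rfl fun w _ => ?_
  simp only [hf]
  ring

theorem SS_zero (Z : W → ℝ) (ω : Fin 0 → W × Bool) : SS Z ω = 0 := by
  simp [SS]

theorem abs_SS_le (Z : W → ℝ) (ω : Fin N → W × Bool) : |SS Z ω| ≤ ∑ m, |Z (ω m).1| := by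
  unfold SS
  refine (Finset.abs_sum_le_sum_abs _ _).trans (Finset.sum_le_sum fun m _ => ?_)
  rw [abs_mul]
  have : |sg (ω m).2| = 1 := by
    unfold sg
    split_ifs <;> simp
  rw [this, one_mul]

/-- the finset of active atoms -/
noncomputable def actS (Z : W → ℝ) (ω : Fin N → W × Bool) : Finset (Fin N) :=
  Finset.univ.filter fun m => Z (ω m).1 ≠ 0

theorem nuA_eq_card (Z : W → ℝ) (ω : Fin N → W × Bool) : nuA Z ω = ((actS Z ω).card : ℝ) := by
  classical
  unfold nuA actS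
  rw [Finset.card_filter]
  push_cast
  refine Finset.sum_congr rfl fun m _ => ?_
  split_ifs <;> simp_all

theorem sum_act (Z : W → ℝ) (ω : Fin N → W × Bool) (g : ℝ → ℝ) (hg : g 0 = 0) :
    ∑ m, g (Z (ω m).1) = ∑ m ∈ actS Z ω, g (Z (ω m).1) := by
  classical
  unfold actS
  rw [Finset.sum_filter]
  refine Finset.sum_congr rfl fun m _ => ?_
  split_ifs with h
  · rfl
  · simp only [ne_eq, not_not] at h
    rw [h, hg]

theorem pointwise_le {p : ℝ} (hp : 1 ≤ p) (Z : W → ℝ) (ω : Fin N → W × Bool) :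
    |SS Z ω| ^ p ≤ Real.exp ((p - 1) * (nuA Z ω - 1)) * spA Z p ω := by
  have hp0 : 0 < p := by linarith
  have h1 : |SS Z ω| ^ p ≤ (∑ m, |Z (ω m).1|) ^ p :=
    Real.rpow_le_rpow (abs_nonneg _) (abs_SS_le Z ω) hp0.le
  have h2 : ∑ m, |Z (ω m).1| = ∑ m ∈ actS Z ω, |Z (ω m).1| :=
    sum_act Z ω (fun t => |t|) (by simp)
  have h3 : spA Z p ω = ∑ m ∈ actS Z ω, |Z (ω m).1| ^ p := by
    unfold spA
    exact sum_act Z ω (fun t => |t| ^ p) (by simp [Real.zero_rpow hp0.ne'])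
  rw [h2] at h1
  rcases (actS Z ω).eq_empty_or_nonempty with he | hne
  · rw [he] at h1
    simp only [Finset.sum_empty, Real.zero_rpow hp0.ne'] at h1
    exact h1.trans (mul_nonneg (Real.exp_nonneg _) (spA_nonneg Z p ω))
  · have h4 := Real.rpow_sum_le_const_mul_sum_rpow (actS Z ω) (fun m => Z (ω m).1) hp
    have hc : (1 : ℝ) ≤ (actS Z ω).card := by
      exact_mod_cast Finset.card_pos.mpr hne
    refine h1.trans (h4.trans ?_)
    rw [h3]
    apply mul_le_mul_of_nonneg_right _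
      (Finset.sum_nonneg fun _ _ => Real.rpow_nonneg (abs_nonneg _) _)
    rw [nuA_eq_card, mul_comm (p - 1), Real.exp_mul]
    apply Real.rpow_le_rpow (by linarith) _ (by linarith)
    have := Real.add_one_le_exp (((actS Z ω).card : ℝ) - 1)
    linarith

theorem pointwise_ge {p : ℝ} (hp : 1 ≤ p) (Z : W → ℝ) (ω : Fin N → W × Bool) :
    (2 - nuA Z ω) * spA Z p ω ≤ |SS Z ω| ^ p := by
  have hp0 : 0 < p := by linarith
  have h3 : spA Z p ω = ∑ m ∈ actS Z ω, |Z (ω m).1| ^ p := by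
    unfold spA
    exact sum_act Z ω (fun t => |t| ^ p) (by simp [Real.zero_rpow hp0.ne'])
  have hc : (actS Z ω).card = 0 ∨ (actS Z ω).card = 1 ∨ 2 ≤ (actS Z ω).card := by omega
  rcases hc with hc | hc | hc
  · rw [Finset.card_eq_zero] at hc
    rw [h3, hc]
    simp only [Finset.sum_empty, mul_zero]
    exact Real.rpow_nonneg (abs_nonneg _) _
  · obtain ⟨m, hm⟩ := Finset.card_eq_one.mp hc
    have h4 : SS Z ω = sg (ω m).2 * Z (ω m).1 := by
      unfold SS
      rw [Finset.sum_eq_single m]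
      · intro j _ hj
        have : j ∉ actS Z ω := by
          rw [hm]; simpa using hj
        have : Z (ω j).1 = 0 := by
          by_contra h
          exact this (by simp [actS, h])
        rw [this, mul_zero]
      · intro h; exact absurd (Finset.mem_univ m) h
    have h5 : |SS Z ω| = |Z (ω m).1| := by
      rw [h4, abs_mul]
      have : |sg (ω m).2| = 1 := by
        unfold sg
        split_ifs <;> simp
      rw [this, one_mul]
    rw [h3, nuA_eq_card, hm, h5]
    simp only [Finset.card_singleton, Nat.cast_one, Finset.sum_singleton]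
    apply le_of_eq
    ring
  · have h5 : (2 : ℝ) ≤ nuA Z ω := by
      rw [nuA_eq_card]; exact_mod_cast hc
    calc (2 - nuA Z ω) * spA Z p ω ≤ 0 :=
          mul_nonpos_of_nonpos_of_nonneg (by linarith) (spA_nonneg Z p ω)
      _ ≤ _ := Real.rpow_nonneg (abs_nonneg _) _

section rec
variable (hμ1 : ∑ w, μ w = 1) (p : ℝ) (Z : W → ℝ)

open Classical in
theorem sum_exp_act (hμ1 : ∑ w, μ w = 1) (p : ℝ) (Z : W → ℝ) :
    ∑ w, μ w * Real.exp ((p - 1) * (if Z w = 0 then (0 : ℝ) else 1)) =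
      1 + (∑ w, if Z w = 0 then 0 else μ w) * (Real.exp (p - 1) - 1) := by
  have h : ∀ w, μ w * Real.exp ((p - 1) * (if Z w = 0 then (0 : ℝ) else 1)) =
      μ w + (if Z w = 0 then 0 else μ w) * (Real.exp (p - 1) - 1) := by
    intro w
    split_ifs
    · simp
    · simp only [mul_one]; ring
  simp only [h, Finset.sum_add_distrib, hμ1, Finset.sum_mul]

open Classical in
theorem EN_exp_nu (hμ1 : ∑ w, μ w = 1) (p : ℝ) (Z : W → ℝ) (N : ℕ) :
    EN μ N (fun ω => Real.exp ((p - 1) * nuA Z ω)) =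
      (1 + (∑ w, if Z w = 0 then 0 else μ w) * (Real.exp (p - 1) - 1)) ^ N := by
  induction N with
  | zero =>
    have : (fun ω : Fin 0 → W × Bool => Real.exp ((p - 1) * nuA Z ω)) = fun _ => 1 := by
      funext ω; simp [nuA]
    rw [this, EN_const hμ1, pow_zero]
  | succ N ih =>
    rw [EN_succ' N _ (fun w ω => by simp only [nuA_cons])]
    have h1 : ∀ w, EN μ N (fun ω => Real.exp ((p - 1) *
        nuA Z (Fin.cons (w, true) ω : Fin (N + 1) → W × Bool))) =
        Real.exp ((p - 1) * (if Z w = 0 then (0 : ℝ) else 1)) *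
          EN μ N (fun ω => Real.exp ((p - 1) * nuA Z ω)) := by
      intro w
      rw [← EN_mul]
      congr 1
      funext ω
      rw [nuA_cons, mul_add, Real.exp_add]
    simp only [h1, ih]
    rw [pow_succ, ← sum_exp_act hμ1 p Z, mul_comm, Finset.sum_mul]
    refine Finset.sum_congr rfl fun w _ => ?_
    ring

open Classical in
theorem EN_exp_nu_sp (hμ1 : ∑ w, μ w = 1) {p : ℝ} (hp : 0 < p) (Z : W → ℝ) (N : ℕ) :
    (1 + (∑ w, if Z w = 0 then 0 else μ w) * (Real.exp (p - 1) - 1)) *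
    EN μ N (fun ω => Real.exp ((p - 1) * nuA Z ω) * spA Z p ω) =
      N * Real.exp (p - 1) * (∑ w, μ w * |Z w| ^ p) *
      (1 + (∑ w, if Z w = 0 then 0 else μ w) * (Real.exp (p - 1) - 1)) ^ N := by
  set c := (1 + (∑ w, if Z w = 0 then 0 else μ w) * (Real.exp (p - 1) - 1)) with hc
  induction N with
  | zero =>
    have : (fun ω : Fin 0 → W × Bool => Real.exp ((p - 1) * nuA Z ω) * spA Z p ω) =
        fun _ => 0 := by
      funext ω; simp [spA]
    rw [this, EN_const hμ1]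
    simp
  | succ N ih =>
    rw [EN_succ' N _ (fun w ω => by simp only [nuA_cons, spA_cons])]
    have h1 : ∀ w, EN μ N (fun ω => Real.exp ((p - 1) *
        nuA Z (Fin.cons (w, true) ω : Fin (N + 1) → W × Bool)) *
        spA Z p (Fin.cons (w, true) ω : Fin (N + 1) → W × Bool)) =
        Real.exp ((p - 1) * (if Z w = 0 then (0 : ℝ) else 1)) * |Z w| ^ p *
          EN μ N (fun ω => Real.exp ((p - 1) * nuA Z ω)) +
        Real.exp ((p - 1) * (if Z w = 0 then (0 : ℝ) else 1)) *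
          EN μ N (fun ω => Real.exp ((p - 1) * nuA Z ω) * spA Z p ω) := by
      intro w
      rw [← EN_mul, ← EN_mul, ← EN_add]
      congr 1
      funext ω
      rw [nuA_cons, spA_cons, mul_add (p - 1), Real.exp_add]
      ring
    simp only [h1, EN_exp_nu hμ1 p Z N]
    rw [← hc]
    have h2 : ∑ w, μ w * (Real.exp ((p - 1) * (if Z w = 0 then (0 : ℝ) else 1)) * |Z w| ^ p *
          c ^ N + Real.exp ((p - 1) * (if Z w = 0 then (0 : ℝ) else 1)) *
          EN μ N (fun ω => Real.exp ((p - 1) * nuA Z ω) * spA Z p ω)) =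
        Real.exp (p - 1) * (∑ w, μ w * |Z w| ^ p) * c ^ N +
        c * EN μ N (fun ω => Real.exp ((p - 1) * nuA Z ω) * spA Z p ω) := by
      have hc' : c = ∑ w, μ w * Real.exp ((p - 1) * (if Z w = 0 then (0 : ℝ) else 1)) := by
        rw [hc, sum_exp_act hμ1 p Z]
      have h3 : ∀ D B : ℝ, Real.exp (p - 1) * (∑ w, μ w * |Z w| ^ p) * D + c * B =
          ∑ w, (Real.exp (p - 1) * (μ w * |Z w| ^ p) * D +
            μ w * Real.exp ((p - 1) * (if Z w = 0 then (0 : ℝ) else 1)) * B) := by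
        intro D B
        rw [hc', Finset.mul_sum, Finset.sum_mul, Finset.sum_mul, ← Finset.sum_add_distrib]
      rw [h3]
      refine Finset.sum_congr rfl fun w _ => ?_
      by_cases hw : Z w = 0
      · simp [hw, Real.zero_rpow hp.ne']
      · simp only [hw, if_false, mul_one]
        ring
    rw [h2, mul_add, ih]
    push_cast
    ring

open Classical in
theorem EN_nu (hμ1 : ∑ w, μ w = 1) (Z : W → ℝ) (N : ℕ) :
    EN μ N (fun ω => nuA Z ω) = N * (∑ w, if Z w = 0 then 0 else μ w) := by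
  induction N with
  | zero =>
    have : (fun ω : Fin 0 → W × Bool => nuA Z ω) = fun _ => 0 := by
      funext ω; simp [nuA]
    rw [this, EN_const hμ1]; simp
  | succ N ih =>
    rw [EN_succ' N _ (fun w ω => by simp only [nuA_cons])]
    have h1 : ∀ w, EN μ N (fun ω => nuA Z (Fin.cons (w, true) ω : Fin (N + 1) → W × Bool)) =
        (if Z w = 0 then (0 : ℝ) else 1) + EN μ N (fun ω => nuA Z ω) := by
      intro w
      conv_rhs => rw [← EN_const (μ := μ) hμ1 N (if Z w = 0 then (0 : ℝ) else 1)]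
      rw [← EN_add]
      congr 1
      funext ω
      rw [nuA_cons]
    simp only [h1, ih, mul_add, Finset.sum_add_distrib, ← Finset.sum_mul, hμ1]
    have h2 : ∑ w, μ w * (if Z w = 0 then (0 : ℝ) else 1) = ∑ w, if Z w = 0 then 0 else μ w := by
      refine Finset.sum_congr rfl fun w _ => ?_
      split_ifs <;> simp
    rw [h2]
    push_cast
    ring

theorem EN_sp (hμ1 : ∑ w, μ w = 1) (p : ℝ) (Z : W → ℝ) (N : ℕ) :
    EN μ N (fun ω => spA Z p ω) = N * (∑ w, μ w * |Z w| ^ p) := by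
  induction N with
  | zero =>
    have : (fun ω : Fin 0 → W × Bool => spA Z p ω) = fun _ => 0 := by
      funext ω; simp [spA]
    rw [this, EN_const hμ1]; simp
  | succ N ih =>
    rw [EN_succ' N _ (fun w ω => by simp only [spA_cons])]
    have h1 : ∀ w, EN μ N (fun ω => spA Z p (Fin.cons (w, true) ω : Fin (N + 1) → W × Bool)) =
        |Z w| ^ p + EN μ N (fun ω => spA Z p ω) := by
      intro w
      conv_rhs => rw [← EN_const (μ := μ) hμ1 N (|Z w| ^ p)]
      rw [← EN_add]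
      congr 1
      funext ω
      rw [spA_cons]
    simp only [h1, ih, mul_add, Finset.sum_add_distrib, ← Finset.sum_mul, hμ1]
    push_cast
    ring

open Classical in
theorem EN_nu_sp (hμ1 : ∑ w, μ w = 1) {p : ℝ} (hp : 0 < p) (Z : W → ℝ) (N : ℕ) :
    EN μ N (fun ω => nuA Z ω * spA Z p ω) =
      N * (∑ w, μ w * |Z w| ^ p) +
        N * (N - 1) * (∑ w, if Z w = 0 then 0 else μ w) * (∑ w, μ w * |Z w| ^ p) := by
  induction N with
  | zero =>
    have : (fun ω : Fin 0 → W × Bool => nuA Z ω * spA Z p ω) = fun _ => 0 := by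
      funext ω; simp [spA]
    rw [this, EN_const hμ1]; simp
  | succ N ih =>
    rw [EN_succ' N _ (fun w ω => by simp only [nuA_cons, spA_cons])]
    have h1 : ∀ w, EN μ N (fun ω => nuA Z (Fin.cons (w, true) ω : Fin (N + 1) → W × Bool) *
        spA Z p (Fin.cons (w, true) ω : Fin (N + 1) → W × Bool)) =
        |Z w| ^ p + (if Z w = 0 then (0 : ℝ) else 1) * (N * (∑ w, μ w * |Z w| ^ p)) +
        |Z w| ^ p * (N * (∑ w, if Z w = 0 then 0 else μ w)) +
        EN μ N (fun ω => nuA Z ω * spA Z p ω) := by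
      intro w
      have h0 : (fun ω : Fin N → W × Bool =>
          nuA Z (Fin.cons (w, true) ω : Fin (N + 1) → W × Bool) *
          spA Z p (Fin.cons (w, true) ω : Fin (N + 1) → W × Bool)) =
          fun ω => |Z w| ^ p + (if Z w = 0 then (0 : ℝ) else 1) * spA Z p ω +
            |Z w| ^ p * nuA Z ω + nuA Z ω * spA Z p ω := by
        funext ω
        rw [nuA_cons, spA_cons]
        by_cases hw : Z w = 0
        · simp [hw, Real.zero_rpow hp.ne']
        · simp only [hw, if_false]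
          ring
      rw [h0, EN_add, EN_add, EN_add, EN_mul, EN_mul, EN_const hμ1, EN_sp hμ1, EN_nu hμ1]
    simp only [h1, ih, mul_add, Finset.sum_add_distrib, ← Finset.sum_mul, hμ1]
    have h2 : ∀ B : ℝ, ∑ w, μ w * ((if Z w = 0 then (0 : ℝ) else 1) * B) =
        (∑ w, if Z w = 0 then 0 else μ w) * B := by
      intro B
      rw [Finset.sum_mul]
      refine Finset.sum_congr rfl fun w _ => ?_
      split_ifs <;> simp
    have h3 : ∀ B : ℝ, ∑ w, μ w * (|Z w| ^ p * B) = (∑ w, μ w * |Z w| ^ p) * B := by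
      intro B
      rw [Finset.sum_mul]
      refine Finset.sum_congr rfl fun w _ => ?_
      ring
    rw [h2, h3]
    push_cast
    ring

end rec

/-- CHUNK MOM-SPARSE-UP. Sparse atoms, upper bound: `Z = 0` outside a set of measure `δ`.
PROOF. `|∑_{m} sg Z|^p ≤ ν^{p-1} ∑ |Z_m|^p ≤ ∑_m |Z_m|^p e^{(p-1) ν_m}`, `ν_m` = number of other active atoms
(`1 + ν_m ≤ e^{ν_m}`); independence: `E e^{(p-1)ν_m} ≤ (1 + δ (e^{p-1} - 1))^{N-1} ≤ exp (N δ e^{p-1})`.
(Or by induction on `N` of the statement with the weight `e^{(p-1)ν}` inserted.) -/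
theorem EN_sparse_le (hμ : ∀ w, 0 ≤ μ w) (hμ1 : ∑ w, μ w = 1) {p : ℝ} (hp : 1 ≤ p)
    (Z : W → ℝ) (N : ℕ) :
    EN μ N (fun ω => |SS Z ω| ^ p) ≤
      Real.exp (N * (∑ w, if Z w = 0 then 0 else μ w) * Real.exp (p - 1)) * (N * ∑ w, μ w * |Z w| ^ p) := by
  classical
  have hp0 : 0 < p := by linarith
  set δ := (∑ w, if Z w = 0 then 0 else μ w) with hδ
  have hδ0 : 0 ≤ δ := Finset.sum_nonneg fun w _ => by split_ifs <;> simp [hμ w]
  have he1 : 1 ≤ Real.exp (p - 1) := Real.one_le_exp (by linarith)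
  set c := 1 + δ * (Real.exp (p - 1) - 1) with hc
  have hc1 : 1 ≤ c := by
    have : 0 ≤ δ * (Real.exp (p - 1) - 1) := mul_nonneg hδ0 (by linarith)
    linarith
  have hA : 0 ≤ ∑ w, μ w * |Z w| ^ p :=
    Finset.sum_nonneg fun w _ => mul_nonneg (hμ w) (Real.rpow_nonneg (abs_nonneg _) _)
  have h1 : EN μ N (fun ω => |SS Z ω| ^ p) ≤
      Real.exp (-(p - 1)) * EN μ N (fun ω => Real.exp ((p - 1) * nuA Z ω) * spA Z p ω) := by
    rw [← EN_mul]
    apply EN_mono hμ
    intro ω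
    refine (pointwise_le hp Z ω).trans (le_of_eq ?_)
    rw [← mul_assoc, ← Real.exp_add]
    congr 2
    ring
  have h2 := EN_exp_nu_sp hμ1 hp0 Z N
  rw [← hδ, ← hc] at h2
  have h3 : EN μ N (fun ω => Real.exp ((p - 1) * nuA Z ω) * spA Z p ω) ≤
      c * EN μ N (fun ω => Real.exp ((p - 1) * nuA Z ω) * spA Z p ω) := by
    have h4 : 0 ≤ EN μ N (fun ω => Real.exp ((p - 1) * nuA Z ω) * spA Z p ω) := by
      have := EN_mono (N := N) hμ (f := fun _ => (0 : ℝ))
        (g := fun ω => Real.exp ((p - 1) * nuA Z ω) * spA Z p ω)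
        (fun ω => mul_nonneg (Real.exp_nonneg _) (spA_nonneg Z p ω))
      rwa [EN_const hμ1] at this
    nlinarith
  rw [h2] at h3
  have h5 : c ^ N ≤ Real.exp (N * δ * Real.exp (p - 1)) := by
    have h6 : c ≤ Real.exp (δ * Real.exp (p - 1)) := by
      have h7 := Real.add_one_le_exp (δ * Real.exp (p - 1))
      have h8 : c ≤ δ * Real.exp (p - 1) + 1 := by
        rw [hc]; linarith
      linarith
    calc c ^ N ≤ Real.exp (δ * Real.exp (p - 1)) ^ N := pow_le_pow_left₀ (by linarith) h6 N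
      _ = Real.exp (N * δ * Real.exp (p - 1)) := by
          rw [← Real.exp_nat_mul]; congr 1; ring
  calc EN μ N (fun ω => |SS Z ω| ^ p)
      ≤ Real.exp (-(p - 1)) * EN μ N (fun ω => Real.exp ((p - 1) * nuA Z ω) * spA Z p ω) := h1
    _ ≤ Real.exp (-(p - 1)) * (N * Real.exp (p - 1) * (∑ w, μ w * |Z w| ^ p) * c ^ N) :=
        mul_le_mul_of_nonneg_left h3 (Real.exp_nonneg _)
    _ = (Real.exp (-(p - 1)) * Real.exp (p - 1)) * (N * (∑ w, μ w * |Z w| ^ p)) * c ^ N := by ring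
    _ = c ^ N * (N * (∑ w, μ w * |Z w| ^ p)) := by
        rw [← Real.exp_add]
        simp
        ring
    _ ≤ Real.exp (N * δ * Real.exp (p - 1)) * (N * (∑ w, μ w * |Z w| ^ p)) := by
        apply mul_le_mul_of_nonneg_right h5
        exact mul_nonneg (Nat.cast_nonneg _) hA

/-- CHUNK MOM-SPARSE-LOW. Sparse atoms, lower bound: `E |∑ sg Z|^p ≥ N ∑ μ|Z|^p (1 - N μ(Z ≠ 0))`.
PROOF. `|∑ sg Z|^p ≥ ∑_m |Z_m|^p 1[all other atoms inactive] ≥ ∑_m |Z_m|^p (1 - ∑_{j ≠ m} 1[Z_j ≠ 0])` (if two atoms are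
active the right side is `≤ 0`), take expectations. -/
theorem EN_sparse_ge (hμ : ∀ w, 0 ≤ μ w) (hμ1 : ∑ w, μ w = 1) {p : ℝ} (hp : 1 ≤ p)
    (Z : W → ℝ) (N : ℕ) :
    (1 - N * (∑ w, if Z w = 0 then 0 else μ w)) * (N * ∑ w, μ w * |Z w| ^ p) ≤
      EN μ N (fun ω => |SS Z ω| ^ p) := by
  classical
  have hp0 : 0 < p := by linarith
  set δ := (∑ w, if Z w = 0 then 0 else μ w) with hδ
  have hδ0 : 0 ≤ δ := Finset.sum_nonneg fun w _ => by split_ifs <;> simp [hμ w]
  have hA : 0 ≤ ∑ w, μ w * |Z w| ^ p :=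
    Finset.sum_nonneg fun w _ => mul_nonneg (hμ w) (Real.rpow_nonneg (abs_nonneg _) _)
  have h1 : EN μ N (fun ω => 2 * spA Z p ω + (-1) * (nuA Z ω * spA Z p ω)) ≤
      EN μ N (fun ω => |SS Z ω| ^ p) := by
    apply EN_mono hμ
    intro ω
    refine le_trans (le_of_eq ?_) (pointwise_ge hp Z ω)
    ring
  rw [EN_add, EN_mul, EN_mul, EN_sp hμ1, EN_nu_sp hμ1 hp0, ← hδ] at h1
  refine le_trans ?_ h1
  have h2 : 0 ≤ (N : ℝ) * δ * ∑ w, μ w * |Z w| ^ p :=
    mul_nonneg (mul_nonneg (Nat.cast_nonneg _) hδ0) hA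
  nlinarith

end Crest.Agent.LpDim
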