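import Crest.Agent.LpDim.Mom1
import Crest.Agent.LpDim.Mom2

/-!
Row 232, CHUNK R232-BANDMP.
-/

set_option autoImplicit false

namespace Crest.Agent.LpDim

open Finset

variable {W : Type} [Fintype W] {μ : W → ℝ} {N : ℕ}

/-- normalised signed sum `N^{-1/p} ∑ sg Y` in `L_p`: abbreviation -/
noncomputable def Mp (μ : W → ℝ) (p : ℝ) (N : ℕ) (Y : W → ℝ) : ℝ :=
  (EN μ N (fun ω => |(N : ℝ) ^ (-(1 / p)) * SS Y ω| ^ p)) ^ (1 / p)

private lemma EN_nonneg (hμ : ∀ w, 0 ≤ μ w) {N : ℕ} {f : (Fin N → W × Bool) → ℝ}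
    (h : ∀ ω, 0 ≤ f ω) : 0 ≤ EN μ N f := by
  unfold EN
  refine Finset.sum_nonneg fun ω _ => mul_nonneg (Finset.prod_nonneg fun m _ => ?_) (h ω)
  exact div_nonneg (hμ _) (by norm_num)

private lemma Mp_eq {p : ℝ} (hp : 0 < p) {N : ℕ} (hN : 1 ≤ N) (Y : W → ℝ) :
    Mp μ p N Y = ((N : ℝ)⁻¹ * EN μ N (fun ω => |SS Y ω| ^ p)) ^ (1 / p) := by
  have hN0 : (0 : ℝ) < N := by exact_mod_cast hN
  unfold Mp
  congr 1
  rw [← EN_mul]
  congr 1
  funext ω
  rw [abs_mul, Real.mul_rpow (abs_nonneg _) (abs_nonneg _),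
    abs_of_nonneg (Real.rpow_nonneg hN0.le _), ← Real.rpow_mul hN0.le]
  congr 1
  rw [show -(1 / p) * p = -1 by field_simp, Real.rpow_neg_one]

private lemma EN_zero (f : (Fin 0 → W × Bool) → ℝ) : EN μ 0 f = f Fin.elim0 := by
  unfold EN
  rw [Fintype.sum_eq_single (Fin.elim0 : Fin 0 → W × Bool)]
  · simp
  · intro x hx
    exact absurd (Subsingleton.elim _ _) hx

private lemma EN_one_abs {p : ℝ} (Y : W → ℝ) :
    EN μ 1 (fun ω => |SS Y ω| ^ p) = ∑ w, μ w * |Y w| ^ p := by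
  rw [EN_succ (μ := μ) 0 (fun ω => |SS Y ω| ^ p)]
  refine Finset.sum_congr rfl fun w _ => ?_
  rw [EN_zero, EN_zero]
  rw [SS_cons, SS_cons]
  simp [SS, sg]
  ring

private lemma Mp_one {p : ℝ} (hp : 0 < p) (Y : W → ℝ) : Mp μ p 1 Y = wn μ p Y := by
  rw [Mp_eq hp le_rfl, EN_one_abs]
  simp [wn]

private lemma SS_add {N : ℕ} (Y Z : W → ℝ) (ω : Fin N → W × Bool) :
    SS (fun w => Y w + Z w) ω = SS Y ω + SS Z ω := by
  unfold SS
  rw [← Finset.sum_add_distrib]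
  exact Finset.sum_congr rfl fun m _ => by ring

private lemma Mp_add_le (hμ : ∀ w, 0 ≤ μ w) {p : ℝ} (hp : 1 ≤ p) {N : ℕ} (Y Z : W → ℝ) :
    Mp μ p N (fun w => Y w + Z w) ≤ Mp μ p N Y + Mp μ p N Z := by
  unfold Mp
  have := EN_minkowski (μ := μ) (N := N) hμ hp (fun ω => (N : ℝ) ^ (-(1 / p)) * SS Y ω)
    (fun ω => (N : ℝ) ^ (-(1 / p)) * SS Z ω)
  refine le_trans (le_of_eq ?_) this
  congr 2
  funext ω
  rw [SS_add, mul_add]

private lemma sum_nonneg' (hμ : ∀ w, 0 ≤ μ w) {p : ℝ} (Y : W → ℝ) :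
    0 ≤ ∑ w, μ w * |Y w| ^ p :=
  Finset.sum_nonneg fun w _ => mul_nonneg (hμ w) (Real.rpow_nonneg (abs_nonneg _) _)

private lemma wn_nonneg' (hμ : ∀ w, 0 ≤ μ w) {p : ℝ} (Y : W → ℝ) : 0 ≤ wn μ p Y :=
  Real.rpow_nonneg (sum_nonneg' hμ Y) _

private lemma Mp_le_wn (hμ : ∀ w, 0 ≤ μ w) (hμ1 : ∑ w, μ w = 1) {p : ℝ} (hp : 1 ≤ p) (hp2 : p ≤ 2)
    {N : ℕ} (hN : 1 ≤ N) (Y : W → ℝ) : Mp μ p N Y ≤ wn μ p Y := by
  have hN0 : (0 : ℝ) < N := by exact_mod_cast hN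
  have hp0 : 0 < p := by linarith
  rw [Mp_eq hp0 hN, wn]
  refine Real.rpow_le_rpow ?_ ?_ (by positivity)
  · exact mul_nonneg (inv_nonneg.2 hN0.le)
      (EN_nonneg hμ fun ω => Real.rpow_nonneg (abs_nonneg _) _)
  · rw [inv_mul_le_iff₀ hN0]
    exact EN_le_of_le_two hμ hμ1 hp hp2 Y N

/-- CHUNK BAND-LT. `1 ≤ p ≤ 2`. Two-sided bound for the normalised sum with `Y = b + g`, `b` sparse.
Upper: `EN_le_of_le_two`. Lower: `Mp (b) ≤ Mp (Y) + Mp (-g)` (Minkowski), `EN_sparse_ge` for `b`, `EN_le_of_le_two` for `g`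
(for `N = 1` `Mp` is exactly `wn`). -/
theorem Mp_lt (hμ : ∀ w, 0 ≤ μ w) (hμ1 : ∑ w, μ w = 1) {p : ℝ} (hp : 1 ≤ p) (hp2 : p ≤ 2)
    (Y b : W → ℝ) {N : ℕ} (hN : 1 ≤ N) (δ : ℝ) (hδ0 : 0 ≤ δ) (hδ1 : δ ≤ 1)
    (hδ : N = 1 ∨ N * (∑ w, if b w = 0 then 0 else μ w) ≤ δ) :
    Mp μ p N Y ≤ wn μ p Y ∧
      (1 - δ) ^ (1 / p) * wn μ p b - wn μ p (fun w => Y w - b w) ≤ Mp μ p N Y := by
  have hN0 : (0 : ℝ) < N := by exact_mod_cast hN
  have hp0 : 0 < p := by linarith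
  have hinv : 0 ≤ 1 / p := by positivity
  refine ⟨Mp_le_wn hμ hμ1 hp hp2 hN Y, ?_⟩
  have h1 : Mp μ p N b ≤ Mp μ p N Y + Mp μ p N (fun w => -(Y w - b w)) := by
    have := Mp_add_le (N := N) hμ hp Y (fun w => -(Y w - b w))
    refine le_trans (le_of_eq ?_) this
    congr 1
    funext w
    ring
  have h2 : Mp μ p N (fun w => -(Y w - b w)) ≤ wn μ p (fun w => Y w - b w) := by
    refine le_trans (Mp_le_wn hμ hμ1 hp hp2 hN _) (le_of_eq ?_)
    simp only [wn, abs_neg]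
  have h3 : (1 - δ) ^ (1 / p) * wn μ p b ≤ Mp μ p N b := by
    rcases hδ with h | h
    · subst h
      rw [Mp_one hp0]
      have : (1 - δ) ^ (1 / p) ≤ 1 := Real.rpow_le_one (by linarith) (by linarith) hinv
      nlinarith [wn_nonneg' (p := p) hμ b]
    · rw [Mp_eq hp0 hN, wn, ← Real.mul_rpow (by linarith) (sum_nonneg' hμ b)]
      refine Real.rpow_le_rpow (mul_nonneg (by linarith) (sum_nonneg' hμ b)) ?_ hinv
      have h4 := EN_sparse_ge (μ := μ) hμ hμ1 hp b N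
      rw [inv_eq_one_div, one_div_mul_eq_div, le_div_iff₀ hN0]
      refine le_trans ?_ h4
      have h5 := sum_nonneg' (p := p) hμ b
      have h6 : (0 : ℝ) ≤ N * ∑ w, μ w * |b w| ^ p := mul_nonneg hN0.le h5
      nlinarith
  linarith

/-- CHUNK BAND-GT. `p ≥ 2`. Lower bound `EN_ge_of_two_le`. Upper: split `Y` at height `τ`: large part sparse
(`N μ(|Y| > τ) ≤ δ`, `EN_sparse_le`), small part by `EN_exp_abs_le` with `s N^{1/p}... ` and `rpow_le_exp`: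
if `s N^{-1/p} τ ≤ 1` and `N (s N^{-1/p})² ∑ μ Y² ≤ 1` then `E|N^{-1/p} ∑ sg Y_small|^p ≤ (p/s)^p 2 e`. -/
theorem Mp_gt (hμ : ∀ w, 0 ≤ μ w) (hμ1 : ∑ w, μ w = 1) {p : ℝ} (hp : 2 ≤ p)
    (Y : W → ℝ) {N : ℕ} (hN : 1 ≤ N) (δ s τ : ℝ) (hδ0 : 0 ≤ δ) (hs : 0 < s) (hτ : 0 ≤ τ)
    (h : N = 1 ∨ (N * (∑ w, if τ < |Y w| then μ w else 0) ≤ δ ∧ s * (N : ℝ) ^ (-(1 / p)) * τ ≤ 1 ∧
      N * (s * (N : ℝ) ^ (-(1 / p))) ^ 2 * ∑ w, μ w * Y w ^ 2 ≤ 1)) :
    wn μ p Y ≤ Mp μ p N Y ∧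
      Mp μ p N Y ≤ Real.exp (δ * Real.exp (p - 1) / p) * wn μ p Y + 6 * p / s := by
  have hN0 : (0 : ℝ) < N := by exact_mod_cast hN
  have hp0 : 0 < p := by linarith
  have hp1 : 1 ≤ p := by linarith
  have hinv : 0 ≤ 1 / p := by positivity
  have hE : 0 ≤ δ * Real.exp (p - 1) / p := by positivity
  constructor
  · rw [Mp_eq hp0 hN, wn]
    refine Real.rpow_le_rpow (sum_nonneg' hμ Y) ?_ hinv
    rw [inv_eq_one_div, one_div_mul_eq_div, le_div_iff₀ hN0, mul_comm]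
    exact EN_ge_of_two_le hμ hμ1 hp Y N
  rcases h with h | ⟨hA, hB, hC⟩
  · subst h
    rw [Mp_one hp0]
    have h1 : 1 ≤ Real.exp (δ * Real.exp (p - 1) / p) := Real.one_le_exp hE
    have h2 := wn_nonneg' (p := p) hμ Y
    have h3 : 0 ≤ 6 * p / s := by positivity
    nlinarith
  set c : ℝ := (N : ℝ) ^ (-(1 / p)) with hc
  have hc0 : 0 ≤ c := Real.rpow_nonneg hN0.le _
  set Yl : W → ℝ := fun w => if τ < |Y w| then Y w else 0 with hYl
  set Ys : W → ℝ := fun w => if τ < |Y w| then 0 else Y w with hYs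
  have hsplit : Mp μ p N Y ≤ Mp μ p N Yl + Mp μ p N Ys := by
    have := Mp_add_le (N := N) hμ hp1 Yl Ys
    refine le_trans (le_of_eq ?_) this
    congr 1
    funext w
    simp only [hYl, hYs]
    split_ifs <;> simp
  have hl : Mp μ p N Yl ≤ Real.exp (δ * Real.exp (p - 1) / p) * wn μ p Y := by
    have h4 := EN_sparse_le (μ := μ) hμ hμ1 hp1 Yl N
    have hsum : (∑ w, if Yl w = 0 then 0 else μ w) = ∑ w, if τ < |Y w| then μ w else 0 := by
      refine Finset.sum_congr rfl fun w _ => ?_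
      simp only [hYl]
      by_cases hw : τ < |Y w|
      · have : Y w ≠ 0 := by
          intro h0
          rw [h0, abs_zero] at hw
          linarith
        simp [hw, this]
      · simp [hw]
    rw [hsum] at h4
    have h5 : Real.exp (N * (∑ w, if τ < |Y w| then μ w else 0) * Real.exp (p - 1)) ≤
        Real.exp (δ * Real.exp (p - 1)) :=
      Real.exp_le_exp.2 (mul_le_mul_of_nonneg_right hA (Real.exp_pos _).le)
    have h6 : ∑ w, μ w * |Yl w| ^ p ≤ ∑ w, μ w * |Y w| ^ p := by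
      refine Finset.sum_le_sum fun w _ => mul_le_mul_of_nonneg_left ?_ (hμ w)
      refine Real.rpow_le_rpow (abs_nonneg _) ?_ hp0.le
      simp only [hYl]
      split_ifs
      · exact le_rfl
      · rw [abs_zero]; exact abs_nonneg _
    have h7 : EN μ N (fun ω => |SS Yl ω| ^ p) ≤
        Real.exp (δ * Real.exp (p - 1)) * (N * ∑ w, μ w * |Y w| ^ p) := by
      refine h4.trans (mul_le_mul h5 (mul_le_mul_of_nonneg_left h6 hN0.le)
        (mul_nonneg hN0.le (sum_nonneg' hμ Yl)) (Real.exp_pos _).le)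
    rw [Mp_eq hp0 hN, wn]
    have h8 : Real.exp (δ * Real.exp (p - 1) / p) = (Real.exp (δ * Real.exp (p - 1))) ^ (1 / p) := by
      rw [← Real.exp_mul]; congr 1; ring
    rw [h8, ← Real.mul_rpow (Real.exp_pos _).le (sum_nonneg' hμ Y)]
    refine Real.rpow_le_rpow (mul_nonneg (inv_nonneg.2 hN0.le)
      (EN_nonneg hμ fun ω => Real.rpow_nonneg (abs_nonneg _) _)) ?_ hinv
    rw [inv_mul_le_iff₀ hN0]
    linarith
  have hsm : Mp μ p N Ys ≤ 6 * p / s := by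
    have hYsle : ∀ w, |Ys w| ≤ τ := by
      intro w
      simp only [hYs]
      split_ifs with hw
      · rw [abs_zero]; exact hτ
      · exact not_lt.1 hw
    have hsc : 0 ≤ s * c := mul_nonneg hs.le hc0
    have h1 := EN_exp_abs_le (μ := μ) hμ hμ1 Ys (s * c) (fun w => by
      rw [abs_mul, abs_of_nonneg hsc]
      exact (mul_le_mul_of_nonneg_left (hYsle w) hsc).trans hB) N
    have h2 : ∑ w, μ w * Ys w ^ 2 ≤ ∑ w, μ w * Y w ^ 2 := by
      refine Finset.sum_le_sum fun w _ => mul_le_mul_of_nonneg_left ?_ (hμ w)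
      simp only [hYs]
      split_ifs
      · simpa using sq_nonneg (Y w)
      · exact le_rfl
    have h3 : N * (s * c) ^ 2 * ∑ w, μ w * Ys w ^ 2 ≤ 1 :=
      (mul_le_mul_of_nonneg_left h2 (mul_nonneg hN0.le (sq_nonneg _))).trans hC
    have h4 : EN μ N (fun ω => Real.exp (|s * c| * |SS Ys ω|)) ≤ 2 * Real.exp 1 :=
      h1.trans (mul_le_mul_of_nonneg_left (Real.exp_le_exp.2 h3) (by norm_num))
    have h5 : EN μ N (fun ω => |c * SS Ys ω| ^ p) ≤ (p / s) ^ p * (2 * Real.exp 1) := by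
      have : EN μ N (fun ω => |c * SS Ys ω| ^ p) ≤
          EN μ N (fun ω => (p / s) ^ p * Real.exp (|s * c| * |SS Ys ω|)) := by
        refine EN_mono hμ fun ω => ?_
        have := rpow_le_exp (p := p) (s := s) (t := |c * SS Ys ω|) hp0 hs (abs_nonneg _)
        refine this.trans (le_of_eq ?_)
        congr 2
        rw [abs_mul, abs_mul, abs_of_nonneg hs.le]
        ring
      refine this.trans ?_
      rw [EN_mul]
      exact mul_le_mul_of_nonneg_left h4 (Real.rpow_nonneg (by positivity) _)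
    have h6 : Mp μ p N Ys ≤ ((p / s) ^ p * (2 * Real.exp 1)) ^ (1 / p) := by
      unfold Mp
      exact Real.rpow_le_rpow (EN_nonneg hμ fun ω => Real.rpow_nonneg (abs_nonneg _) _) h5 hinv
    refine h6.trans ?_
    rw [Real.mul_rpow (Real.rpow_nonneg (by positivity) _) (by positivity),
      ← Real.rpow_mul (by positivity), mul_one_div_cancel hp0.ne', Real.rpow_one]
    have h7 : (2 * Real.exp 1) ^ (1 / p) ≤ 6 := by
      have he : Real.exp 1 < 2.7182818286 := Real.exp_one_lt_d9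
      have he1 : 1 ≤ 2 * Real.exp 1 := by
        have := Real.add_one_le_exp (1 : ℝ)
        linarith
      calc (2 * Real.exp 1) ^ (1 / p) ≤ (2 * Real.exp 1) ^ (1 : ℝ) :=
            Real.rpow_le_rpow_of_exponent_le he1 (by rw [div_le_one hp0]; exact hp1)
        _ = 2 * Real.exp 1 := Real.rpow_one _
        _ ≤ 6 := by linarith
    have h8 : 0 ≤ p / s := by positivity
    calc p / s * (2 * Real.exp 1) ^ (1 / p) ≤ p / s * 6 := mul_le_mul_of_nonneg_left h7 h8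
      _ = 6 * p / s := by ring
  linarith

end Crest.Agent.LpDim
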