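import Crest.Agent.LpDim.NetDefs

/-!
Row 232, CHUNK R232-NET1.
-/

set_option autoImplicit false

namespace Crest.Agent.LpDim

open Finset

variable {V : Type} [Fintype V] [DecidableEq V]

/-- CHUNK NET. Existence: `K x y = τ P x y / (ρ x y ^ 2 ν x)` for `x ≠ y`, `K x x = 1 - ∑_{y ≠ x} K x y`, with
`τ > 0` so small that `∑_{y ≠ x} K x y ≤ 1/2` for all `x`. -/
theorem exists_netK [Nonempty V] (P ρ : V → V → ℝ) (hP : ∀ x y, 0 < P x y) (hPs : ∀ x y, P x y = P y x)
    (hP1 : ∑ x, ∑ y, P x y = 1) (hρ : ∀ x y, 0 < ρ x y) (hρs : ∀ x y, ρ x y = ρ y x) :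
    ∃ (ν : V → ℝ) (K : V → V → ℝ) (τ : ℝ), NetK P ρ ν K τ := by
  classical
  set ν : V → ℝ := fun x => ∑ y, P x y with hν
  have hνpos : ∀ x, 0 < ν x := fun x => Finset.sum_pos (fun y _ => hP x y) Finset.univ_nonempty
  set c : V → V → ℝ := fun x y => P x y / ρ x y ^ 2 / ν x with hc
  have hcpos : ∀ x y, 0 < c x y := fun x y =>
    div_pos (div_pos (hP x y) (pow_pos (hρ x y) 2)) (hνpos x)
  set C : ℝ := ∑ x, ∑ y, c x y with hC
  have hCpos : 0 < C := Finset.sum_pos
    (fun x _ => Finset.sum_pos (fun y _ => hcpos x y) Finset.univ_nonempty) Finset.univ_nonempty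
  set τ : ℝ := 1 / (2 * C) with hτ
  have hτpos : 0 < τ := by positivity
  have hoff : ∀ x, ∑ y ∈ Finset.univ.erase x, τ * c x y ≤ 1 / 2 := by
    intro x
    rw [← Finset.mul_sum]
    have h1 : ∑ y ∈ Finset.univ.erase x, c x y ≤ C := by
      calc ∑ y ∈ Finset.univ.erase x, c x y ≤ ∑ y, c x y :=
            Finset.sum_le_sum_of_subset_of_nonneg (Finset.subset_univ _)
              (fun y _ _ => (hcpos x y).le)
        _ ≤ C := Finset.single_le_sum (f := fun x => ∑ y, c x y)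
            (fun x _ => Finset.sum_nonneg fun y _ => (hcpos x y).le) (Finset.mem_univ x)
    calc τ * ∑ y ∈ Finset.univ.erase x, c x y ≤ τ * C :=
          mul_le_mul_of_nonneg_left h1 hτpos.le
      _ = 1 / 2 := by
        rw [hτ]
        field_simp
  set K : V → V → ℝ := fun x y =>
    if x = y then 1 - ∑ z ∈ Finset.univ.erase x, τ * c x z else τ * c x y with hK
  have hKd : ∀ x, K x x = 1 - ∑ z ∈ Finset.univ.erase x, τ * c x z := fun x => by
    simp only [hK, if_true]
  have hKo : ∀ x y, x ≠ y → K x y = τ * c x y := fun x y h => by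
    simp only [hK, if_neg h]
  have hKeq : ∀ x y, x ≠ y → ν x * K x y = τ * P x y / ρ x y ^ 2 := by
    intro x y h
    rw [hKo x y h]
    simp only [hc]
    have := (hνpos x).ne'
    field_simp
  refine ⟨ν, K, τ, ⟨hP, hPs, hP1, hρ, hρs, fun x => rfl, hτpos, hKeq, ?_⟩⟩
  refine ⟨hνpos, ?_, ?_, ?_, ?_⟩
  · intro x y
    by_cases h : x = y
    · subst h
      rw [hKd]
      linarith [hoff x]
    · rw [hKo x y h]
      exact (mul_pos hτpos (hcpos x y)).le
  · intro x
    rw [← Finset.add_sum_erase _ _ (Finset.mem_univ x), hKd]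
    have : ∑ y ∈ Finset.univ.erase x, K x y = ∑ y ∈ Finset.univ.erase x, τ * c x y :=
      Finset.sum_congr rfl fun y hy => hKo x y (Finset.ne_of_mem_erase hy).symm
    rw [this]
    ring
  · intro x y
    by_cases h : x = y
    · rw [h]
    · rw [hKeq x y h, hKeq y x (Ne.symm h), hPs x y, hρs x y]
  · intro x
    rw [hKd]
    linarith [hoff x]

/-- summation by parts -/
theorem dirichlet_form {P ρ : V → V → ℝ} {ν : V → ℝ} {K : V → V → ℝ} {τ : ℝ}
    (h : NetK P ρ ν K τ) (u g : V → ℝ) :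
    τ / 2 * ∑ a, ∑ b, P a b / ρ a b ^ 2 * ((u a - u b) * (g a - g b)) =
      ∑ a, ν a * (u a * (g a - app K g a)) := by
  have h1 : ∀ a b, τ / 2 * (P a b / ρ a b ^ 2 * ((u a - u b) * (g a - g b))) =
      1 / 2 * (ν a * K a b * (u a * (g a - g b)) + ν a * K a b * (u b * (g b - g a))) := by
    intro a b
    by_cases hab : a = b
    · subst hab
      ring
    · rw [h.K_eq a b hab]
      ring
  have h2 : ∑ a, ∑ b, ν a * K a b * (u b * (g b - g a)) =
      ∑ a, ∑ b, ν a * K a b * (u a * (g a - g b)) := by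
    rw [Finset.sum_comm]
    refine Finset.sum_congr rfl fun b _ => Finset.sum_congr rfl fun a _ => ?_
    rw [h.lrk.rev a b]
  have h3 : ∀ a, ∑ b, ν a * K a b * (u a * (g a - g b)) = ν a * (u a * (g a - app K g a)) := by
    intro a
    unfold app
    have : ∀ b, ν a * K a b * (u a * (g a - g b)) =
        ν a * u a * g a * K a b - ν a * u a * (K a b * g b) := fun b => by ring
    simp only [this]
    rw [Finset.sum_sub_distrib, ← Finset.mul_sum, ← Finset.mul_sum, h.lrk.sum_one a]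
    ring
  rw [Finset.mul_sum]
  have h4 : ∀ a, τ / 2 * ∑ b, P a b / ρ a b ^ 2 * ((u a - u b) * (g a - g b)) =
      1 / 2 * (∑ b, ν a * K a b * (u a * (g a - g b)) +
        ∑ b, ν a * K a b * (u b * (g b - g a))) := by
    intro a
    rw [Finset.mul_sum, ← Finset.sum_add_distrib, Finset.mul_sum]
    exact Finset.sum_congr rfl fun b _ => h1 a b
  simp only [h4]
  rw [← Finset.mul_sum, Finset.sum_add_distrib, h2]
  simp only [h3]
  ring

/-- the potential of a field -/
theorem Sop_eq (ρ : V → V → ℝ) (G : V → V → V → ℝ) (F : V → V → ℝ) (x y : V) :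
    Sop ρ G F x y = ((∑ a, ∑ b, G a b x * F a b) - ∑ a, ∑ b, G a b y * F a b) / ρ x y := by
  unfold Sop Sk
  rw [← Finset.sum_sub_distrib, Finset.sum_div]
  refine Finset.sum_congr rfl fun a _ => ?_
  rw [← Finset.sum_sub_distrib, Finset.sum_div]
  refine Finset.sum_congr rfl fun b _ => ?_
  ring

/-- the pairing of `GN` with a field -/
theorem GN_pair {P ρ : V → V → ℝ} {ν : V → ℝ} {K : V → V → ℝ} {τ : ℝ} (N : ℕ)
    (F : V → V → ℝ) (x : V) :
    ∑ a, ∑ b, GN P ρ ν K τ N a b x * F a b =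
      τ / 2 * ∑ a, ∑ b, P a b * (gr ρ (fun z => ∑ t ∈ range (2 * N), hk ν K t x z) a b * F a b) := by
  rw [Finset.mul_sum]
  refine Finset.sum_congr rfl fun a _ => ?_
  rw [Finset.mul_sum]
  refine Finset.sum_congr rfl fun b _ => ?_
  unfold GN gr
  rw [Finset.sum_sub_distrib]
  ring

/-- CHUNK TELESCOPE. `S_N ∇g = ∇ (g - K^{2N} g)`.
PROOF. `∑_{a,b} P a b (h_t(x,a) - h_t(x,b)) (g a - g b)/ρ a b² = (2/τ) ∑_a ν a h_t(x,a) (g a - (K g) a)
= (2/τ) ((K^t g) x - (K^{t+1} g) x)` (`K_eq`, `P_symm`, `iterate_app`), then telescoping. -/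
theorem telescope {P ρ : V → V → ℝ} {ν : V → ℝ} {K : V → V → ℝ} {τ : ℝ} (h : NetK P ρ ν K τ)
    (N : ℕ) (g : V → ℝ) (x y : V) :
    Sop ρ (GN P ρ ν K τ N) (gr ρ g) x y =
      gr ρ g x y - gr ρ (((app K)^[2 * N]) g) x y := by
  have key : ∀ x, ∑ a, ∑ b, GN P ρ ν K τ N a b x * gr ρ g a b =
      g x - ((app K)^[2 * N]) g x := by
    intro x
    rw [GN_pair]
    have h1 : τ / 2 * ∑ a, ∑ b, P a b *
        (gr ρ (fun z => ∑ t ∈ range (2 * N), hk ν K t x z) a b * gr ρ g a b) =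
        τ / 2 * ∑ a, ∑ b, P a b / ρ a b ^ 2 *
          (((fun z => ∑ t ∈ range (2 * N), hk ν K t x z) a -
            (fun z => ∑ t ∈ range (2 * N), hk ν K t x z) b) * (g a - g b)) := by
      congr 1
      refine Finset.sum_congr rfl fun a _ => Finset.sum_congr rfl fun b _ => ?_
      unfold gr
      ring
    rw [h1, dirichlet_form h]
    have h2 : ∀ a, ν a * ((fun z => ∑ t ∈ range (2 * N), hk ν K t x z) a * (g a - app K g a)) =
        ∑ t ∈ range (2 * N), (ν a * (hk ν K t x a * g a) - ν a * (hk ν K t x a * app K g a)) := by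
      intro a
      simp only
      rw [Finset.sum_mul, Finset.mul_sum]
      refine Finset.sum_congr rfl fun t _ => ?_
      ring
    simp only [h2]
    rw [Finset.sum_comm]
    have h3 : ∀ t, ∑ a, (ν a * (hk ν K t x a * g a) - ν a * (hk ν K t x a * app K g a)) =
        ((app K)^[t]) g x - ((app K)^[t + 1]) g x := by
      intro t
      rw [Finset.sum_sub_distrib, ← iterate_app h.lrk t g x, ← iterate_app h.lrk t (app K g) x,
        Function.iterate_succ_apply]
    simp only [h3]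
    rw [Finset.sum_range_sub' (fun t => ((app K)^[t]) g x)]
    rfl
  rw [Sop_eq, key, key]
  unfold gr
  ring

/-- `S_N F` depends only on the pairings of `F` with gradients. -/
theorem GN_congr {P ρ : V → V → ℝ} {ν : V → ℝ} {K : V → V → ℝ} {τ : ℝ} (h : NetK P ρ ν K τ)
    (N : ℕ) (F F' : V → V → ℝ)
    (hF : ∀ f : V → ℝ, ∑ x, ∑ y, P x y * (gr ρ f x y * F x y) = ∑ x, ∑ y, P x y * (gr ρ f x y * F' x y))
    (x y : V) : Sop ρ (GN P ρ ν K τ N) F x y = Sop ρ (GN P ρ ν K τ N) F' x y := by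
  rw [Sop_eq, Sop_eq, GN_pair, GN_pair, GN_pair, GN_pair, hF, hF]

end Crest.Agent.LpDim
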