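import Crest.Agent.LpDim.Heat

/-!
Row 232: the network of a probability `P` on pairs with lengths `ρ`: definitions.
-/

set_option autoImplicit false

namespace Crest.Agent.LpDim

open Finset

variable {V : Type} [Fintype V] [DecidableEq V]

/-- lazy kernel attached to `P`, `ρ`: `ν x K x y = τ P x y / ρ x y ^ 2` off the diagonal -/
structure NetK (P ρ : V → V → ℝ) (ν : V → ℝ) (K : V → V → ℝ) (τ : ℝ) : Prop where
  P_pos : ∀ x y, 0 < P x y
  P_symm : ∀ x y, P x y = P y x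
  P_sum : ∑ x, ∑ y, P x y = 1
  ρ_pos : ∀ x y, 0 < ρ x y
  ρ_symm : ∀ x y, ρ x y = ρ y x
  ν_eq : ∀ x, ν x = ∑ y, P x y
  τ_pos : 0 < τ
  K_eq : ∀ x y, x ≠ y → ν x * K x y = τ * P x y / ρ x y ^ 2
  lrk : LRK ν K

/-- the `N`-th approximation of the potential kernel -/
noncomputable def GN (P ρ : V → V → ℝ) (ν : V → ℝ) (K : V → V → ℝ) (τ : ℝ) (N : ℕ) (a b x : V) : ℝ :=
  τ / 2 * P a b / ρ a b * ∑ t ∈ range (2 * N), (hk ν K t x a - hk ν K t x b)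

/-- `A_t(z) = ∑∑ P |h_t(x,z) - h_t(y,z)| / ρ` -/
noncomputable def At (P ρ : V → V → ℝ) (ν : V → ℝ) (K : V → V → ℝ) (t : ℕ) (z : V) : ℝ :=
  ∑ x, ∑ y, P x y * |gr ρ (fun u => hk ν K t u z) x y|

end Crest.Agent.LpDim
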