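import Crest.Agent.LpDim.Defs

/-!
Row 232: data and objectives of the embedding problem (definitions).
-/

set_option autoImplicit false

namespace Crest.Agent.LpDim

open Finset

/-- data of the embedding problem -/
structure EmbData {n : ℕ} {W κ : Type} [Fintype W] [Fintype κ] (p : ℝ) (μ : W → ℝ)
    (ρ : Fin n → Fin n → ℝ) (X : Fin n → W → ℝ) (θ : κ → ℝ → ℝ) (c : ℝ) (om : κ → ℝ) : Prop where
  n_ge : 2 ≤ n
  μ_nonneg : ∀ w, 0 ≤ μ w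
  ρ_pos : ∀ x y, 0 < ρ x y
  ρ_symm : ∀ x y, ρ x y = ρ y x
  norm : ∀ x y, x ≠ y → ∑ w, μ w * |vv ρ X x y w| ^ p = 1
  bd : ∀ k t, |θ k t| ≤ 1
  c_pos : 0 < c
  lip : ∀ a b, ∑ k, |θ k a - θ k b| ≤ c * |a - b|
  om_nonneg : ∀ k, 0 ≤ om k
  om_le : ∀ x y w, ∑ k, om k * bb ρ X (θ k) x y w ^ 2 ≤ 2 * |vv ρ X x y w| ^ p

/-- the three objectives at a pair -/
noncomputable def ph1 {n : ℕ} (ρ : Fin n → Fin n → ℝ) (G : Fin n → Fin n → Fin n → ℝ) (x y : Fin n) : ℝ :=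
  ∑ a, ∑ b, |Sk ρ G x y a b|

noncomputable def ph2 {n : ℕ} {W κ : Type} [Fintype W] [Fintype κ] (p : ℝ) (μ : W → ℝ)
    (ρ : Fin n → Fin n → ℝ) (X : Fin n → W → ℝ) (θ : κ → ℝ → ℝ)
    (G : Fin n → Fin n → Fin n → ℝ) (x y : Fin n) : ℝ :=
  (∑ k, ∑ w, μ w * |bb ρ X (θ k) x y w - Sop ρ G (fun a b => bb ρ X (θ k) a b w) x y| ^ p) ^ (1 / p)

noncomputable def ph3 {n : ℕ} {W κ : Type} [Fintype W] [Fintype κ] (μ : W → ℝ)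
    (ρ : Fin n → Fin n → ℝ) (X : Fin n → W → ℝ) (θ : κ → ℝ → ℝ) (om : κ → ℝ)
    (G : Fin n → Fin n → Fin n → ℝ) (x y : Fin n) : ℝ :=
  ∑ k, om k * ∑ w, μ w * Sop ρ G (fun a b => bb ρ X (θ k) a b w) x y ^ 2

end Crest.Agent.LpDim
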