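import Crest.Agent.LpDim.ObjDefs

/-!
Row 232: definitions for the random functions (superposition of atoms in bands).
Parameters: `γ = |1-2/p|`, `T = 1 + log n`, band length `ℓ`, `K + 1` bands, `c₀ = 4p/|p-2|`.
-/

set_option autoImplicit false

namespace Crest.Agent.LpDim

open Finset

/-- input data: a finite probability space and `n` points in it, normalised -/
structure PtData {n : ℕ} {W : Type} [Fintype W] (p : ℝ) (μ : W → ℝ)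
    (ρ : Fin n → Fin n → ℝ) (X : Fin n → W → ℝ) : Prop where
  n_ge : 2 ≤ n
  μ_nonneg : ∀ w, 0 ≤ μ w
  μ_sum : ∑ w, μ w = 1
  ρ_pos : ∀ x y, 0 < ρ x y
  ρ_symm : ∀ x y, ρ x y = ρ y x
  norm : ∀ x y, x ≠ y → ∑ w, μ w * |vv ρ X x y w| ^ p = 1
  vbd : ∀ x y w, |vv ρ X x y w| ≤ (n : ℝ) ^ (2 / p)

noncomputable def c0 (p : ℝ) : ℝ := 4 * p / |p - 2|

/-- number of atoms in band `k` -/
noncomputable def Nk (p ℓ : ℝ) (k : ℕ) : ℕ := max 1 ⌊Real.exp ((p * ((k : ℝ) - 1) - c0 p) * ℓ)⌋₊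

/-- the weights of the third objective -/
noncomputable def omk (p ℓ : ℝ) (k : ℕ) : ℝ :=
  if 2 < p then (if k = 0 then 0 else Real.exp ((p - 2) * ((k : ℝ) - 1) * ℓ))
  else Real.exp (-((2 - p) * ((k : ℝ) + 1) * ℓ))

/-- all properties of the bands and of the operator that are used below; `B ≥ 1` a constant, `T = 1 + log n` -/
structure BandData {n : ℕ} {W : Type} [Fintype W] (p : ℝ) (μ : W → ℝ)
    (ρ : Fin n → Fin n → ℝ) (X : Fin n → W → ℝ) (ℓ : ℝ) (K : ℕ) (θ : Fin (K + 1) → ℝ → ℝ)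
    (G : Fin n → Fin n → Fin n → ℝ) (B ε₀ : ℝ) : Prop where
  pt : PtData p μ ρ X
  ℓ_pos : 0 < ℓ
  B_ge : 1 ≤ B
  top : (n : ℝ) ^ (2 / p) ≤ Real.exp (K * ℓ)
  θ_mem : ∀ k t, 0 ≤ θ k t ∧ θ k t ≤ 1
  θ_sum : ∀ t, ∑ k, θ k t ^ p = 1
  θ_lo : ∀ (k : Fin (K + 1)) t, 1 ≤ (k : ℕ) → θ k t ≠ 0 → ((k : ℕ) - 1 : ℝ) * ℓ ≤ t
  θ_up : ∀ (k : Fin (K + 1)) t, (k : ℕ) < K → θ k t ≠ 0 → t ≤ ((k : ℕ) + 1 : ℝ) * ℓ
  row : ∀ x y, ph1 ρ G x y ≤ B * (1 + Real.log n)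
  err : ∀ x y, ph2 p μ ρ X θ G x y ≤ ε₀
  l2 : ∀ x y, ph3 μ ρ X θ (fun k => omk p ℓ (k : ℕ)) G x y ≤ B

/-- `Y_k = S b_k` -/
noncomputable def Yk {n : ℕ} {W : Type} (ρ : Fin n → Fin n → ℝ) (X : Fin n → W → ℝ) (θ : ℝ → ℝ)
    (G : Fin n → Fin n → Fin n → ℝ) (x y : Fin n) (w : W) : ℝ :=
  Sop ρ G (fun a b => bb ρ X θ a b w) x y

end Crest.Agent.LpDim
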