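import Crest.Agent.LpDim.RDefs

/-!
Row 232, CHUNK R232-REMB.
-/

set_option autoImplicit false

namespace Crest.Agent.LpDim

open Finset

theorem omk_nonneg (p ℓ : ℝ) (k : ℕ) : 0 ≤ omk p ℓ k := by
  unfold omk
  split_ifs
  · exact le_rfl
  · exact (Real.exp_pos _).le
  · exact (Real.exp_pos _).le

/-- CHUNK R-EMB. The choice of weights `omk` satisfies `EmbData` (with `c = 40/ℓ`).
PROOF of `om_le`: for `p > 2`, `k ≥ 1`, `θ_k(log|v|) ≠ 0`: `|v|^{p-2} ≥ e^{(p-2)(k-1)ℓ}`; for `p < 2`, `k < K`: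
`|v| ≤ e^{(k+1)ℓ}`, and for `k = K` by `vbd`, `top`; then `∑ θ_k² ≤ 2`. -/
theorem embData_of {n : ℕ} {W : Type} [Fintype W] {p : ℝ} (hp1 : 1 < p) (hp2 : p ≠ 2) {μ : W → ℝ}
    {ρ : Fin n → Fin n → ℝ} {X : Fin n → W → ℝ} (h : PtData p μ ρ X) {ℓ : ℝ} (hℓ : 0 < ℓ) {K : ℕ}
    (hK : 1 ≤ K) (htop : (n : ℝ) ^ (2 / p) ≤ Real.exp (K * ℓ)) {θ : Fin (K + 1) → ℝ → ℝ}
    (h1 : ∀ k t, 0 ≤ θ k t ∧ θ k t ≤ 1) (h2 : ∀ t, ∑ k, θ k t ^ 2 ≤ 2)
    (h3 : ∀ a b, ∑ k, |θ k a - θ k b| ≤ 40 / ℓ * |a - b|)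
    (h4 : ∀ (k : Fin (K + 1)) t, 1 ≤ (k : ℕ) → θ k t ≠ 0 → ((k : ℕ) - 1 : ℝ) * ℓ ≤ t)
    (h5 : ∀ (k : Fin (K + 1)) t, (k : ℕ) < K → θ k t ≠ 0 → t ≤ ((k : ℕ) + 1 : ℝ) * ℓ) :
    EmbData p μ ρ X θ (40 / ℓ) (fun k => omk p ℓ (k : ℕ)) := by
  refine ⟨h.n_ge, h.μ_nonneg, h.ρ_pos, h.ρ_symm, h.norm, ?_, by positivity, h3,
    fun k => omk_nonneg p ℓ k, ?_⟩
  · intro k t
    rw [abs_of_nonneg (h1 k t).1]
    exact (h1 k t).2
  · intro x y w
    set v := vv ρ X x y w with hv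
    have hper : ∀ k : Fin (K + 1), omk p ℓ (k : ℕ) * bb ρ X (θ k) x y w ^ 2 ≤
        |v| ^ p * θ k (Real.log |v|) ^ 2 := by
      intro k
      have hbb : bb ρ X (θ k) x y w = v * θ k (Real.log |v|) := rfl
      rw [hbb, mul_pow]
      by_cases hθ : θ k (Real.log |v|) = 0
      · rw [hθ]; simp
      by_cases hv0 : v = 0
      · rw [hv0]
        have : (0:ℝ) ≤ |(0:ℝ)| ^ p * θ k (Real.log |(0:ℝ)|) ^ 2 :=
          mul_nonneg (Real.rpow_nonneg (abs_nonneg _) _) (sq_nonneg _)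
        simpa using this
      have hvpos : 0 < |v| := abs_pos.mpr hv0
      have hlogv : Real.exp ((p - 2) * Real.log |v|) * |v| ^ 2 = |v| ^ p := by
        rw [show (p - 2) * Real.log |v| = Real.log |v| * (p - 2) by ring,
          ← Real.rpow_def_of_pos hvpos, ← Real.rpow_natCast |v| 2, ← Real.rpow_add hvpos]
        congr 1
        push_cast
        ring
      have hle : omk p ℓ (k : ℕ) ≤ Real.exp ((p - 2) * Real.log |v|) := by
        unfold omk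
        split_ifs with hp hk
        · exact (Real.exp_pos _).le
        · apply Real.exp_le_exp.mpr
          have hk1 : 1 ≤ (k : ℕ) := Nat.one_le_iff_ne_zero.mpr hk
          have := h4 k _ hk1 hθ
          have hp' : 0 < p - 2 := by linarith
          calc (p - 2) * (((k : ℕ) : ℝ) - 1) * ℓ = (p - 2) * ((((k : ℕ) : ℝ) - 1) * ℓ) := by ring
            _ ≤ (p - 2) * Real.log |v| := mul_le_mul_of_nonneg_left this hp'.le
        · apply Real.exp_le_exp.mpr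
          have hp' : 0 < 2 - p := by
            have : p < 2 := lt_of_le_of_ne (not_lt.mp hp) hp2
            linarith
          have hup : Real.log |v| ≤ (((k : ℕ) : ℝ) + 1) * ℓ := by
            rcases lt_or_ge (k : ℕ) K with hkK | hkK
            · exact h5 k _ hkK hθ
            · have hkeq : (k : ℕ) = K := le_antisymm (Nat.lt_succ_iff.mp k.isLt) hkK
              rw [hkeq]
              have hvb := h.vbd x y w
              have h6 : Real.log |v| ≤ K * ℓ := by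
                rw [← Real.log_exp (K * ℓ)]
                exact Real.log_le_log hvpos (le_trans hvb htop)
              linarith
          have := mul_le_mul_of_nonneg_left hup hp'.le
          linarith
      have hv2 : v ^ 2 = |v| ^ 2 := (sq_abs v).symm
      calc omk p ℓ (k : ℕ) * (v ^ 2 * θ k (Real.log |v|) ^ 2)
          = omk p ℓ (k : ℕ) * |v| ^ 2 * θ k (Real.log |v|) ^ 2 := by rw [hv2]; ring
        _ ≤ Real.exp ((p - 2) * Real.log |v|) * |v| ^ 2 * θ k (Real.log |v|) ^ 2 := by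
            gcongr
        _ = |v| ^ p * θ k (Real.log |v|) ^ 2 := by rw [hlogv]
    calc ∑ k : Fin (K + 1), omk p ℓ (k : ℕ) * bb ρ X (θ k) x y w ^ 2
        ≤ ∑ k : Fin (K + 1), |v| ^ p * θ k (Real.log |v|) ^ 2 := Finset.sum_le_sum fun k _ => hper k
      _ = |v| ^ p * ∑ k, θ k (Real.log |v|) ^ 2 := by rw [Finset.mul_sum]
      _ ≤ |v| ^ p * 2 := mul_le_mul_of_nonneg_left (h2 _) (Real.rpow_nonneg (abs_nonneg _) _)
      _ = 2 * |v| ^ p := by ring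

/-- facts on `Nk`: `1 ≤ Nk`, `Nk ≥ (1/2) e^{(p(k-1)-c₀)ℓ}`, and `Nk = 1` or `Nk ≤ e^{(p(k-1)-c₀)ℓ}`; the latter forces `k ≥ 2`. -/
theorem Nk_facts (p ℓ : ℝ) (hp : 1 < p) (hℓ : 0 < ℓ) (k : ℕ) :
    1 ≤ Nk p ℓ k ∧ 1 / 2 * Real.exp ((p * ((k : ℝ) - 1) - c0 p) * ℓ) ≤ Nk p ℓ k ∧
      (Nk p ℓ k = 1 ∨ (Nk p ℓ k : ℝ) ≤ Real.exp ((p * ((k : ℝ) - 1) - c0 p) * ℓ)) ∧
      (Nk p ℓ k ≠ 1 → 2 ≤ k) := by
  have hdef : Nk p ℓ k = max 1 ⌊Real.exp ((p * ((k : ℝ) - 1) - c0 p) * ℓ)⌋₊ := rfl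
  set E := Real.exp ((p * ((k : ℝ) - 1) - c0 p) * ℓ) with hE
  have hE0 : 0 < E := Real.exp_pos _
  have hone : 1 ≤ Nk p ℓ k := by rw [hdef]; exact le_max_left _ _
  have hfl : (⌊E⌋₊ : ℝ) ≤ Nk p ℓ k := by
    rw [hdef]; exact_mod_cast le_max_right _ _
  have hfle : (⌊E⌋₊ : ℝ) ≤ E := Nat.floor_le hE0.le
  have hlt : E < ⌊E⌋₊ + 1 := Nat.lt_floor_add_one E
  have hone' : (1 : ℝ) ≤ Nk p ℓ k := by exact_mod_cast hone
  refine ⟨hone, by linarith, ?_, ?_⟩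
  · rcases le_or_gt ⌊E⌋₊ 1 with hc | hc
    · left; rw [hdef]; exact max_eq_left hc
    · right; rw [hdef, max_eq_right hc.le]; exact hfle
  · intro hne
    by_contra hk
    push Not at hk
    apply hne
    have hk1 : (k : ℝ) ≤ 1 := by exact_mod_cast Nat.lt_succ_iff.mp hk
    have hc0 : 0 ≤ c0 p := by unfold c0; positivity
    have hexp : (p * ((k : ℝ) - 1) - c0 p) * ℓ ≤ 0 := by
      apply mul_nonpos_of_nonpos_of_nonneg _ hℓ.le
      have : p * ((k : ℝ) - 1) ≤ 0 := mul_nonpos_of_nonneg_of_nonpos (by linarith) (by linarith)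
      linarith
    have hE1 : E ≤ 1 := by rw [hE]; exact Real.exp_le_one_iff.mpr hexp
    have : ⌊E⌋₊ ≤ 1 := by
      have h7 : (⌊E⌋₊ : ℝ) ≤ 1 := le_trans hfle hE1
      exact_mod_cast h7
    rw [hdef]; exact max_eq_left this

end Crest.Agent.LpDim
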