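import Crest.Agent.LpDim.RFacts
import Crest.Agent.LpDim.REmb
import Crest.Agent.LpDim.Atoms

/-!
Row 232, CHUNK R232-REXP.
-/

set_option autoImplicit false

namespace Crest.Agent.LpDim

open Finset

theorem rexp_c0_pos (p : ℝ) (hp1 : 1 < p) (hp2 : p ≠ 2) : 0 < c0 p := by
  unfold c0
  have : 0 < |p - 2| := abs_pos.mpr (sub_ne_zero.mpr hp2)
  positivity

/-- if `N ≥ (1/2) e^{a}` then `N^{-r} ≤ 2^r e^{-ra}` -/
theorem rexp_rpow_neg_le {N a r : ℝ} (hN : 1 / 2 * Real.exp a ≤ N) (hr : 0 ≤ r) (hr1 : r ≤ 1) :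
    N ^ (-r) ≤ 2 * Real.exp (-(r * a)) := by
  have h0 : (0 : ℝ) < 1 / 2 * Real.exp a := by positivity
  have h1 : N ^ (-r) ≤ (1 / 2 * Real.exp a) ^ (-r) :=
    Real.rpow_le_rpow_of_nonpos h0 hN (by linarith)
  refine h1.trans ?_
  rw [Real.mul_rpow (by norm_num) (Real.exp_pos a).le, ← Real.exp_mul]
  have h2 : (1 / 2 : ℝ) ^ (-r) ≤ 2 := by
    have : (1 / 2 : ℝ) ^ (-r) = 2 ^ r := by
      rw [Real.rpow_neg (by norm_num), one_div, Real.inv_rpow (by norm_num), inv_inv]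
    rw [this]
    calc (2 : ℝ) ^ r ≤ 2 ^ (1 : ℝ) := Real.rpow_le_rpow_of_exponent_le (by norm_num) hr1
      _ = 2 := Real.rpow_one 2
  have h3 : a * -r = -(r * a) := by ring
  rw [h3]
  exact mul_le_mul_of_nonneg_right h2 (Real.exp_pos _).le

/-- if `0 < N ≤ e^{a}` then `N^{r} ≤ e^{ra}` -/
theorem rexp_rpow_le {N a r : ℝ} (hN0 : 0 ≤ N) (hN : N ≤ Real.exp a) (hr : 0 ≤ r) :
    N ^ r ≤ Real.exp (r * a) := by
  calc N ^ r ≤ (Real.exp a) ^ r := Real.rpow_le_rpow hN0 hN hr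
    _ = Real.exp (r * a) := by rw [← Real.exp_mul, mul_comm]

/-- CHUNK R-EXP. Exponential moments of all bands.
PROOF. `s = e^{-C ℓ}/(C B T)`; `EN_exp_abs_le` for `N^{-1/p} Y_k`: need `s N^{-1/p} |Y_k| ≤ 1`
(`N^{-1/p} ≤ 2 e^{-(k-1)ℓ + c₀ℓ/p}` by `Nk_facts`, `Y_sup`) and `N (s N^{-1/p})² ∑ μ Y_k² ≤ 1`:
`N = 1`: from the sup bound; `N ≥ 2`, `p > 2`: `N^{1-2/p} ≤ e^{(p-2)(k-1)ℓ}` and `Y_l2`;
`p < 2`: `N^{-(2/p-1)} ≤ 2 e^{-(2-p)(k-1)ℓ + c₀(2/p-1)ℓ}` and `Y_l2`. (Any `C = C(p)` that works.) -/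
theorem exp_moment (p : ℝ) (hp1 : 1 < p) (hp2 : p ≠ 2) : ∃ C : ℝ, 1 ≤ C ∧
    ∀ (n : ℕ) (W : Type) [Fintype W] (μ : W → ℝ) (ρ : Fin n → Fin n → ℝ) (X : Fin n → W → ℝ)
      (ℓ : ℝ) (K : ℕ) (θ : Fin (K + 1) → ℝ → ℝ) (G : Fin n → Fin n → Fin n → ℝ) (B ε₀ : ℝ),
      BandData p μ ρ X ℓ K θ G B ε₀ → ∀ (x y : Fin n) (k : Fin (K + 1)),
        EN μ (Nk p ℓ k) (fun ω => Real.exp (Real.exp (-(C * ℓ)) / (C * B * (1 + Real.log n)) *
          |(Nk p ℓ k : ℝ) ^ (-(1 / p)) * SS (Yk ρ X (θ k) G x y) ω|)) ≤ 6 := by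
  have hc0 := rexp_c0_pos p hp1 hp2
  have hp0 : 0 < p := by linarith
  refine ⟨4 + c0 p, by linarith, ?_⟩
  intro n W _ μ ρ X ℓ K θ G B ε₀ h x y k
  obtain ⟨C, hC⟩ : ∃ C, C = 4 + c0 p := ⟨_, rfl⟩
  rw [← hC]
  have hn : 2 ≤ n := h.pt.n_ge
  have hn1 : (1 : ℝ) ≤ n := by exact_mod_cast (by omega : 1 ≤ n)
  have hlog : 0 ≤ Real.log n := Real.log_nonneg hn1
  obtain ⟨T, hT⟩ : ∃ T, T = 1 + Real.log n := ⟨_, rfl⟩
  rw [← hT]
  have hT1 : 1 ≤ T := by linarith
  have hB1 := h.B_ge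
  have hℓ := h.ℓ_pos
  have hC4 : 4 ≤ C := by linarith
  obtain ⟨hN1, hNlow, hNup, hNk⟩ := Nk_facts p ℓ hp1 hℓ (k : ℕ)
  obtain ⟨N, hN⟩ : ∃ N : ℕ, N = Nk p ℓ k := ⟨_, rfl⟩
  rw [← hN] at hN1 hNlow hNup hNk ⊢
  have hNpos : (0 : ℝ) < N := by exact_mod_cast hN1
  obtain ⟨κ, hκ⟩ : ∃ κ : ℝ, κ = ((k : ℕ) : ℝ) := ⟨_, rfl⟩
  rw [← hκ] at hNlow hNup
  have hκ0 : 0 ≤ κ := by rw [hκ]; positivity
  obtain ⟨s, hs⟩ : ∃ s, s = Real.exp (-(C * ℓ)) / (C * B * T) := ⟨_, rfl⟩
  rw [← hs]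
  have hCBT : 0 < C * B * T := by positivity
  have hspos : 0 < s := by rw [hs]; positivity
  obtain ⟨Y, hY⟩ : ∃ Y, Y = Yk ρ X (θ k) G x y := ⟨_, rfl⟩
  rw [← hY]
  have hNr : 0 < (N : ℝ) ^ (-(1 / p)) := Real.rpow_pos_of_pos hNpos _
  have hp1' : 1 / p ≤ 1 := by rw [div_le_one hp0]; exact hp1.le
  -- the sup bound
  have hsup : ∀ w, |s * (N : ℝ) ^ (-(1 / p)) * Y w| ≤ 1 := by
    intro w
    have h1 : |Y w| ≤ B * T * Real.exp ((κ + 1) * ℓ) := by
      rw [hY, hκ, hT]; exact Y_sup h hp1 x y k w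
    have h2 : (N : ℝ) ^ (-(1 / p)) ≤ 2 * Real.exp (-(1 / p * ((p * (κ - 1) - c0 p) * ℓ))) :=
      rexp_rpow_neg_le hNlow (by positivity) hp1'
    rw [abs_mul, abs_of_pos (mul_pos hspos hNr)]
    calc s * (N : ℝ) ^ (-(1 / p)) * |Y w|
        ≤ s * (2 * Real.exp (-(1 / p * ((p * (κ - 1) - c0 p) * ℓ)))) *
            (B * T * Real.exp ((κ + 1) * ℓ)) := by
          gcongr
      _ = 2 / C * (Real.exp (-(C * ℓ)) * Real.exp (-(1 / p * ((p * (κ - 1) - c0 p) * ℓ))) *
            Real.exp ((κ + 1) * ℓ)) := by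
          rw [hs]; field_simp
      _ = 2 / C * Real.exp (-(C * ℓ) + (2 + c0 p / p) * ℓ) := by
          rw [← Real.exp_add, ← Real.exp_add]
          congr 2
          field_simp
          ring
      _ ≤ 1 * 1 := by
          have h3 : c0 p / p ≤ c0 p := by
            rw [div_le_iff₀ hp0]; nlinarith
          have h4 : Real.exp (-(C * ℓ) + (2 + c0 p / p) * ℓ) ≤ 1 := by
            rw [Real.exp_le_one_iff]
            nlinarith
          have h5 : 2 / C ≤ 1 := by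
            rw [div_le_one (by linarith)]; linarith
          exact mul_le_mul h5 h4 (Real.exp_pos _).le (by norm_num)
      _ = 1 := by norm_num
  -- the second moment bound
  have hvar : (N : ℝ) * (s * (N : ℝ) ^ (-(1 / p))) ^ 2 * ∑ w, μ w * Y w ^ 2 ≤ 1 := by
    have hμ := h.pt.μ_nonneg
    have hμ1 := h.pt.μ_sum
    rcases eq_or_ne N 1 with hN' | hN'
    · -- `N = 1`
      have : (N : ℝ) * (s * (N : ℝ) ^ (-(1 / p))) ^ 2 * ∑ w, μ w * Y w ^ 2 =
          ∑ w, μ w * (|s * (N : ℝ) ^ (-(1 / p)) * Y w|) ^ 2 := by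
        rw [Finset.mul_sum]
        refine Finset.sum_congr rfl fun w _ => ?_
        rw [sq_abs, hN']
        push_cast
        ring
      rw [this]
      refine le_trans (Finset.sum_le_sum fun w _ => ?_) hμ1.le
      have h1 : (|s * (N : ℝ) ^ (-(1 / p)) * Y w|) ^ 2 ≤ 1 :=
        pow_le_one₀ (abs_nonneg _) (hsup w)
      nlinarith [hμ w]
    · have hk2 : 2 ≤ (k : ℕ) := hNk hN'
      have hNle : (N : ℝ) ≤ Real.exp ((p * (κ - 1) - c0 p) * ℓ) := by
        rcases hNup with h1 | h1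
        · exact absurd h1 hN'
        · exact h1
      have hκ2 : 2 ≤ κ := by rw [hκ]; exact_mod_cast hk2
      have hpow : (N : ℝ) * (s * (N : ℝ) ^ (-(1 / p))) ^ 2 = s ^ 2 * (N : ℝ) ^ (1 - 2 / p) := by
        rw [mul_pow, ← Real.rpow_natCast ((N : ℝ) ^ (-(1 / p))) 2, ← Real.rpow_mul hNpos.le]
        have : (1 - 2 / p : ℝ) = 1 + -(1 / p) * ((2 : ℕ) : ℝ) := by push_cast; ring
        rw [this, Real.rpow_add hNpos, Real.rpow_one]
        ring
      rw [hpow]
      have hsum0 : 0 ≤ ∑ w, μ w * Y w ^ 2 :=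
        Finset.sum_nonneg fun w _ => mul_nonneg (hμ w) (sq_nonneg _)
      have hs2 : s ^ 2 = Real.exp (-(2 * C * ℓ)) / (C * B * T) ^ 2 := by
        rw [hs, div_pow, ← Real.exp_nat_mul]
        congr 2
        push_cast; ring
      rcases lt_or_gt_of_ne hp2 with hlt | hgt
      · -- `p < 2`
        have hom : omk p ℓ (k : ℕ) = Real.exp (-((2 - p) * (κ + 1) * ℓ)) := by
          unfold omk
          rw [if_neg (by linarith), hκ]
        have h1 : ∑ w, μ w * Y w ^ 2 ≤ B / omk p ℓ (k : ℕ) := by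
          rw [hY]; exact Y_l2 h x y k (by rw [hom]; exact Real.exp_pos _)
        rw [hom] at h1
        have h1' : ∑ w, μ w * Y w ^ 2 ≤ B * Real.exp ((2 - p) * (κ + 1) * ℓ) := by
          refine h1.trans (le_of_eq ?_)
          rw [Real.exp_neg, div_inv_eq_mul]
        have hr0 : 0 ≤ 2 / p - 1 := by
          rw [sub_nonneg, le_div_iff₀ hp0]; linarith
        have hr1 : 2 / p - 1 ≤ 1 := by
          have : 2 / p ≤ 2 := by rw [div_le_iff₀ hp0]; linarith
          linarith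
        have h2 : (N : ℝ) ^ (1 - 2 / p) ≤
            2 * Real.exp (-((2 / p - 1) * ((p * (κ - 1) - c0 p) * ℓ))) := by
          have := rexp_rpow_neg_le hNlow hr0 hr1
          have e : -(2 / p - 1) = 1 - 2 / p := by ring
          rwa [e] at this
        calc s ^ 2 * (N : ℝ) ^ (1 - 2 / p) * ∑ w, μ w * Y w ^ 2
            ≤ s ^ 2 * (2 * Real.exp (-((2 / p - 1) * ((p * (κ - 1) - c0 p) * ℓ)))) *
                (B * Real.exp ((2 - p) * (κ + 1) * ℓ)) := by
              gcongr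
          _ = 2 * B / (C * B * T) ^ 2 * (Real.exp (-(2 * C * ℓ)) *
                Real.exp (-((2 / p - 1) * ((p * (κ - 1) - c0 p) * ℓ))) *
                Real.exp ((2 - p) * (κ + 1) * ℓ)) := by
              rw [hs2]; ring
          _ = 2 * B / (C * B * T) ^ 2 * Real.exp (-(2 * C * ℓ) +
                (2 * (2 - p) + c0 p * (2 / p - 1)) * ℓ) := by
              rw [← Real.exp_add, ← Real.exp_add]
              congr 2
              field_simp
              ring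
          _ ≤ 1 * 1 := by
              have h4 : Real.exp (-(2 * C * ℓ) + (2 * (2 - p) + c0 p * (2 / p - 1)) * ℓ) ≤ 1 := by
                rw [Real.exp_le_one_iff]
                have h5 : c0 p * (2 / p - 1) ≤ c0 p := by nlinarith
                nlinarith
              have h6 : 2 * B / (C * B * T) ^ 2 ≤ 1 := by
                rw [div_le_one (by positivity)]
                have h7 : 4 ≤ C * T := by nlinarith
                have h8 : 4 * B ≤ C * B * T := by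
                  calc 4 * B ≤ (C * T) * B := by gcongr
                    _ = C * B * T := by ring
                nlinarith
              exact mul_le_mul h6 h4 (Real.exp_pos _).le (by norm_num)
          _ = 1 := by norm_num
      · -- `p > 2`
        have hom : omk p ℓ (k : ℕ) = Real.exp ((p - 2) * (κ - 1) * ℓ) := by
          unfold omk
          rw [if_pos hgt, if_neg (by omega), hκ]
        have h1 : ∑ w, μ w * Y w ^ 2 ≤ B / omk p ℓ (k : ℕ) := by
          rw [hY]; exact Y_l2 h x y k (by rw [hom]; exact Real.exp_pos _)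
        rw [hom] at h1
        have h1' : ∑ w, μ w * Y w ^ 2 ≤ B * Real.exp (-((p - 2) * (κ - 1) * ℓ)) := by
          refine h1.trans (le_of_eq ?_)
          rw [Real.exp_neg, div_eq_mul_inv]
        have hr0 : 0 ≤ 1 - 2 / p := by
          rw [sub_nonneg, div_le_one hp0]; linarith
        have h2 : (N : ℝ) ^ (1 - 2 / p) ≤
            Real.exp ((1 - 2 / p) * ((p * (κ - 1) - c0 p) * ℓ)) :=
          rexp_rpow_le hNpos.le hNle hr0
        calc s ^ 2 * (N : ℝ) ^ (1 - 2 / p) * ∑ w, μ w * Y w ^ 2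
            ≤ s ^ 2 * Real.exp ((1 - 2 / p) * ((p * (κ - 1) - c0 p) * ℓ)) *
                (B * Real.exp (-((p - 2) * (κ - 1) * ℓ))) := by
              gcongr
          _ = B / (C * B * T) ^ 2 * (Real.exp (-(2 * C * ℓ)) *
                Real.exp ((1 - 2 / p) * ((p * (κ - 1) - c0 p) * ℓ)) *
                Real.exp (-((p - 2) * (κ - 1) * ℓ))) := by
              rw [hs2]; ring
          _ = B / (C * B * T) ^ 2 * Real.exp (-(2 * C * ℓ) - c0 p * (1 - 2 / p) * ℓ) := by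
              rw [← Real.exp_add, ← Real.exp_add]
              congr 2
              field_simp
              ring
          _ ≤ 1 * 1 := by
              have h4 : Real.exp (-(2 * C * ℓ) - c0 p * (1 - 2 / p) * ℓ) ≤ 1 := by
                rw [Real.exp_le_one_iff]
                have h5 : 0 ≤ c0 p * (1 - 2 / p) * ℓ := by positivity
                have h6 : 0 ≤ 2 * C * ℓ := by positivity
                linarith
              have h6 : B / (C * B * T) ^ 2 ≤ 1 := by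
                rw [div_le_one (by positivity)]
                have h7 : 4 ≤ C * T := by nlinarith
                have h8 : 4 * B ≤ C * B * T := by
                  calc 4 * B ≤ (C * T) * B := by gcongr
                    _ = C * B * T := by ring
                nlinarith
              exact mul_le_mul h6 h4 (Real.exp_pos _).le (by norm_num)
          _ = 1 := by norm_num
  have key := EN_exp_abs_le h.pt.μ_nonneg h.pt.μ_sum Y (s * (N : ℝ) ^ (-(1 / p))) hsup N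
  have heq : (fun ω : Fin N → W × Bool => Real.exp (s * |(N : ℝ) ^ (-(1 / p)) * SS Y ω|)) =
      fun ω => Real.exp (|s * (N : ℝ) ^ (-(1 / p))| * |SS Y ω|) := by
    funext ω
    congr 1
    rw [abs_mul, abs_mul, abs_of_pos hspos, mul_assoc]
  rw [heq]
  refine key.trans ?_
  calc 2 * Real.exp ((N : ℝ) * (s * (N : ℝ) ^ (-(1 / p))) ^ 2 * ∑ w, μ w * Y w ^ 2)
      ≤ 2 * Real.exp 1 := by
        gcongr
    _ ≤ 6 := by
        have := Real.exp_one_lt_d9
        linarith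

end Crest.Agent.LpDim
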