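import Crest.Agent.LpDim.RDefs
import Crest.Agent.LpDim.Wn

/-!
Row 232, CHUNK R232-RFACTS.
-/

set_option autoImplicit false

namespace Crest.Agent.LpDim

open Finset

variable {n : ℕ} {W : Type} [Fintype W] {p : ℝ} {μ : W → ℝ}
  {ρ : Fin n → Fin n → ℝ} {X : Fin n → W → ℝ} {ℓ : ℝ} {K : ℕ} {θ : Fin (K + 1) → ℝ → ℝ}
  {G : Fin n → Fin n → Fin n → ℝ} {B ε₀ : ℝ}

/-- CHUNK R-FACTS (f1): `∑_k ‖b_k‖_p^p = 1` -/
theorem sum_b (h : BandData p μ ρ X ℓ K θ G B ε₀) (hp1 : 1 < p) {x y : Fin n} (hxy : x ≠ y) :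
    ∑ k, wn μ p (bb ρ X (θ k) x y) ^ p = 1 := by
  simp only [wn_rpow h.pt.μ_nonneg hp1.le]
  rw [Finset.sum_comm, ← h.pt.norm x y hxy]
  refine Finset.sum_congr rfl fun w _ => ?_
  rw [← Finset.mul_sum]
  congr 1
  have e : ∀ k, |bb ρ X (θ k) x y w| ^ p =
      |vv ρ X x y w| ^ p * θ k (Real.log |vv ρ X x y w|) ^ p := by
    intro k
    rw [bb, abs_mul, abs_of_nonneg (h.θ_mem k _).1, Real.mul_rpow (abs_nonneg _) (h.θ_mem k _).1]
  simp only [e]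
  rw [← Finset.mul_sum, h.θ_sum, mul_one]

/-- (f2) `(∑_k ‖Y_k - b_k‖_p^p)^{1/p} ≤ ε₀` -/
theorem sum_err (h : BandData p μ ρ X ℓ K θ G B ε₀) (hp1 : 1 < p) (x y : Fin n) :
    (∑ k, wn μ p (fun w => Yk ρ X (θ k) G x y w - bb ρ X (θ k) x y w) ^ p) ^ (1 / p) ≤ ε₀ := by
  refine le_trans (le_of_eq ?_) (h.err x y)
  rw [ph2]
  congr 1
  refine Finset.sum_congr rfl fun k _ => ?_
  rw [wn_rpow h.pt.μ_nonneg hp1.le]
  refine Finset.sum_congr rfl fun w _ => ?_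
  rw [abs_sub_comm]
  rfl

theorem rfacts_wn_prod (h : BandData p μ ρ X ℓ K θ G B ε₀) (hp1 : 1 < p)
    (F : Fin (K + 1) → W → ℝ) :
    wn (fun i : Fin (K + 1) × W => μ i.2) p (fun i => F i.1 i.2) =
      (∑ k, wn μ p (F k) ^ p) ^ (1 / p) := by
  rw [wn, Fintype.sum_prod_type]
  congr 1
  refine Finset.sum_congr rfl fun k _ => ?_
  rw [wn_rpow h.pt.μ_nonneg hp1.le]

/-- (f2') `1 - ε₀ ≤ (∑_k ‖Y_k‖_p^p)^{1/p} ≤ 1 + ε₀` (Minkowski on `Fin (K+1) × W`) -/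
theorem sum_Y (h : BandData p μ ρ X ℓ K θ G B ε₀) (hp1 : 1 < p) {x y : Fin n} (hxy : x ≠ y) :
    1 - ε₀ ≤ (∑ k, wn μ p (Yk ρ X (θ k) G x y) ^ p) ^ (1 / p) ∧
      (∑ k, wn μ p (Yk ρ X (θ k) G x y) ^ p) ^ (1 / p) ≤ 1 + ε₀ := by
  have hμ' : ∀ i : Fin (K + 1) × W, 0 ≤ (fun i : Fin (K + 1) × W => μ i.2) i := fun i =>
    h.pt.μ_nonneg i.2
  have e1 := rfacts_wn_prod h hp1 (fun k => Yk ρ X (θ k) G x y)
  have e2 := rfacts_wn_prod h hp1 (fun k w => Yk ρ X (θ k) G x y w - bb ρ X (θ k) x y w)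
  have e3 := rfacts_wn_prod h hp1 (fun k => bb ρ X (θ k) x y)
  rw [sum_b h hp1 hxy, Real.one_rpow] at e3
  have herr := sum_err h hp1 x y
  rw [← e2] at herr
  rw [← e1]
  have e4 : (fun i : Fin (K + 1) × W => Yk ρ X (θ i.1) G x y i.2) =
      (fun i => bb ρ X (θ i.1) x y i.2 + (Yk ρ X (θ i.1) G x y i.2 - bb ρ X (θ i.1) x y i.2)) := by
    funext i; ring
  constructor
  · have := wn_sub_le (μ := (fun i : Fin (K + 1) × W => μ i.2)) (p := p) hμ' hp1.le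
      (fun i => bb ρ X (θ i.1) x y i.2) (fun i => Yk ρ X (θ i.1) G x y i.2 - bb ρ X (θ i.1) x y i.2)
    rw [e4]
    linarith
  · have := wn_add_le (μ := (fun i : Fin (K + 1) × W => μ i.2)) (p := p) hμ' hp1.le
      (fun i => bb ρ X (θ i.1) x y i.2) (fun i => Yk ρ X (θ i.1) G x y i.2 - bb ρ X (θ i.1) x y i.2)
    rw [e4]
    linarith

/-- (f3) `∑ μ Y_k² ≤ B / om_k` -/
theorem Y_l2 (h : BandData p μ ρ X ℓ K θ G B ε₀) (x y : Fin n) (k : Fin (K + 1))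
    (hk : 0 < omk p ℓ (k : ℕ)) :
    ∑ w, μ w * Yk ρ X (θ k) G x y w ^ 2 ≤ B / omk p ℓ (k : ℕ) := by
  rw [le_div_iff₀ hk]
  have h1 := h.l2 x y
  rw [ph3] at h1
  have hom : ∀ k : ℕ, 0 ≤ omk p ℓ k := by
    intro k
    rw [omk]
    split_ifs <;> positivity
  have h2 : omk p ℓ (k : ℕ) * ∑ w, μ w * Yk ρ X (θ k) G x y w ^ 2 ≤
      ∑ k : Fin (K + 1), omk p ℓ (k : ℕ) * ∑ w, μ w * Yk ρ X (θ k) G x y w ^ 2 := by
    refine Finset.single_le_sum (f := fun k : Fin (K + 1) =>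
      omk p ℓ (k : ℕ) * ∑ w, μ w * Yk ρ X (θ k) G x y w ^ 2) (fun k _ => ?_) (Finset.mem_univ k)
    exact mul_nonneg (hom _) (Finset.sum_nonneg fun w _ => mul_nonneg (h.pt.μ_nonneg w) (sq_nonneg _))
  have h3 : ∑ k : Fin (K + 1), omk p ℓ (k : ℕ) * ∑ w, μ w * Yk ρ X (θ k) G x y w ^ 2 ≤ B := h1
  linarith

theorem rfacts_bb_le (h : BandData p μ ρ X ℓ K θ G B ε₀) (x y : Fin n) (k : Fin (K + 1)) (w : W) :
    |bb ρ X (θ k) x y w| ≤ Real.exp (((k : ℕ) + 1 : ℝ) * ℓ) := by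
  have hℓ := h.ℓ_pos
  have hθ := h.θ_mem k (Real.log |vv ρ X x y w|)
  by_cases h0 : θ k (Real.log |vv ρ X x y w|) = 0
  · rw [bb, h0, mul_zero, abs_zero]; positivity
  have h1 : |bb ρ X (θ k) x y w| ≤ |vv ρ X x y w| := by
    rw [bb, abs_mul, abs_of_nonneg hθ.1]
    exact mul_le_of_le_one_right (abs_nonneg _) hθ.2
  refine h1.trans ?_
  rcases Nat.lt_or_ge (k : ℕ) K with hk | hk
  · have h2 := h.θ_up k _ hk h0
    rcases eq_or_ne (vv ρ X x y w) 0 with hv | hv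
    · rw [hv, abs_zero]; positivity
    · rw [← Real.log_le_iff_le_exp (abs_pos.2 hv)]
      exact h2
  · refine (h.pt.vbd x y w).trans (h.top.trans ?_)
    rw [Real.exp_le_exp]
    have : (K : ℝ) ≤ (k : ℕ) := by exact_mod_cast hk
    nlinarith

/-- (f4) `|Y_k| ≤ B T e^{(k+1)ℓ}` -/
theorem Y_sup (h : BandData p μ ρ X ℓ K θ G B ε₀) (hp1 : 1 < p) (x y : Fin n) (k : Fin (K + 1)) (w : W) :
    |Yk ρ X (θ k) G x y w| ≤ B * (1 + Real.log n) * Real.exp (((k : ℕ) + 1 : ℝ) * ℓ) := by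
  rw [Yk, Sop]
  calc |∑ a, ∑ b, Sk ρ G x y a b * bb ρ X (θ k) a b w|
      ≤ ∑ a, ∑ b, |Sk ρ G x y a b| * Real.exp (((k : ℕ) + 1 : ℝ) * ℓ) := by
        refine (Finset.abs_sum_le_sum_abs _ _).trans (Finset.sum_le_sum fun a _ => ?_)
        refine (Finset.abs_sum_le_sum_abs _ _).trans (Finset.sum_le_sum fun b _ => ?_)
        rw [abs_mul]
        exact mul_le_mul_of_nonneg_left (rfacts_bb_le h a b k w) (abs_nonneg _)
    _ = (∑ a, ∑ b, |Sk ρ G x y a b|) * Real.exp (((k : ℕ) + 1 : ℝ) * ℓ) := by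
        simp only [← Finset.sum_mul]
    _ ≤ _ := mul_le_mul_of_nonneg_right (h.row x y) (Real.exp_nonneg _)

/-- (f5) `μ(b_k ≠ 0) ≤ e^{-p(k-1)ℓ}` for `k ≥ 1` (Markov) -/
theorem b_supp (h : BandData p μ ρ X ℓ K θ G B ε₀) (hp1 : 1 < p) (x y : Fin n) (k : Fin (K + 1))
    (hk : 1 ≤ (k : ℕ)) :
    ∑ w, (if bb ρ X (θ k) x y w = 0 then 0 else μ w) ≤ Real.exp (-(p * ((k : ℕ) - 1 : ℝ) * ℓ)) := by
  have hnorm : ∑ w, μ w * |vv ρ X x y w| ^ p ≤ 1 := by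
    rcases eq_or_ne x y with hxy | hxy
    · subst hxy
      refine le_trans (le_of_eq (Finset.sum_eq_zero fun w _ => ?_)) zero_le_one
      simp [vv, Real.zero_rpow (by linarith : p ≠ 0)]
    · exact (h.pt.norm x y hxy).le
  calc ∑ w, (if bb ρ X (θ k) x y w = 0 then 0 else μ w)
      ≤ ∑ w, Real.exp (-(p * ((k : ℕ) - 1 : ℝ) * ℓ)) * (μ w * |vv ρ X x y w| ^ p) := by
        refine Finset.sum_le_sum fun w _ => ?_
        have hm := h.pt.μ_nonneg w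
        split_ifs with h0
        · positivity
        · have hv : vv ρ X x y w ≠ 0 := by
            intro h1; apply h0; rw [bb, h1, zero_mul]
          have hθ : θ k (Real.log |vv ρ X x y w|) ≠ 0 := by
            intro h1; apply h0; rw [bb, h1, mul_zero]
          have h2 := h.θ_lo k _ hk hθ
          have hpos : 0 < |vv ρ X x y w| := abs_pos.2 hv
          have h3 : 1 ≤ Real.exp (-(p * ((k : ℕ) - 1 : ℝ) * ℓ)) * |vv ρ X x y w| ^ p := by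
            rw [Real.rpow_def_of_pos hpos, ← Real.exp_add, Real.one_le_exp_iff]
            nlinarith
          calc μ w = 1 * μ w := (one_mul _).symm
            _ ≤ (Real.exp (-(p * ((k : ℕ) - 1 : ℝ) * ℓ)) * |vv ρ X x y w| ^ p) * μ w :=
              mul_le_mul_of_nonneg_right h3 hm
            _ = _ := by ring
    _ = Real.exp (-(p * ((k : ℕ) - 1 : ℝ) * ℓ)) * ∑ w, μ w * |vv ρ X x y w| ^ p := by
        rw [Finset.mul_sum]
    _ ≤ Real.exp (-(p * ((k : ℕ) - 1 : ℝ) * ℓ)) * 1 :=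
        mul_le_mul_of_nonneg_left hnorm (Real.exp_nonneg _)
    _ = _ := mul_one _

end Crest.Agent.LpDim
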