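import Crest.Agent.LpDim.RFacts
import Crest.Agent.LpDim.REmb
import Crest.Agent.LpDim.Moments

/-!
Row 232, CHUNK R232-RLTGT.
-/

set_option autoImplicit false

namespace Crest.Agent.LpDim

open Finset

variable {n : ℕ} {W : Type} [Fintype W] {p : ℝ} {μ : W → ℝ}
  {ρ : Fin n → Fin n → ℝ} {X : Fin n → W → ℝ} {ℓ : ℝ} {K : ℕ} {θ : Fin (K + 1) → ℝ → ℝ}
  {G : Fin n → Fin n → Fin n → ℝ} {B ε₀ : ℝ}

theorem rltgt_Mp_nonneg (hμ : ∀ w, 0 ≤ μ w) (N : ℕ) (Y : W → ℝ) : 0 ≤ Mp μ p N Y := by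
  unfold Mp EN
  refine Real.rpow_nonneg (Finset.sum_nonneg fun ω _ => mul_nonneg ?_ ?_) _
  · exact Finset.prod_nonneg fun m _ => div_nonneg (hμ _) (by norm_num)
  · exact Real.rpow_nonneg (abs_nonneg _) _

/-- monotonicity of the `ℓ_p` norm -/
theorem rltgt_mono {κ : Type} [Fintype κ] (hp : 0 < p) {a b : κ → ℝ} (ha : ∀ k, 0 ≤ a k)
    (hab : ∀ k, a k ≤ b k) : (∑ k, a k ^ p) ^ (1 / p) ≤ (∑ k, b k ^ p) ^ (1 / p) := by
  refine Real.rpow_le_rpow (Finset.sum_nonneg fun k _ => Real.rpow_nonneg (ha k) _) ?_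
    (by positivity)
  exact Finset.sum_le_sum fun k _ => Real.rpow_le_rpow (ha k) (hab k) hp.le

/-- homogeneity of the `ℓ_p` norm -/
theorem rltgt_smul {κ : Type} [Fintype κ] (hp : 0 < p) {a : κ → ℝ} (ha : ∀ k, 0 ≤ a k) {c : ℝ}
    (hc : 0 ≤ c) : (∑ k, (c * a k) ^ p) ^ (1 / p) = c * (∑ k, a k ^ p) ^ (1 / p) := by
  have h1 : ∑ k, (c * a k) ^ p = c ^ p * ∑ k, a k ^ p := by
    rw [Finset.mul_sum]
    exact Finset.sum_congr rfl fun k _ => Real.mul_rpow hc (ha k)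
  rw [h1, Real.mul_rpow (Real.rpow_nonneg hc _)
    (Finset.sum_nonneg fun k _ => Real.rpow_nonneg (ha k) _), ← Real.rpow_mul hc,
    mul_one_div_cancel hp.ne', Real.rpow_one]

/-- CHUNK R-LT. `p < 2`: from `Mp_lt`, `sum_b`, `sum_err`, `sum_Y`, `b_supp` with `δ = e^{-ℓ}` (as `c₀ ≥ 1`). -/
theorem sum_Mp_lt (h : BandData p μ ρ X ℓ K θ G B ε₀) (hp1 : 1 < p) (hp2 : p < 2) {x y : Fin n}
    (hxy : x ≠ y) :
    (1 - Real.exp (-ℓ)) ^ (1 / p) - ε₀ ≤
      (∑ k : Fin (K + 1), Mp μ p (Nk p ℓ k) (Yk ρ X (θ k) G x y) ^ p) ^ (1 / p) ∧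
      (∑ k : Fin (K + 1), Mp μ p (Nk p ℓ k) (Yk ρ X (θ k) G x y) ^ p) ^ (1 / p) ≤ 1 + ε₀ := by
  have hμ := h.pt.μ_nonneg
  have hμ1 := h.pt.μ_sum
  have hℓ := h.ℓ_pos
  have hp0 : 0 < p := by linarith
  have hc0 : 1 ≤ c0 p := by
    unfold c0
    rw [abs_of_neg (by linarith), le_div_iff₀ (by linarith)]
    linarith
  have hδ0 : 0 ≤ Real.exp (-ℓ) := (Real.exp_pos _).le
  have hδ1 : Real.exp (-ℓ) ≤ 1 := by rw [Real.exp_le_one_iff]; linarith
  have key : ∀ k : Fin (K + 1),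
      Mp μ p (Nk p ℓ k) (Yk ρ X (θ k) G x y) ≤ wn μ p (Yk ρ X (θ k) G x y) ∧
        (1 - Real.exp (-ℓ)) ^ (1 / p) * wn μ p (bb ρ X (θ k) x y) -
          wn μ p (fun w => Yk ρ X (θ k) G x y w - bb ρ X (θ k) x y w) ≤
            Mp μ p (Nk p ℓ k) (Yk ρ X (θ k) G x y) := by
    intro k
    obtain ⟨hN1, hNlow, hNup, hNk⟩ := Nk_facts p ℓ hp1 hℓ (k : ℕ)
    refine Mp_lt hμ hμ1 hp1.le hp2.le _ _ hN1 (Real.exp (-ℓ)) hδ0 hδ1 ?_
    rcases hNup with h1 | h1
    · exact Or.inl h1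
    · by_cases hN : Nk p ℓ (k : ℕ) = 1
      · exact Or.inl hN
      · right
        have hk2 := hNk hN
        have h2 := b_supp h hp1 x y k (by omega)
        calc (Nk p ℓ (k : ℕ) : ℝ) * (∑ w, if bb ρ X (θ k) x y w = 0 then 0 else μ w)
            ≤ Real.exp ((p * (((k : ℕ) : ℝ) - 1) - c0 p) * ℓ) *
                Real.exp (-(p * ((k : ℕ) - 1 : ℝ) * ℓ)) := by
              refine mul_le_mul h1 h2 ?_ (Real.exp_pos _).le
              exact Finset.sum_nonneg fun w _ => by split_ifs; exacts [le_rfl, hμ w]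
          _ = Real.exp (-(c0 p * ℓ)) := by
              rw [← Real.exp_add]; congr 1; ring
          _ ≤ Real.exp (-ℓ) := by
              rw [Real.exp_le_exp]; nlinarith
  have hMp0 : ∀ k : Fin (K + 1), 0 ≤ Mp μ p (Nk p ℓ k) (Yk ρ X (θ k) G x y) :=
    fun k => rltgt_Mp_nonneg hμ _ _
  constructor
  · have hm0 : 0 ≤ 1 - Real.exp (-ℓ) := by linarith
    have h1 : (∑ k : Fin (K + 1), ((1 - Real.exp (-ℓ)) ^ (1 / p) *
        wn μ p (bb ρ X (θ k) x y)) ^ p) ^ (1 / p) = (1 - Real.exp (-ℓ)) ^ (1 / p) := by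
      rw [rltgt_smul hp0 (fun k => wn_nonneg hμ _) (Real.rpow_nonneg hm0 _), sum_b h hp1 hxy,
        Real.one_rpow, mul_one]
    have h2 : (∑ k : Fin (K + 1), ((1 - Real.exp (-ℓ)) ^ (1 / p) *
        wn μ p (bb ρ X (θ k) x y)) ^ p) ^ (1 / p) ≤
        (∑ k : Fin (K + 1), (Mp μ p (Nk p ℓ k) (Yk ρ X (θ k) G x y) +
          wn μ p (fun w => Yk ρ X (θ k) G x y w - bb ρ X (θ k) x y w)) ^ p) ^ (1 / p) := by
      refine rltgt_mono hp0 (fun k => mul_nonneg (Real.rpow_nonneg hm0 _) (wn_nonneg hμ _)) ?_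
      intro k
      have := (key k).2
      linarith
    have h3 := Real.Lp_add_le_of_nonneg (Finset.univ : Finset (Fin (K + 1)))
      (f := fun k : Fin (K + 1) => Mp μ p (Nk p ℓ k) (Yk ρ X (θ k) G x y))
      (g := fun k : Fin (K + 1) =>
        wn μ p (fun w => Yk ρ X (θ k) G x y w - bb ρ X (θ k) x y w)) hp1.le
      (fun k _ => hMp0 k) (fun k _ => wn_nonneg hμ _)
    have h4 := sum_err h hp1 x y
    linarith
  · refine le_trans (rltgt_mono hp0 hMp0 fun k => (key k).1) (sum_Y h hp1 hxy).2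

/-- CHUNK R-GT. `p > 2`: from `Mp_gt` with `s = e^ℓ/2`, `τ = e^{(k-1)ℓ - c₁ℓ}`, `c₁ = c₀(p+2)/(4p)`
(so `c₀ - 2c₁ = 2`, `c₁ - c₀/p = 1`, `c₀(1-2/p) = 4`), `δ = B e^{-2ℓ}`, provided `B ≤ e^ℓ`; and Minkowski over `k`. -/
theorem sum_Mp_gt (h : BandData p μ ρ X ℓ K θ G B ε₀) (hp2 : 2 < p) (hB : B ≤ Real.exp ℓ) {x y : Fin n}
    (hxy : x ≠ y) :
    1 - ε₀ ≤ (∑ k : Fin (K + 1), Mp μ p (Nk p ℓ k) (Yk ρ X (θ k) G x y) ^ p) ^ (1 / p) ∧
      (∑ k : Fin (K + 1), Mp μ p (Nk p ℓ k) (Yk ρ X (θ k) G x y) ^ p) ^ (1 / p) ≤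
        Real.exp (Real.exp (-ℓ) * Real.exp (p - 1) / p) * (1 + ε₀) +
          (K + 1) ^ (1 / p) * (12 * p * Real.exp (-ℓ)) := by
  have hμ := h.pt.μ_nonneg
  have hμ1 := h.pt.μ_sum
  have hℓ := h.ℓ_pos
  have hB1 := h.B_ge
  have hp0 : 0 < p := by linarith
  have hp1 : 1 < p := by linarith
  have hpm : 0 < p - 2 := by linarith
  have hc0 : c0 p = 4 * p / (p - 2) := by
    unfold c0
    rw [abs_of_pos hpm]
  obtain ⟨c₁, hc₁⟩ : ∃ c₁, c₁ = (p + 2) / (p - 2) := ⟨_, rfl⟩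
  have e1 : c0 p - 2 * c₁ = 2 := by rw [hc0, hc₁]; field_simp; ring
  have e2 : c₁ - c0 p / p = 1 := by rw [hc0, hc₁]; field_simp; ring
  have e3 : c0 p * (1 - 2 / p) = 4 := by rw [hc0]; field_simp
  have hB2 : B * Real.exp (-(2 * ℓ)) ≤ Real.exp (-ℓ) := by
    calc B * Real.exp (-(2 * ℓ)) ≤ Real.exp ℓ * Real.exp (-(2 * ℓ)) := by gcongr
      _ = Real.exp (-ℓ) := by rw [← Real.exp_add]; congr 1; ring
  have hδ1 : Real.exp (-ℓ) ≤ 1 := by rw [Real.exp_le_one_iff]; linarith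
  have key : ∀ k : Fin (K + 1),
      wn μ p (Yk ρ X (θ k) G x y) ≤ Mp μ p (Nk p ℓ k) (Yk ρ X (θ k) G x y) ∧
        Mp μ p (Nk p ℓ k) (Yk ρ X (θ k) G x y) ≤
          Real.exp (Real.exp (-ℓ) * Real.exp (p - 1) / p) * wn μ p (Yk ρ X (θ k) G x y) +
            12 * p * Real.exp (-ℓ) := by
    intro k
    obtain ⟨hN1, hNlow, hNup, hNk⟩ := Nk_facts p ℓ hp1 hℓ (k : ℕ)
    obtain ⟨Y, hY⟩ : ∃ Y, Y = Yk ρ X (θ k) G x y := ⟨_, rfl⟩
    obtain ⟨κ, hκ⟩ : ∃ κ : ℝ, κ = ((k : ℕ) : ℝ) := ⟨_, rfl⟩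
    obtain ⟨N, hN⟩ : ∃ N : ℕ, N = Nk p ℓ k := ⟨_, rfl⟩
    rw [← hN, ← hκ] at hNlow
    rw [← hN, ← hκ] at hNup
    rw [← hN] at hN1 hNk ⊢
    rw [← hY]
    have hNpos : (0 : ℝ) < N := by exact_mod_cast hN1
    have hcond : N = 1 ∨ (N * (∑ w, if Real.exp ((κ - 1) * ℓ - c₁ * ℓ) < |Y w| then μ w else 0) ≤
        B * Real.exp (-(2 * ℓ)) ∧
        Real.exp ℓ / 2 * (N : ℝ) ^ (-(1 / p)) * Real.exp ((κ - 1) * ℓ - c₁ * ℓ) ≤ 1 ∧
        N * (Real.exp ℓ / 2 * (N : ℝ) ^ (-(1 / p))) ^ 2 * ∑ w, μ w * Y w ^ 2 ≤ 1) := by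
      by_cases hN' : N = 1
      · exact Or.inl hN'
      right
      have hk2 : 2 ≤ (k : ℕ) := hNk hN'
      have hNle : (N : ℝ) ≤ Real.exp ((p * (κ - 1) - c0 p) * ℓ) := by
        rcases hNup with h1 | h1
        · exact absurd h1 hN'
        · exact h1
      have hom : omk p ℓ (k : ℕ) = Real.exp ((p - 2) * (κ - 1) * ℓ) := by
        unfold omk
        rw [if_pos hp2, if_neg (by omega), hκ]
      have h1 : ∑ w, μ w * Y w ^ 2 ≤ B / omk p ℓ (k : ℕ) := by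
        rw [hY]; exact Y_l2 h x y k (by rw [hom]; exact Real.exp_pos _)
      rw [hom] at h1
      have h1' : ∑ w, μ w * Y w ^ 2 ≤ B * Real.exp (-((p - 2) * (κ - 1) * ℓ)) := by
        refine h1.trans (le_of_eq ?_)
        rw [Real.exp_neg, div_eq_mul_inv]
      have hsum0 : 0 ≤ ∑ w, μ w * Y w ^ 2 :=
        Finset.sum_nonneg fun w _ => mul_nonneg (hμ w) (sq_nonneg _)
      have hr0 : 0 ≤ 1 - 2 / p := by
        rw [sub_nonneg, div_le_one hp0]; linarith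
      refine ⟨?_, ?_, ?_⟩
      · -- Chebyshev
        have hτ : 0 < Real.exp ((κ - 1) * ℓ - c₁ * ℓ) := Real.exp_pos _
        have h2 : (∑ w, if Real.exp ((κ - 1) * ℓ - c₁ * ℓ) < |Y w| then μ w else 0) ≤
            Real.exp (-(2 * ((κ - 1) * ℓ - c₁ * ℓ))) * ∑ w, μ w * Y w ^ 2 := by
          rw [Finset.mul_sum]
          refine Finset.sum_le_sum fun w _ => ?_
          split_ifs with hw
          · have h3 : Real.exp ((κ - 1) * ℓ - c₁ * ℓ) ^ 2 ≤ Y w ^ 2 := by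
              rw [← sq_abs (Y w)]
              exact pow_le_pow_left₀ hτ.le hw.le 2
            have h4 : Real.exp (-(2 * ((κ - 1) * ℓ - c₁ * ℓ))) *
                Real.exp ((κ - 1) * ℓ - c₁ * ℓ) ^ 2 = 1 := by
              rw [← Real.exp_nat_mul, ← Real.exp_add]
              have : -(2 * ((κ - 1) * ℓ - c₁ * ℓ)) + ((2 : ℕ) : ℝ) * ((κ - 1) * ℓ - c₁ * ℓ) = 0 := by
                push_cast; ring
              rw [this, Real.exp_zero]
            calc μ w = μ w * (Real.exp (-(2 * ((κ - 1) * ℓ - c₁ * ℓ))) *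
                Real.exp ((κ - 1) * ℓ - c₁ * ℓ) ^ 2) := by rw [h4, mul_one]
              _ ≤ μ w * (Real.exp (-(2 * ((κ - 1) * ℓ - c₁ * ℓ))) * Y w ^ 2) := by
                  have := hμ w
                  gcongr
              _ = Real.exp (-(2 * ((κ - 1) * ℓ - c₁ * ℓ))) * (μ w * Y w ^ 2) := by ring
          · exact mul_nonneg (Real.exp_pos _).le (mul_nonneg (hμ w) (sq_nonneg _))
        have h20 : 0 ≤ (∑ w, if Real.exp ((κ - 1) * ℓ - c₁ * ℓ) < |Y w| then μ w else 0) :=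
          Finset.sum_nonneg fun w _ => by split_ifs; exacts [hμ w, le_rfl]
        calc (N : ℝ) * (∑ w, if Real.exp ((κ - 1) * ℓ - c₁ * ℓ) < |Y w| then μ w else 0)
            ≤ Real.exp ((p * (κ - 1) - c0 p) * ℓ) *
                (Real.exp (-(2 * ((κ - 1) * ℓ - c₁ * ℓ))) *
                  (B * Real.exp (-((p - 2) * (κ - 1) * ℓ)))) := by
              refine mul_le_mul hNle (h2.trans ?_) h20 (Real.exp_pos _).le
              gcongr
          _ = B * (Real.exp ((p * (κ - 1) - c0 p) * ℓ) *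
                Real.exp (-(2 * ((κ - 1) * ℓ - c₁ * ℓ))) *
                Real.exp (-((p - 2) * (κ - 1) * ℓ))) := by ring
          _ = B * Real.exp (-(2 * ℓ)) := by
              rw [← Real.exp_add, ← Real.exp_add]
              congr 2
              have : c₁ = (c0 p - 2) / 2 := by linarith
              rw [this]; ring
      · have hb : 0 ≤ 1 / p := by positivity
        have hb1 : 1 / p ≤ 1 := by rw [div_le_one hp0]; exact hp1.le
        have h2 : (N : ℝ) ^ (-(1 / p)) ≤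
            2 * Real.exp (-(1 / p * ((p * (κ - 1) - c0 p) * ℓ))) := by
          have h0 : (0 : ℝ) < 1 / 2 * Real.exp ((p * (κ - 1) - c0 p) * ℓ) := by positivity
          refine (Real.rpow_le_rpow_of_nonpos h0 hNlow (by linarith)).trans ?_
          rw [Real.mul_rpow (by norm_num) (Real.exp_pos _).le, ← Real.exp_mul]
          have h3 : (1 / 2 : ℝ) ^ (-(1 / p)) ≤ 2 := by
            have : (1 / 2 : ℝ) ^ (-(1 / p)) = 2 ^ (1 / p) := by
              rw [Real.rpow_neg (by norm_num), one_div 2, Real.inv_rpow (by norm_num), inv_inv]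
            rw [this]
            calc (2 : ℝ) ^ (1 / p) ≤ 2 ^ (1 : ℝ) :=
                  Real.rpow_le_rpow_of_exponent_le (by norm_num) hb1
              _ = 2 := Real.rpow_one 2
          have h4 : (p * (κ - 1) - c0 p) * ℓ * -(1 / p) =
              -(1 / p * ((p * (κ - 1) - c0 p) * ℓ)) := by ring
          rw [h4]
          exact mul_le_mul_of_nonneg_right h3 (Real.exp_pos _).le
        calc Real.exp ℓ / 2 * (N : ℝ) ^ (-(1 / p)) * Real.exp ((κ - 1) * ℓ - c₁ * ℓ)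
            ≤ Real.exp ℓ / 2 * (2 * Real.exp (-(1 / p * ((p * (κ - 1) - c0 p) * ℓ)))) *
                Real.exp ((κ - 1) * ℓ - c₁ * ℓ) := by gcongr
          _ = Real.exp ℓ * Real.exp (-(1 / p * ((p * (κ - 1) - c0 p) * ℓ))) *
                Real.exp ((κ - 1) * ℓ - c₁ * ℓ) := by ring
          _ = Real.exp 0 := by
              rw [← Real.exp_add, ← Real.exp_add]
              congr 1
              have : c₁ = 1 + c0 p / p := by linarith
              rw [this]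
              field_simp
              ring
          _ = 1 := Real.exp_zero
          _ ≤ 1 := le_rfl
      · have hpow : (N : ℝ) * (Real.exp ℓ / 2 * (N : ℝ) ^ (-(1 / p))) ^ 2 =
            (Real.exp ℓ / 2) ^ 2 * (N : ℝ) ^ (1 - 2 / p) := by
          rw [mul_pow, ← Real.rpow_natCast ((N : ℝ) ^ (-(1 / p))) 2, ← Real.rpow_mul hNpos.le]
          have : (1 - 2 / p : ℝ) = 1 + -(1 / p) * ((2 : ℕ) : ℝ) := by push_cast; ring
          rw [this, Real.rpow_add hNpos, Real.rpow_one]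
          ring
        have h2 : (N : ℝ) ^ (1 - 2 / p) ≤
            Real.exp ((1 - 2 / p) * ((p * (κ - 1) - c0 p) * ℓ)) := by
          calc (N : ℝ) ^ (1 - 2 / p) ≤ (Real.exp ((p * (κ - 1) - c0 p) * ℓ)) ^ (1 - 2 / p) :=
                Real.rpow_le_rpow hNpos.le hNle hr0
            _ = _ := by rw [← Real.exp_mul, mul_comm]
        have hs2 : (Real.exp ℓ / 2) ^ 2 = Real.exp (2 * ℓ) / 4 := by
          rw [div_pow, ← Real.exp_nat_mul]
          norm_num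
        rw [hpow]
        calc (Real.exp ℓ / 2) ^ 2 * (N : ℝ) ^ (1 - 2 / p) * ∑ w, μ w * Y w ^ 2
            ≤ (Real.exp ℓ / 2) ^ 2 * Real.exp ((1 - 2 / p) * ((p * (κ - 1) - c0 p) * ℓ)) *
                (B * Real.exp (-((p - 2) * (κ - 1) * ℓ))) := by gcongr
          _ = B / 4 * (Real.exp (2 * ℓ) * Real.exp ((1 - 2 / p) * ((p * (κ - 1) - c0 p) * ℓ)) *
                Real.exp (-((p - 2) * (κ - 1) * ℓ))) := by rw [hs2]; ring
          _ = B / 4 * Real.exp (-(2 * ℓ)) := by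
              rw [← Real.exp_add, ← Real.exp_add]
              congr 2
              have e4 : (1 - 2 / p) * ((p * (κ - 1) - c0 p) * ℓ) =
                  ((p - 2) * (κ - 1) - c0 p * (1 - 2 / p)) * ℓ := by
                field_simp
              rw [e4, e3]
              ring
          _ = 1 / 4 * (B * Real.exp (-(2 * ℓ))) := by ring
          _ ≤ 1 / 4 * 1 := by
              have := hB2.trans hδ1
              gcongr
          _ ≤ 1 := by norm_num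
    obtain ⟨hlow, hup⟩ := Mp_gt hμ hμ1 hp2.le Y hN1 (B * Real.exp (-(2 * ℓ))) (Real.exp ℓ / 2)
      (Real.exp ((κ - 1) * ℓ - c₁ * ℓ)) (by positivity) (by positivity) (Real.exp_pos _).le hcond
    refine ⟨hlow, hup.trans ?_⟩
    have hw := wn_nonneg (p := p) hμ Y
    have h5 : Real.exp (B * Real.exp (-(2 * ℓ)) * Real.exp (p - 1) / p) ≤
        Real.exp (Real.exp (-ℓ) * Real.exp (p - 1) / p) := by gcongr
    have h6 : 6 * p / (Real.exp ℓ / 2) = 12 * p * Real.exp (-ℓ) := by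
      rw [Real.exp_neg]
      field_simp
      ring
    rw [h6]
    have := mul_le_mul_of_nonneg_right h5 hw
    linarith
  have hwn0 : ∀ k : Fin (K + 1), 0 ≤ wn μ p (Yk ρ X (θ k) G x y) := fun k => wn_nonneg hμ _
  have hMp0 : ∀ k : Fin (K + 1), 0 ≤ Mp μ p (Nk p ℓ k) (Yk ρ X (θ k) G x y) :=
    fun k => rltgt_Mp_nonneg hμ _ _
  constructor
  · exact (sum_Y h hp1 hxy).1.trans (rltgt_mono hp0 hwn0 fun k => (key k).1)
  · have hE0 : 0 ≤ Real.exp (Real.exp (-ℓ) * Real.exp (p - 1) / p) := (Real.exp_pos _).le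
    have hb0 : 0 ≤ 12 * p * Real.exp (-ℓ) := by positivity
    refine (rltgt_mono hp0 hMp0 fun k => (key k).2).trans ?_
    refine (Real.Lp_add_le_of_nonneg (Finset.univ : Finset (Fin (K + 1)))
      (f := fun k : Fin (K + 1) => Real.exp (Real.exp (-ℓ) * Real.exp (p - 1) / p) *
        wn μ p (Yk ρ X (θ k) G x y))
      (g := fun _ : Fin (K + 1) => 12 * p * Real.exp (-ℓ)) hp1.le
      (fun k _ => mul_nonneg hE0 (hwn0 k)) (fun k _ => hb0)).trans ?_
    rw [rltgt_smul hp0 hwn0 hE0]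
    have h7 : (∑ _k : Fin (K + 1), (12 * p * Real.exp (-ℓ)) ^ p) ^ (1 / p) =
        (K + 1) ^ (1 / p) * (12 * p * Real.exp (-ℓ)) := by
      rw [Finset.sum_const, Finset.card_univ, Fintype.card_fin, nsmul_eq_mul,
        Real.mul_rpow (by positivity) (Real.rpow_nonneg hb0 _), ← Real.rpow_mul hb0,
        mul_one_div_cancel hp0.ne', Real.rpow_one]
      push_cast
      ring
    rw [h7]
    have := mul_le_mul_of_nonneg_left (sum_Y h hp1 hxy).2 hE0
    linarith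

end Crest.Agent.LpDim
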