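import Crest.Agent.LpDim.ExistsS
import Crest.Agent.LpDim.Bands
import Crest.Agent.LpDim.RExp
import Crest.Agent.LpDim.RLtGt

/-!
Row 232, CHUNK R232-RMAIN.
-/

set_option autoImplicit false
set_option maxHeartbeats 1000000

namespace Crest.Agent.LpDim

open Finset

/-- choice of the tolerance -/
theorem rmain_tol (p ε : ℝ) (hp : 1 < p) (hε : 0 < ε) : ∃ δ : ℝ, 0 < δ ∧ δ ≤ 1 ∧
    ∀ S : ℝ, 0 ≤ S → 1 - δ ≤ S ^ (1 / p) → S ^ (1 / p) ≤ 1 + δ → 1 - ε ≤ S ∧ S ≤ 1 + ε := by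
  have hp0 : 0 < p := by linarith
  have hcont : ContinuousAt (fun t : ℝ => t ^ p) 1 :=
    Real.continuousAt_rpow_const 1 p (Or.inl one_ne_zero)
  rw [Metric.continuousAt_iff] at hcont
  obtain ⟨δ, hδ, h⟩ := hcont ε hε
  refine ⟨min (δ / 2) 1, by positivity, min_le_right _ _, fun S hS h1 h2 => ?_⟩
  have hd : dist (S ^ (1 / p)) 1 < δ := by
    rw [Real.dist_eq, abs_lt]
    have := min_le_left (δ / 2) 1
    constructor <;> linarith
  have := h hd
  rw [← Real.rpow_mul hS, one_div_mul_cancel hp0.ne', Real.rpow_one, Real.one_rpow, Real.dist_eq, abs_lt] at this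
  constructor <;> linarith

/-- choice of `C₁` -/
theorem rmain_const (p B δ : ℝ) (hp : 1 < p) (hB : 1 ≤ B) (hδ : 0 < δ) (hδ1 : δ ≤ 1) (γ : ℝ) (hγ : 0 < γ) :
    ∃ C₁ : ℝ, 1 ≤ C₁ ∧ B ≤ Real.exp C₁ ∧ 40 * B / C₁ ≤ δ / 4 ∧
      1 - δ / 2 ≤ (1 - Real.exp (-C₁)) ^ (1 / p) ∧
      Real.exp (Real.exp (-C₁) * Real.exp (p - 1) / p) ≤ 1 + δ / 4 ∧
      ∀ T : ℝ, 1 ≤ T → (4 * T + 1) ^ (1 / p) * (12 * p * Real.exp (-(C₁ * T ^ γ))) ≤ δ / 4 := by
  have hp0 : 0 < p := by linarith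
  have t0 : Filter.Tendsto (fun x : ℝ => Real.exp (-x)) Filter.atTop (nhds 0) :=
    Real.tendsto_exp_neg_atTop_nhds_zero
  have e1 : ∀ᶠ x : ℝ in Filter.atTop, 1 ≤ x := Filter.eventually_ge_atTop 1
  have e2 : ∀ᶠ x : ℝ in Filter.atTop, 1 / γ ≤ x := Filter.eventually_ge_atTop _
  have e3 : ∀ᶠ x : ℝ in Filter.atTop, B ≤ Real.exp x :=
    Real.tendsto_exp_atTop.eventually_ge_atTop B
  have e4 : ∀ᶠ x : ℝ in Filter.atTop, 160 * B / δ ≤ x := Filter.eventually_ge_atTop _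
  have e5 : ∀ᶠ x : ℝ in Filter.atTop, Real.exp (-x) < δ / 2 :=
    t0.eventually_lt_const (by positivity)
  have e6 : ∀ᶠ x : ℝ in Filter.atTop, Real.exp (Real.exp (-x) * Real.exp (p - 1) / p) < 1 + δ / 4 := by
    have t1 : Filter.Tendsto (fun x : ℝ => Real.exp (Real.exp (-x) * Real.exp (p - 1) / p)) Filter.atTop
        (nhds (Real.exp (0 * Real.exp (p - 1) / p))) :=
      (Real.continuous_exp.tendsto _).comp ((t0.mul_const _).div_const _)
    rw [zero_mul, zero_div, Real.exp_zero] at t1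
    exact t1.eventually_lt_const (by linarith)
  have e7 : ∀ᶠ x : ℝ in Filter.atTop, Real.exp (-x) < δ / 4 / (60 * p * Real.exp (1 / γ)) :=
    t0.eventually_lt_const (by positivity)
  obtain ⟨C, h1, h2, h3, h4, h5, h6, h7⟩ :=
    (e1.and (e2.and (e3.and (e4.and (e5.and (e6.and e7)))))).exists
  have hC0 : 0 < C := by linarith
  refine ⟨C, h1, h3, ?_, ?_, h6.le, ?_⟩
  · rw [div_le_iff₀ hC0]
    rw [div_le_iff₀ hδ] at h4
    linarith
  · have hx0 : 0 ≤ 1 - Real.exp (-C) := by linarith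
    have hx1 : 1 - Real.exp (-C) ≤ 1 := by linarith [Real.exp_pos (-C)]
    have hle : (1 - Real.exp (-C)) ^ (1 : ℝ) ≤ (1 - Real.exp (-C)) ^ (1 / p) := by
      refine Real.rpow_le_rpow_of_exponent_ge' hx0 hx1 (by positivity) ?_
      rw [div_le_one hp0]; linarith
    rw [Real.rpow_one] at hle
    linarith
  · intro T hT
    have hT0 : 0 < T := by linarith
    have hU1 : 1 ≤ T ^ γ := Real.one_le_rpow hT hγ.le
    have hTU : T ≤ Real.exp (T ^ γ / γ) := by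
      have h8 : Real.log T ≤ T ^ γ / γ := by
        rw [le_div_iff₀ hγ]
        have h9 : T ^ γ = Real.exp (Real.log T * γ) := by rw [Real.rpow_def_of_pos hT0]
        have h10 := Real.add_one_le_exp (Real.log T * γ)
        rw [h9]; linarith
      calc T = Real.exp (Real.log T) := (Real.exp_log hT0).symm
        _ ≤ _ := Real.exp_le_exp.2 h8
    have h11 : (4 * T + 1) ^ (1 / p) ≤ 5 * T := by
      calc (4 * T + 1) ^ (1 / p) ≤ (4 * T + 1) ^ (1 : ℝ) := by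
            refine Real.rpow_le_rpow_of_exponent_le (by linarith) ?_
            rw [div_le_one hp0]; linarith
        _ = 4 * T + 1 := Real.rpow_one _
        _ ≤ 5 * T := by linarith
    have h12 : T ^ γ / γ + -(C * T ^ γ) ≤ 1 / γ + -C := by
      have : (C - 1 / γ) * 1 ≤ (C - 1 / γ) * T ^ γ :=
        mul_le_mul_of_nonneg_left hU1 (by linarith)
      have e : T ^ γ / γ + -(C * T ^ γ) = - ((C - 1 / γ) * T ^ γ) := by ring
      rw [e]
      linarith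
    calc (4 * T + 1) ^ (1 / p) * (12 * p * Real.exp (-(C * T ^ γ)))
        ≤ (5 * Real.exp (T ^ γ / γ)) * (12 * p * Real.exp (-(C * T ^ γ))) := by
          refine mul_le_mul_of_nonneg_right ?_ (by positivity)
          linarith
      _ = 60 * p * Real.exp (T ^ γ / γ + -(C * T ^ γ)) := by
          rw [Real.exp_add]; ring
      _ ≤ 60 * p * Real.exp (1 / γ + -C) := by
          refine mul_le_mul_of_nonneg_left (Real.exp_le_exp.2 h12) (by positivity)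
      _ = 60 * p * Real.exp (1 / γ) * Real.exp (-C) := by rw [Real.exp_add]; ring
      _ ≤ δ / 4 := by
          rw [lt_div_iff₀ (by positivity)] at h7
          linarith

/-- CHUNK R-MAIN. The random functions. PROOF. `ℓ = C₁ (1+log n)^γ` with `C₁ = C₁(p,ε)` large, `K = ⌈(2/p) log n/ℓ⌉₊ + 1`,
`exists_bands`, `embData_of`, `exists_S` (`c = 40/ℓ`, so `ε₀ = 40 C/C₁` small), hence `BandData`;
`ψ k ω x = N^{-1/p} ∑_m sg_m ∑_{a,b} G a b x * bb ρ X (θ k) a b (w_m)`, so `(ψ x - ψ y)/ρ x y = N^{-1/p} SS Y_k`;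
`exp_moment`, `sum_Mp_lt`, `sum_Mp_gt` (with `(K+1)^{1/p} e^{-ℓ} ≤ small`, as `K ≤ 2 + 2T` and `log T ≤ T^γ/γ`). -/
theorem exists_random (p : ℝ) (hp1 : 1 < p) (hp2 : p ≠ 2) (ε : ℝ) (hε : 0 < ε) : ∃ C : ℝ, 1 ≤ C ∧
    ∀ (n : ℕ) (W : Type) [Fintype W] (μ : W → ℝ) (ρ : Fin n → Fin n → ℝ) (X : Fin n → W → ℝ),
      PtData p μ ρ X → ∃ (K : ℕ) (N : Fin (K + 1) → ℕ)
        (ψ : (k : Fin (K + 1)) → (Fin (N k) → W × Bool) → Fin n → ℝ),
        (K : ℝ) ≤ C * (1 + Real.log n) ∧ ∀ x y, x ≠ y →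
          (∀ k, EN μ (N k) (fun ω => Real.exp (Real.exp (-(C * (1 + Real.log n) ^ |1 - 2 / p|)) *
            |(ψ k ω x - ψ k ω y) / ρ x y|)) ≤ 6) ∧
          1 - ε ≤ ∑ k, EN μ (N k) (fun ω => |(ψ k ω x - ψ k ω y) / ρ x y| ^ p) ∧
          ∑ k, EN μ (N k) (fun ω => |(ψ k ω x - ψ k ω y) / ρ x y| ^ p) ≤ 1 + ε := by
  classical
  obtain ⟨δ, hδ, hδ1, htol⟩ := rmain_tol p ε hp1 hε
  obtain ⟨B, hB, hS⟩ := exists_S p hp1 hp2
  obtain ⟨CE, hCE, hE⟩ := exp_moment p hp1 hp2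
  have hp0 : 0 < p := by linarith
  obtain ⟨γ, hγdef⟩ : ∃ γ : ℝ, γ = |1 - 2 / p| := ⟨_, rfl⟩
  rw [← hγdef]
  rw [← hγdef] at hS
  have hγ : 0 < γ := by
    rw [hγdef, abs_pos]
    intro h
    apply hp2
    have : 2 / p = 1 := by linarith
    rw [div_eq_one_iff_eq hp0.ne'] at this
    exact this.symm
  obtain ⟨C₁, hC₁, hBC, h40, hlow, hexp, hT⟩ := rmain_const p B δ hp1 hB hδ hδ1 γ hγ
  have hlogCB : 0 ≤ Real.log (CE * B) := Real.log_nonneg (one_le_mul_of_one_le_of_one_le hCE hB)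
  have hCEC : 0 ≤ CE * C₁ := by positivity
  have hgi : 0 ≤ 1 / γ := by positivity
  refine ⟨4 + CE * C₁ + Real.log (CE * B) + 1 / γ, by linarith, ?_⟩
  intro n W _ μ ρ X h
  obtain ⟨T, hTdef⟩ : ∃ T : ℝ, T = 1 + Real.log n := ⟨_, rfl⟩
  have hS' := hS n W
  have hE' := hE n W
  rw [← hTdef] at hS' hE' ⊢
  have hn1 : (1 : ℝ) ≤ n := by
    have : (2 : ℝ) ≤ n := by exact_mod_cast h.n_ge
    linarith
  have hlogn : 0 ≤ Real.log n := Real.log_nonneg hn1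
  have hT1 : 1 ≤ T := by linarith
  have hT0 : 0 < T := by linarith
  obtain ⟨U, hUdef⟩ : ∃ U : ℝ, U = T ^ γ := ⟨_, rfl⟩
  have hTγ := hT T hT1
  rw [← hUdef] at hTγ hS' ⊢
  have hU1 : 1 ≤ U := by rw [hUdef]; exact Real.one_le_rpow hT1 hγ.le
  have hU0 : 0 < U := by linarith
  have hTU : T ≤ Real.exp (U / γ) := by
    have h8 : Real.log T ≤ U / γ := by
      rw [le_div_iff₀ hγ]
      have h9 : U = Real.exp (Real.log T * γ) := by rw [hUdef, Real.rpow_def_of_pos hT0]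
      have h10 := Real.add_one_le_exp (Real.log T * γ)
      rw [h9]; linarith
    calc T = Real.exp (Real.log T) := (Real.exp_log hT0).symm
      _ ≤ _ := Real.exp_le_exp.2 h8
  have hC₁0 : 0 < C₁ := by linarith
  obtain ⟨ℓ, hℓdef⟩ : ∃ ℓ : ℝ, ℓ = C₁ * U := ⟨_, rfl⟩
  rw [← hℓdef] at hTγ
  have hℓC : C₁ ≤ ℓ := by rw [hℓdef]; exact le_mul_of_one_le_right hC₁0.le hU1
  have hℓ1 : 1 ≤ ℓ := hC₁.trans hℓC
  have hℓ : 0 < ℓ := by linarith
  obtain ⟨K, hKdef⟩ : ∃ K : ℕ, K = ⌈2 / p * Real.log n / ℓ⌉₊ + 1 := ⟨_, rfl⟩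
  have hK1 : 1 ≤ K := by omega
  have hceil := Nat.le_ceil (2 / p * Real.log n / ℓ)
  have harg : 0 ≤ 2 / p * Real.log n / ℓ := by positivity
  have hceil2 := Nat.ceil_lt_add_one harg
  have hKr : (K : ℝ) = (⌈2 / p * Real.log n / ℓ⌉₊ : ℝ) + 1 := by rw [hKdef]; push_cast; ring
  have htop : (n : ℝ) ^ (2 / p) ≤ Real.exp (K * ℓ) := by
    rw [Real.rpow_def_of_pos (by linarith)]
    apply Real.exp_le_exp.2
    have h1 : 2 / p * Real.log n / ℓ ≤ K := by linarith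
    rw [div_le_iff₀ hℓ] at h1
    linarith
  have hK4 : (K : ℝ) ≤ 4 * T := by
    have h1 : 2 / p * Real.log n / ℓ ≤ 2 * Real.log n := by
      rw [div_le_iff₀ hℓ]
      have h2 : 2 / p ≤ 2 := by rw [div_le_iff₀ hp0]; linarith
      have h3 : 2 / p * Real.log n ≤ 2 * Real.log n := mul_le_mul_of_nonneg_right h2 hlogn
      have h4 : 2 * Real.log n ≤ 2 * Real.log n * ℓ := le_mul_of_one_le_right (by positivity) hℓ1
      linarith
    linarith
  obtain ⟨θ, t1, t2, t3, t4, t5, t6⟩ := exists_bands p hp1.le ℓ hℓ K hK1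
  have hEmb := embData_of hp1 hp2 h hℓ hK1 htop t1 t6 t3 t4 t5
  obtain ⟨G, hG, hGxy⟩ := hS' (Fin (K + 1)) μ ρ X θ (40 / ℓ) _ hEmb
  have hband : BandData p μ ρ X ℓ K θ G B (δ / 4) := by
    refine ⟨h, hℓ, hB, htop, t1, t2, t4, t5, ?_, ?_, ?_⟩
    · intro x y
      rw [← hTdef]
      exact (hGxy x y).1
    · intro x y
      refine (hGxy x y).2.1.trans (le_trans (le_of_eq ?_) h40)
      rw [hℓdef]
      field_simp
    · intro x y
      exact (hGxy x y).2.2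
  refine ⟨K, fun k => Nk p ℓ (k : ℕ), fun k ω x => (Nk p ℓ (k : ℕ) : ℝ) ^ (-(1 / p)) *
    ∑ m, sg (ω m).2 * ∑ a, ∑ b, G a b x * bb ρ X (θ k) a b (ω m).1, ?_, ?_⟩
  · refine hK4.trans (mul_le_mul_of_nonneg_right ?_ hT0.le)
    linarith
  intro x y hxy
  have hψ : ∀ (k : Fin (K + 1)) (ω : Fin (Nk p ℓ (k : ℕ)) → W × Bool),
      ((Nk p ℓ (k : ℕ) : ℝ) ^ (-(1 / p)) * (∑ m, sg (ω m).2 * ∑ a, ∑ b, G a b x * bb ρ X (θ k) a b (ω m).1) -
        (Nk p ℓ (k : ℕ) : ℝ) ^ (-(1 / p)) * (∑ m, sg (ω m).2 * ∑ a, ∑ b, G a b y * bb ρ X (θ k) a b (ω m).1)) / ρ x y =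
      (Nk p ℓ (k : ℕ) : ℝ) ^ (-(1 / p)) * SS (Yk ρ X (θ k) G x y) ω := by
    intro k ω
    rw [← mul_sub, ← Finset.sum_sub_distrib, mul_div_assoc, Finset.sum_div]
    congr 1
    unfold SS
    refine Finset.sum_congr rfl fun m _ => ?_
    rw [← mul_sub, mul_div_assoc]
    congr 1
    simp only [Yk, Sop, Sk, ← Finset.sum_sub_distrib, Finset.sum_div]
    refine Finset.sum_congr rfl fun a _ => Finset.sum_congr rfl fun b _ => ?_
    ring
  simp only [hψ]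
  have hμ := h.μ_nonneg
  have hMp : ∀ k : Fin (K + 1), EN μ (Nk p ℓ (k : ℕ))
      (fun ω => |(Nk p ℓ (k : ℕ) : ℝ) ^ (-(1 / p)) * SS (Yk ρ X (θ k) G x y) ω| ^ p) =
      Mp μ p (Nk p ℓ (k : ℕ)) (Yk ρ X (θ k) G x y) ^ p := by
    intro k
    unfold Mp
    rw [← Real.rpow_mul, one_div_mul_cancel hp0.ne', Real.rpow_one]
    unfold EN
    exact Finset.sum_nonneg fun ω _ => mul_nonneg (Finset.prod_nonneg fun m _ =>
      div_nonneg (hμ _) (by norm_num)) (Real.rpow_nonneg (abs_nonneg _) _)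
  refine ⟨?_, ?_⟩
  · intro k
    refine le_trans (EN_mono hμ fun ω => ?_) (hE' μ ρ X ℓ K θ G B (δ / 4) hband x y k)
    apply Real.exp_le_exp.2
    refine mul_le_mul_of_nonneg_right ?_ (abs_nonneg _)
    rw [le_div_iff₀ (by positivity)]
    have h1 : CE * B * T ≤ Real.exp (Real.log (CE * B) * U + U / γ) := by
      rw [Real.exp_add]
      refine mul_le_mul ?_ hTU hT0.le (Real.exp_pos _).le
      have : CE * B = Real.exp (Real.log (CE * B)) := (Real.exp_log (by positivity)).symm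
      calc CE * B = Real.exp (Real.log (CE * B)) := this
        _ ≤ _ := Real.exp_le_exp.2 (le_mul_of_one_le_right hlogCB hU1)
    calc Real.exp (-((4 + CE * C₁ + Real.log (CE * B) + 1 / γ) * U)) * (CE * B * T)
        ≤ Real.exp (-((4 + CE * C₁ + Real.log (CE * B) + 1 / γ) * U)) *
          Real.exp (Real.log (CE * B) * U + U / γ) := mul_le_mul_of_nonneg_left h1 (Real.exp_pos _).le
      _ = Real.exp (-(4 * U) + -(CE * ℓ)) := by
          rw [← Real.exp_add, hℓdef]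
          congr 1
          ring
      _ ≤ Real.exp (-(CE * ℓ)) := Real.exp_le_exp.2 (by linarith)
  · simp only [hMp]
    have hMnn : 0 ≤ ∑ k : Fin (K + 1), Mp μ p (Nk p ℓ (k : ℕ)) (Yk ρ X (θ k) G x y) ^ p := by
      refine Finset.sum_nonneg fun k _ => ?_
      exact Real.rpow_nonneg (rltgt_Mp_nonneg hμ _ _) _
    have hexpmono : Real.exp (-ℓ) ≤ Real.exp (-C₁) := Real.exp_le_exp.2 (by linarith)
    rcases lt_or_gt_of_ne hp2 with hlt | hgt
    · obtain ⟨a1, a2⟩ := sum_Mp_lt hband hp1 hlt hxy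
      refine htol _ hMnn ?_ ?_
      · have h1 : (1 - Real.exp (-C₁)) ^ (1 / p) ≤ (1 - Real.exp (-ℓ)) ^ (1 / p) := by
          refine Real.rpow_le_rpow ?_ (by linarith) (by positivity)
          have : Real.exp (-C₁) ≤ 1 := Real.exp_le_one_iff.2 (by linarith)
          linarith
        linarith
      · linarith
    · have hBℓ : B ≤ Real.exp ℓ := hBC.trans (Real.exp_le_exp.2 hℓC)
      obtain ⟨a1, a2⟩ := sum_Mp_gt hband hgt hBℓ hxy
      refine htol _ hMnn (by linarith) (a2.trans ?_)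
      have h1 : Real.exp (Real.exp (-ℓ) * Real.exp (p - 1) / p) ≤ 1 + δ / 4 := by
        refine le_trans (Real.exp_le_exp.2 ?_) hexp
        gcongr
      have h2 : ((K : ℝ) + 1) ^ (1 / p) * (12 * p * Real.exp (-ℓ)) ≤ δ / 4 := by
        refine le_trans (mul_le_mul_of_nonneg_right ?_ (by positivity)) hTγ
        refine Real.rpow_le_rpow (by positivity) (by linarith) (by positivity)
      have h3 : Real.exp (Real.exp (-ℓ) * Real.exp (p - 1) / p) * (1 + δ / 4) ≤ (1 + δ / 4) * (1 + δ / 4) :=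
        mul_le_mul_of_nonneg_right h1 (by linarith)
      nlinarith

end Crest.Agent.LpDim
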